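import Crest.Agent.R304.DefsA

set_option autoImplicit false

namespace Crest.Agent.R304

open Finset Crest.Agent.PT Crest.Agent.QC Crest.Agent.R317 Crest.Agent.R300U Crest.Agent.R309
open Crest.Agent.R304W

namespace AFIN

lemma mem_MM0 {N : ℕ} (σ : Mp N) :
    σ ∈ MM (∅ : Finset (Fin N)) ↔ (∀ v, σ (σ v) = v) ∧ ∀ v, σ v ≠ v := by
  simp [MM]

lemma even_of {N : ℕ} (σ : Mp N) (h : σ ∈ MM (∅ : Finset (Fin N))) : N % 2 = 0 := by
  obtain ⟨h1, h2⟩ := (mem_MM0 σ).1 h
  have hf : (show Function.End (Fin N) from σ) ^ 2 ^ 1 = 1 := by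
    funext v
    exact h1 v
  haveI : Fact (Nat.Prime 2) := ⟨Nat.prime_two⟩
  have := Equiv.Perm.card_fixedPoints_modEq (p := 2) (n := 1) hf
  have e : Fintype.card (Function.fixedPoints (show Function.End (Fin N) from σ)) = 0 := by
    rw [Fintype.card_eq_zero_iff]
    exact ⟨fun x => h2 x.1 x.2⟩
  rw [e, Fintype.card_fin] at this
  exact this

lemma cond_iff (hDic : DicStmt) {N : ℕ} (G : SimpleGraph (Fin N)) [DecidableRel G.Adj]
    (σ : Mp N) :
    All N (fun v => ad N (adjBits G) v (gx (toX σ) v) = true) ↔ ∀ v, G.Adj v (σ v) := by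
  have hg := (hDic N).2.1 σ
  constructor
  · intro h v
    have := h v v.2
    simp only [] at this
    rw [hg, ad, adjBits_getD] at this
    simpa using this
  · intro h v hv
    have := hg ⟨v, hv⟩
    simp only [] at this
    rw [this, ad]
    have e := adjBits_getD G ⟨v, hv⟩ (σ ⟨v, hv⟩)
    simp only [] at e
    rw [e]
    simpa using h ⟨v, hv⟩

end AFIN

open AFIN

theorem AFIN_proof (hLow : LowStmt) (hNpm : NpmStmt) (hCnt : CntStmt) (hDic : DicStmt) :
    AfinStmt := by
  intro N m G _ hm hNm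
  have _ := hCnt
  obtain ⟨-, -, -, -, hval, hvalσ, hsum, hW⟩ := hDic N
  have hfin : ∀ (p : List ℤ) (σ : Mp N), σ ∈ MM (∅ : Finset (Fin N)) →
      finL N m (adjBits G) p (toX σ) =
        if ∀ v, G.Adj v (σ v) then 1 / WL N m p (toX σ) else 0 := by
    intro p σ hσ
    unfold finL
    have h1 := (hvalσ σ).2 hσ
    have h2 := cond_iff hDic G σ
    by_cases h : ∀ v, G.Adj v (σ v)
    · rw [if_pos h, if_pos ⟨h1, h2.2 h⟩]
    · rw [if_neg h, if_neg (fun hh => h (h2.1 hh.2))]
  refine ⟨fun h0 p x => ?_, fun h0 => ?_⟩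
  · by_cases hx : val N x
    · obtain ⟨σ, hσ, rfl⟩ := mem_image.1 ((hval x).1 hx)
      rw [hfin p σ hσ, if_neg]
      intro hadj
      rw [hNpm, card_eq_zero] at h0
      have : σ ∈ (MM ∅).filter (fun σ : Mp N => ∀ v, G.Adj v (σ v)) := mem_filter.2 ⟨hσ, hadj⟩
      rw [h0] at this
      exact absurd this (notMem_empty _)
    · unfold finL
      rw [if_neg (fun hh => hx hh.1)]
  · rw [hNpm] at h0
    obtain ⟨σ₀, hσ₀⟩ := card_ne_zero.1 h0
    obtain ⟨hσ₀, hadj₀⟩ := mem_filter.1 hσ₀
    have hev := even_of σ₀ hσ₀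
    refine ⟨hev, ⟨toX σ₀, mem_image_of_mem _ hσ₀⟩, fun p hI => ?_⟩
    obtain ⟨hWt, -, -, hWL, hZ⟩ := hW m p
    have hm' : (2000 : ℝ) ≤ m := by exact_mod_cast hm
    have hN' : (N : ℝ) ≤ m := by exact_mod_cast hNm
    have hm0 : (0 : ℝ) < m := by linarith
    have hH : (0 : ℝ) < (H0 m : ℝ) := by
      unfold H0; push_cast; positivity
    have hρ : (1 : ℝ) ≤ 1 + 1 / (H0 m : ℝ) := by
      have : (0 : ℝ) ≤ 1 / (H0 m : ℝ) := by positivity
      linarith
    have hm1 : (1 : ℝ) ≤ m := by linarith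
    have hfz : fz N p := by
      by_contra hn
      have h1 := hI.pot hn
      have h2 := hLow N (H0 m) (1 / (m : ℝ) ^ 4) (kF N m p) σ₀ hH (by positivity)
        (by
          rw [div_mul_eq_mul_div, one_mul, div_le_one (by positivity)]
          exact hN'.trans (le_self_pow₀ hm1 (by norm_num)))
        hev hσ₀ (fun v => hI.nn _ _ (hadj₀ v))
      have e : ((rL m : ℕ) : ℝ) / ((m : ℝ) ^ 4 * H0 m) = (m : ℝ) ^ 3 := by
        unfold rL H0; push_cast; field_simp
      rw [e] at h1
      nlinarith [pow_pos hm0 2]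
    have hone : ∀ σ ∈ MM (∅ : Finset (Fin N)), (∀ v, G.Adj v (σ v)) → 1 ≤ w (aF N m p) σ := by
      intro σ _ hadj
      unfold w
      refine le_trans (le_of_eq (prod_const_one (s := (univ : Finset (Fin N)))).symm)
        (prod_le_prod (fun _ _ => zero_le_one) (fun v _ => ?_))
      split_ifs
      · exact le_rfl
      · exact one_le_zpow₀ hρ (hI.nn _ _ (hadj v))
    have hpos : ∀ σ : Mp N, 0 < w (aF N m p) σ := by
      intro σ
      unfold w
      refine prod_pos (fun v _ => ?_)
      split_ifs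
      · exact one_pos
      · exact (hWt _ _).1
    refine ⟨fun x hx => ?_, ?_, ?_⟩
    · obtain ⟨σ, hσ, rfl⟩ := mem_image.1 hx
      rw [hfin p σ hσ]
      split_ifs with h
      · have h1 : (1 : ℚ) ≤ WL N m p (toX σ) := by
          have := hone σ hσ h
          rw [← hWL σ hσ] at this
          exact_mod_cast this
        exact ⟨by positivity, by rw [div_le_one (by linarith)]; exact h1⟩
      · exact ⟨le_rfl, zero_le_one⟩
    · rw [hsum (fun x => (WL N m p x : ℝ) * finL N m (adjBits G) p x), hNpm, card_filter]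
      push_cast
      refine sum_congr rfl fun σ hσ => ?_
      rw [hfin p σ hσ]
      split_ifs with h
      · push_cast
        rw [hWL σ hσ]
        field_simp [(hpos σ).ne']
      · simp
    · rw [hZ, hNpm, card_filter]
      push_cast
      set a := aF N m p with ha
      set C : ℝ := ∑ σ ∈ MM (∅ : Finset (Fin N)), if ∀ v, G.Adj v (σ v) then (1 : ℝ) else 0 with hC
      have hZ0 : 0 ≤ Z a ∅ := sum_nonneg fun σ _ => (hpos σ).le
      have hd := hI.done hfz
      have h1 : Z a ∅ ≤ C + ∑ u : Fin N, ∑ v : Fin N,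
          if u ≠ v ∧ ¬ (G.Adj u v ∧ kF N m p u v = 0) then ZE a u v else 0 := by
        have e : ∑ u : Fin N, ∑ v : Fin N,
            (if u ≠ v ∧ ¬ (G.Adj u v ∧ kF N m p u v = 0) then ZE a u v else 0)
            = ∑ σ ∈ MM (∅ : Finset (Fin N)), ∑ u : Fin N, ∑ v : Fin N,
              if (u ≠ v ∧ ¬ (G.Adj u v ∧ kF N m p u v = 0)) ∧ σ u = v then w a σ else 0 := by
          rw [sum_comm (s := MM (∅ : Finset (Fin N)))]
          refine sum_congr rfl fun u _ => ?_
          rw [sum_comm (s := MM (∅ : Finset (Fin N)))]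
          refine sum_congr rfl fun v _ => ?_
          by_cases h : u ≠ v ∧ ¬ (G.Adj u v ∧ kF N m p u v = 0)
          · rw [if_pos h, ZE, sum_filter]
            exact sum_congr rfl fun σ _ => by simp [h]
          · rw [if_neg h]
            exact (sum_eq_zero fun σ _ => if_neg (fun hh => h hh.1)).symm
        rw [e, hC, ← sum_add_distrib, Z]
        refine sum_le_sum fun σ hσ => ?_
        have hnn : ∀ u : Fin N, 0 ≤ ∑ v : Fin N,
            if (u ≠ v ∧ ¬ (G.Adj u v ∧ kF N m p u v = 0)) ∧ σ u = v then w a σ else 0 :=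
          fun u => sum_nonneg fun v _ => by
            split_ifs
            · exact (hpos σ).le
            · exact le_rfl
        by_cases hg : ∀ u, G.Adj u (σ u) ∧ kF N m p u (σ u) = 0
        · rw [if_pos (fun v => (hg v).1)]
          have : w a σ = 1 := by
            unfold w
            refine prod_eq_one fun v _ => ?_
            split_ifs
            · rfl
            · simp only [ha, aF, ak, (hg v).2, zpow_zero]
          have h2 := sum_nonneg (fun u (_ : u ∈ (univ : Finset (Fin N))) => hnn u)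
          linarith
        · obtain ⟨u, hu⟩ := not_forall.1 hg
          have h2 : w a σ ≤ ∑ v : Fin N,
              if (u ≠ v ∧ ¬ (G.Adj u v ∧ kF N m p u v = 0)) ∧ σ u = v then w a σ else 0 := by
            have := single_le_sum (f := fun v : Fin N =>
              if (u ≠ v ∧ ¬ (G.Adj u v ∧ kF N m p u v = 0)) ∧ σ u = v then w a σ else 0)
              (fun v _ => by
                split_ifs
                · exact (hpos σ).le
                · exact le_rfl) (mem_univ (σ u))
            rwa [if_pos ⟨⟨(((mem_MM0 σ).1 hσ).2 u).symm, hu⟩, rfl⟩] at this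
          have h3 := single_le_sum (fun u (_ : u ∈ (univ : Finset (Fin N))) => hnn u) (mem_univ u)
          have h4 : (0 : ℝ) ≤ if ∀ v, G.Adj v (σ v) then (1 : ℝ) else 0 := by
            split_ifs <;> norm_num
          linarith
      have h2 : ∑ u : Fin N, ∑ v : Fin N,
          (if u ≠ v ∧ ¬ (G.Adj u v ∧ kF N m p u v = 0) then ZE a u v else 0)
          ≤ ∑ _u : Fin N, ∑ _v : Fin N, 3 / (m : ℝ) ^ 4 * Z a ∅ := by
        refine sum_le_sum fun u _ => sum_le_sum fun v _ => ?_
        split_ifs with h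
        · exact (hd u v h.1).resolve_left h.2
        · positivity
      simp only [sum_const, card_univ, Fintype.card_fin, nsmul_eq_mul] at h2
      have h3 : (N : ℝ) * ((N : ℝ) * (3 / (m : ℝ) ^ 4 * Z a ∅)) ≤ 1 / 2 * Z a ∅ := by
        have e : (N : ℝ) * ((N : ℝ) * (3 / (m : ℝ) ^ 4 * Z a ∅))
            = ((N : ℝ) * N * 3 / (m : ℝ) ^ 4) * Z a ∅ := by ring
        rw [e]
        refine mul_le_mul_of_nonneg_right ?_ hZ0
        rw [div_le_iff₀ (by positivity)]
        have hN0 : (0 : ℝ) ≤ N := by positivity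
        have h5 : (N : ℝ) * N ≤ (m : ℝ) ^ 2 := by nlinarith
        have h6 : (6 : ℝ) ≤ (m : ℝ) ^ 2 := by nlinarith
        have h7 : (m : ℝ) ^ 4 = (m : ℝ) ^ 2 * (m : ℝ) ^ 2 := by ring
        nlinarith [pow_pos hm0 2]
      linarith

end Crest.Agent.R304
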