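import Crest.Agent.R304.DefsA
import Crest.Agent.R309.HT

/-! Row 304, task AHT: heights and ratios of the weights. -/

set_option autoImplicit false

namespace Crest.Agent.R304

open Finset Crest.Agent.PT Crest.Agent.QC Crest.Agent.R317 Crest.Agent.R300U Crest.Agent.R309

namespace AHT

theorem pow_le_two_pow {m : ℕ} (hm : 2000 ≤ m) : m ^ 150 ≤ 2 ^ m := by
  induction m, hm using Nat.le_induction with
  | base =>
    calc 2000 ^ 150 ≤ (2 ^ 11) ^ 150 := Nat.pow_le_pow_left (by norm_num) _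
      _ = 2 ^ (11 * 150) := (pow_mul _ _ _).symm
      _ ≤ 2 ^ 2000 := Nat.pow_le_pow_right two_pos (by omega)
  | succ m hm ih =>
    have h1 : ((m + 1) * 2000) ^ 150 ≤ (m * 2001) ^ 150 := Nat.pow_le_pow_left (by omega) _
    rw [mul_pow, mul_pow] at h1
    have h2 : 2001 ^ 150 ≤ 2 * 2000 ^ 150 := by norm_num
    have h3 : (m + 1) ^ 150 * 2000 ^ 150 ≤ (2 * m ^ 150) * 2000 ^ 150 := by
      calc _ ≤ m ^ 150 * 2001 ^ 150 := h1
        _ ≤ m ^ 150 * (2 * 2000 ^ 150) := Nat.mul_le_mul_left _ h2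
        _ = _ := by ring
    have h4 := Nat.le_of_mul_le_mul_right h3 (by positivity)
    rw [pow_succ 2 m]; omega

theorem one_add_pow_le {x : ℝ} (hx : 0 ≤ x) (k : ℕ) (h : 2 * k * x ≤ 1) :
    (1 + x) ^ k ≤ 1 + 2 * k * x := by
  induction k with
  | zero => simp
  | succ k ih =>
    push_cast at h ⊢
    have h1 : 2 * k * x ≤ 1 := by nlinarith
    have h2 := ih h1
    rw [pow_succ]
    have h3 : (1 + x) ^ k * (1 + x) ≤ (1 + 2 * k * x) * (1 + x) :=
      mul_le_mul_of_nonneg_right h2 (by linarith)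
    nlinarith [mul_le_mul_of_nonneg_right h1 hx]

theorem zpow_near {x : ℝ} (hx : 0 ≤ x) (K : ℕ) (h : 2 * K * x ≤ 1) (d : ℤ) (hd : |d| ≤ K) :
    |(1 + x) ^ d - 1| ≤ 2 * K * x := by
  have hk : d.natAbs ≤ K := by rw [Int.abs_eq_natAbs] at hd; omega
  have h1 : (1 : ℝ) ≤ (1 + x) ^ d.natAbs := one_le_pow₀ (by linarith)
  have h2 : (1 + x) ^ d.natAbs ≤ 1 + 2 * K * x :=
    (pow_le_pow_right₀ (by linarith) hk).trans (one_add_pow_le hx K h)
  have h0 : 0 ≤ 2 * K * x := by positivity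
  rcases Int.natAbs_eq d with e | e
  · rw [e, zpow_natCast, abs_le]
    constructor <;> linarith
  · rw [e, zpow_neg, zpow_natCast, abs_le]
    set y := (1 + x) ^ d.natAbs with hy
    have hy0 : 0 < y := by linarith
    have a1 : y⁻¹ ≤ 1 := inv_le_one_of_one_le₀ h1
    have a2 : y * y⁻¹ = 1 := mul_inv_cancel₀ hy0.ne'
    have a3 : 0 < y⁻¹ := inv_pos.2 hy0
    constructor
    · nlinarith
    · linarith

theorem abs_dl (N m : ℕ) (adj : List Bool) (p : List ℤ) (B : List X) (u v : ℕ) (hm : 1 ≤ m) :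
    |dl N m adj p B u v| ≤ m := by
  unfold dl
  split_ifs <;> simp <;> omega

theorem kk_upd (N m : ℕ) (adj : List Bool) (p : List ℤ) (B : List X) {u v : ℕ} (hu : u < N)
    (hv : v < N) : kk N m (updL N m adj p B) u v =
      zcl (m ^ 116) (kk N m p u v + dl N m adj p B (min u v) (max u v)) := by
  have h1 : min u v < N := lt_of_le_of_lt (min_le_left _ _) hu
  have h2 : max u v < N := max_lt hu hv
  have h3 : min u v * N + max u v < N * N := by
    have : (min u v + 1) * N ≤ N * N := Nat.mul_le_mul_right _ h1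
    rw [Nat.succ_mul] at this
    omega
  have h4 : (min u v * N + max u v) / N = min u v := by
    rw [Nat.add_comm, Nat.add_mul_div_right _ _ (by omega), Nat.div_eq_of_lt h2, zero_add]
  have h5 : (min u v * N + max u v) % N = max u v := by
    rw [Nat.add_comm, Nat.add_mul_mod_self_right, Nat.mod_eq_of_lt h2]
  have h6 : kk N m p (min u v) (max u v) = kk N m p u v := by
    unfold kk
    rw [min_eq_left (min_le_max), max_eq_right (min_le_max)]
  conv_lhs => unfold kk updL
  rw [getD_mkL _ _ (by omega), if_pos h3, h4, h5, h6]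

theorem kk_diff (N m : ℕ) (adj : List Bool) (p : List ℤ) (B : List X) {u v : ℕ} (hu : u < N)
    (hv : v < N) (hm : 1 ≤ m) : |kk N m (updL N m adj p B) u v - kk N m p u v| ≤ m := by
  rw [kk_upd N m adj p B hu hv]
  have h1 := abs_dl N m adj p B (min u v) (max u v) hm
  have h2 : |kk N m p u v| ≤ (m ^ 116 : ℕ) := HT.abs_zcl _ _
  generalize kk N m p u v = k at *
  generalize dl N m adj p B (min u v) (max u v) = d at *
  generalize m ^ 116 = L at *
  unfold zcl
  rw [abs_le] at *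
  omega

end AHT

open AHT in
theorem AHT_proof : AhtStmt := by
  intro N m adj p x hm hN hx
  have hH : 0 < H0 m := by unfold H0; positivity
  refine ⟨?_, fun B => ?_⟩
  · unfold WL
    rw [if_pos hx]
    have b1 : HT.Ht (1 + 1 / (H0 m : ℚ)) (m - 1) := by
      have h1 := pow_le_two_pow hm
      have h2 : 2 ^ m = 2 * 2 ^ (m - 1) := by rw [← pow_succ']; congr 1; omega
      have h3 : m * H0 m ≤ m ^ 150 := by
        unfold H0
        rw [← pow_succ']
        exact Nat.pow_le_pow_right (by omega) (by omega)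
      have h4 : H0 m + 1 ≤ 2 ^ (m - 1) := by nlinarith
      refine ⟨H0 m + 1, H0 m, by omega, hH, h4, by omega, ?_⟩
      have : (H0 m : ℚ) ≠ 0 := by positivity
      push_cast
      field_simp
    have b2 : |∑ v ∈ range N, kk N m p v (gx x v)| ≤ (m ^ 117 : ℕ) := by
      refine (abs_sum_le_sum_abs _ _).trans ?_
      refine (sum_le_card_nsmul _ _ ((m ^ 116 : ℕ) : ℤ) (fun v _ => HT.abs_zcl _ _)).trans ?_
      rw [card_range, nsmul_eq_mul, ← Nat.cast_mul, Nat.cast_le, pow_succ' m 116]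
      exact Nat.mul_le_mul_right _ hN
    obtain ⟨c1, c2, c3⟩ := (b1.zpow _ _ b2).fin
    have b3 : m ^ 117 * (m - 1) + 1 ≤ rh m := by
      unfold rh
      have h1 : 1 ≤ m ^ 117 := Nat.one_le_pow _ _ (by omega)
      have h2 : m ^ 118 = m ^ 117 * (m - 1) + m ^ 117 := by
        rw [← Nat.mul_succ, pow_succ m 117]; congr 1; omega
      omega
    have b4 := Nat.pow_le_pow_right (by norm_num : 0 < 2) b3
    exact ⟨c1, c2.trans_le b4, c3.trans_le b4⟩
  · unfold WL
    rw [if_pos hx, if_pos hx]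
    have hHr : (0 : ℝ) < H0 m := by exact_mod_cast hH
    have hm0 : (2000 : ℝ) ≤ m := by exact_mod_cast hm
    have hmp : (0 : ℝ) < m := by linarith
    set E := ∑ v ∈ range N, kk N m p v (gx x v) with hE
    set E' := ∑ v ∈ range N, kk N m (updL N m adj p B) v (gx x v) with hE'
    have d1 : |E' - E| ≤ (m ^ 2 : ℕ) := by
      rw [hE, hE', ← sum_sub_distrib]
      refine (abs_sum_le_sum_abs _ _).trans ?_
      refine (sum_le_card_nsmul _ _ (m : ℤ) (fun v hv => ?_)).trans ?_
      · have hv' := mem_range.1 hv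
        have := (all_iff _).1 hx.2 ⟨v, hv'⟩
        exact kk_diff N m adj p B hv' this.1 (by omega)
      · rw [card_range, nsmul_eq_mul, ← Nat.cast_mul, Nat.cast_le, pow_two]
        exact Nat.mul_le_mul_right _ hN
    have d2 : 2 * ((m ^ 2 : ℕ) : ℝ) * (1 / (H0 m : ℝ)) ≤ 1 / rH m := by
      have e1 : (H0 m : ℝ) = (m : ℝ) ^ 105 * (m : ℝ) ^ 2 * m := by
        unfold H0; push_cast; ring
      have e2 : (rH m : ℝ) = (m : ℝ) ^ 105 := by unfold rH; push_cast; ring
      have p1 : (0 : ℝ) < (m : ℝ) ^ 105 := pow_pos hmp _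
      have p2 : (0 : ℝ) < (m : ℝ) ^ 2 := pow_pos hmp _
      rw [e1, e2, Nat.cast_pow]
      generalize (m : ℝ) ^ 105 = a at *
      generalize (m : ℝ) ^ 2 = b at *
      rw [mul_one_div, div_le_div_iff₀ (by positivity) p1]
      nlinarith [mul_pos p1 p2]
    have d3 : 1 / (rH m : ℝ) ≤ 1 := by
      have : 1 ≤ rH m := Nat.one_le_pow _ _ (by omega)
      have h : (1 : ℝ) ≤ rH m := by exact_mod_cast this
      rw [div_le_one (by linarith)]
      exact h
    have d4 := zpow_near (x := 1 / (H0 m : ℝ)) (by positivity) (m ^ 2) (d2.trans d3) _ d1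
    have hρ : (0 : ℝ) < 1 + 1 / (H0 m : ℝ) := by positivity
    have e3 : (1 + 1 / (H0 m : ℝ)) ^ E' = (1 + 1 / (H0 m : ℝ)) ^ E * (1 + 1 / (H0 m : ℝ)) ^ (E' - E) := by
      rw [← zpow_add₀ hρ.ne']; congr 1; ring
    have hp : (0 : ℝ) < (1 + 1 / (H0 m : ℝ)) ^ E := zpow_pos hρ _
    simp only [Rat.cast_zpow, Rat.cast_add, Rat.cast_one, Rat.cast_div, Rat.cast_natCast]
    rw [e3, ← mul_sub_one, abs_mul, abs_of_pos hp, div_eq_mul_one_div _ (rH m : ℝ)]
    exact mul_le_mul_of_nonneg_left (d4.trans d2) hp.le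

end Crest.Agent.R304
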