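import Crest.Agent.R304.DefsA

set_option autoImplicit false

namespace Crest.Agent.R304

open Finset Crest.Agent.PT Crest.Agent.QC Crest.Agent.R317 Crest.Agent.R300U Crest.Agent.R309
open Crest.Agent.R304W

namespace AI0

theorem kF_nil (N m : ℕ) (u v : Fin N) : kF N m [] u v = 0 := by
  simp [kF, kk, zcl]

theorem aF_nil (N m : ℕ) (u v : Fin N) : aF N m [] u v = 1 := by
  simp [aF, ak, kF_nil]

theorem w_nil (N m : ℕ) (σ : Mp N) : w (aF N m []) σ = 1 := by
  simp [w, aF_nil]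

theorem Z_nil (N m : ℕ) : Z (aF N m []) ∅ = ((MM (∅ : Finset (Fin N))).card : ℝ) := by
  simp [Z, w_nil]

theorem ZE_nil (N m : ℕ) (p q : Fin N) : ZE (aF N m []) p q =
    (((MM ∅).filter (fun σ : Mp N => σ p = q)).card : ℝ) := by
  simp [ZE, w_nil]

end AI0

open AI0 in
theorem AI0_proof (hCnt : CntStmt) (hDic : DicStmt) : Ai0Stmt := by
  intro N m G hm hN hE
  obtain ⟨h1, h2, h3⟩ := hCnt N
  have hcard : (MM (∅ : Finset (Fin N))).card = ∏ i ∈ range (N / 2), (2 * i + 1) :=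
    h1 (N / 2) ∅ (by simp; omega)
  have hpos : 0 < (MM (∅ : Finset (Fin N))).card := by
    rw [hcard]; exact Finset.prod_pos (fun i _ => by omega)
  have hposR : (0 : ℝ) < (MM (∅ : Finset (Fin N))).card := by exact_mod_cast hpos
  have hmR : (2000 : ℝ) ≤ m := by exact_mod_cast hm
  have hNR : (N : ℝ) ≤ m := by exact_mod_cast hN
  have hnfz : ¬ fz N [] := by simp [fz]
  refine ⟨⟨?_, ?_, ⟨?_, ?_⟩, ?_, ?_⟩, ?_⟩
  · intro u v; simp [kF_nil]
  · intro u v _; simp [kF_nil]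
  · rw [Z_nil]; exact hposR
  · intro p q hpq
    rw [Z_nil, ZE_nil]
    have h := h2 p q hpq hE
    set c := ((MM ∅).filter (fun σ : Mp N => σ p = q)).card with hc
    have hle : (MM (∅ : Finset (Fin N))).card ≤ c * m := by
      rw [← h]; exact Nat.mul_le_mul_left _ (by omega)
    have hleR : ((MM (∅ : Finset (Fin N))).card : ℝ) ≤ c * m := by exact_mod_cast hle
    have hc0 : (0 : ℝ) ≤ c := Nat.cast_nonneg _
    have hm4 : (m : ℝ) ≤ 3 * (m : ℝ) ^ 4 := by
      have : (1 : ℝ) ≤ (m : ℝ) ^ 3 := one_le_pow₀ (by linarith)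
      nlinarith
    have hp : (0 : ℝ) < 3 * (m : ℝ) ^ 4 := by positivity
    rw [one_div, inv_mul_le_iff₀ hp]
    nlinarith
  · intro h; exact absurd h hnfz
  · intro _
    have hZ : Z (ak (H0 m) (kF N m [])) ∅ = ((MM (∅ : Finset (Fin N))).card : ℝ) := Z_nil N m
    unfold pot
    rw [hZ]
    simp only [kF_nil, Int.cast_zero, ite_self, sum_const_zero, mul_zero, sub_zero,
      Nat.cast_zero, zero_div]
    have h3R : ((MM (∅ : Finset (Fin N))).card : ℝ) ≤ (N : ℝ) ^ N := by exact_mod_cast h3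
    have hl : Real.log ((MM (∅ : Finset (Fin N))).card : ℝ) ≤ Real.log ((N : ℝ) ^ N) :=
      Real.log_le_log hposR h3R
    rw [Real.log_pow] at hl
    have hlogN : Real.log (N : ℝ) ≤ N := Real.log_le_self (Nat.cast_nonneg _)
    have hN0 : (0 : ℝ) ≤ N := Nat.cast_nonneg _
    nlinarith
  · obtain ⟨-, -, -, -, -, -, -, hW⟩ := hDic N
    rw [(hW m []).2.2.2.2, Z_nil, hcard, z0L]
    push_cast
    rfl

end Crest.Agent.R304
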