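import Crest.Agent.R304.DefsA

/-!
Row 304, task AINI: the initial sampler is close to the uniform perfect matching.
-/

set_option autoImplicit false

namespace Crest.Agent.R304

open Finset Crest.Agent.PT Crest.Agent.QC Crest.Agent.R317 Crest.Agent.R300U Crest.Agent.R309

namespace AINI

variable {N Q : ℕ}

/-- rank of a key -/
def rk (κ : Fin N → Fin Q) (v : Fin N) : ℕ := (univ.filter fun j => κ j < κ v).card

theorem rk_lt (κ : Fin N → Fin Q) (v : Fin N) : rk κ v < N := by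
  unfold rk
  have : (univ.filter fun j => κ j < κ v) ⊂ univ := by
    rw [ssubset_iff_of_subset (subset_univ _)]
    exact ⟨v, mem_univ _, by simp⟩
  simpa using card_lt_card this

theorem rk_mono (κ : Fin N → Fin Q) (v w : Fin N) (h : κ v < κ w) : rk κ v < rk κ w := by
  unfold rk
  apply card_lt_card
  rw [ssubset_iff_of_subset]
  · exact ⟨v, by simpa using h, by simp⟩
  · intro j hj
    simp only [mem_filter, mem_univ, true_and] at hj ⊢
    exact hj.trans h

theorem rk_inj (κ : Fin N → Fin Q) (hκ : Function.Injective κ) : Function.Injective (rk κ) := by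
  intro v w h
  rcases lt_trichotomy (κ v) (κ w) with h1 | h1 | h1
  · exact absurd h (rk_mono κ v w h1).ne
  · exact hκ h1
  · exact absurd h.symm (rk_mono κ w v h1).ne

theorem rk_surj (κ : Fin N → Fin Q) (hκ : Function.Injective κ) (r : ℕ) (hr : r < N) :
    ∃ j, rk κ j = r := by
  have h1 : Function.Injective (fun v => (⟨rk κ v, rk_lt κ v⟩ : Fin N)) := by
    intro v w h
    exact rk_inj κ hκ (by simpa using h)
  obtain ⟨j, hj⟩ := Finite.surjective_of_injective h1 ⟨r, hr⟩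
  exact ⟨j, by simpa using hj⟩

theorem rk_perm (κ : Fin N → Fin Q) (π : Equiv.Perm (Fin N)) (v : Fin N) :
    rk (κ ∘ π) v = rk κ (π v) := by
  unfold rk
  refine card_bij (fun j _ => π j) ?_ ?_ ?_
  · intro j hj; simpa using hj
  · intro i _ j _ h; exact π.injective h
  · intro j hj
    exact ⟨π.symm j, by simpa using hj, by simp⟩

theorem xr_lt {r : ℕ} (hN : N % 2 = 0) (hr : r < N) : xr r < N := by
  unfold xr; split_ifs <;> omega

theorem xr_xr (r : ℕ) : xr (xr r) = r := by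
  unfold xr; split_ifs <;> omega

theorem xr_ne (r : ℕ) : xr r ≠ r := by
  unfold xr; split_ifs <;> omega

open Classical in
/-- the matching defined by the keys -/
noncomputable def fk (κ : Fin N → Fin Q) : Mp N :=
  fun v => if h : ∃ j, rk κ j = xr (rk κ v) then Classical.choose h else v

theorem rk_fk (hN : N % 2 = 0) (κ : Fin N → Fin Q) (hκ : Function.Injective κ) (v : Fin N) :
    rk κ (fk κ v) = xr (rk κ v) := by
  have h := rk_surj κ hκ _ (xr_lt hN (rk_lt κ v))
  unfold fk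
  rw [dif_pos h]
  exact Classical.choose_spec h

theorem fk_mem (hN : N % 2 = 0) (κ : Fin N → Fin Q) (hκ : Function.Injective κ) :
    fk κ ∈ MM (∅ : Finset (Fin N)) := by
  simp only [MM, mem_filter, mem_univ, true_and]
  refine ⟨fun v => rk_inj κ hκ ?_, fun v => ?_⟩
  · rw [rk_fk hN κ hκ, rk_fk hN κ hκ, xr_xr]
  · simp only [notMem_empty, iff_false]
    intro h
    have := rk_fk hN κ hκ v
    rw [h] at this
    exact xr_ne _ this.symm

theorem fk_perm (hN : N % 2 = 0) (κ : Fin N → Fin Q) (hκ : Function.Injective κ)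
    (π : Equiv.Perm (Fin N)) (v : Fin N) : π (fk (κ ∘ π) v) = fk κ (π v) := by
  apply rk_inj κ hκ
  rw [← rk_perm, rk_fk hN _ (hκ.comp π.injective), rk_fk hN κ hκ, rk_perm]

theorem rkL_eq (m u : ℕ) (κ : Fin N → Fin (2 ^ (5 * m)))
    (h : ∀ j : Fin N, fld u (j * (5 * m)) (5 * m) = κ j) (v : Fin N) : rkL N m u v = rk κ v := by
  unfold rkL rk
  rw [← Fin.sum_univ_eq_sum_range (fun j => if fld u (j * (5 * m)) (5 * m) <
    fld u (v * (5 * m)) (5 * m) then 1 else 0) N, card_filter]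
  refine sum_congr rfl fun j _ => ?_
  simp only [h, Fin.lt_def]

theorem iniL_eq (hN : N % 2 = 0) (m u : ℕ) (κ : Fin N → Fin (2 ^ (5 * m)))
    (h : ∀ j : Fin N, fld u (j * (5 * m)) (5 * m) = κ j) (hκ : Function.Injective κ) :
    iniL N m u = toX (fk κ) := by
  unfold iniL toX
  apply mkL_eq_ofFn
  intro v
  have h1 : fnd N (fun j => rkL N m u j = xr (rkL N m u v)) < N :=
    (fnd_lt_iff _ _).2 ⟨fk κ v, (fk κ v).2, by rw [rkL_eq m u κ h, rkL_eq m u κ h, rk_fk hN κ hκ]⟩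
  have h2 := (fnd_spec N (fun j => rkL N m u j = xr (rkL N m u v))).2.2 h1
  have h3 := rkL_eq m u κ h ⟨_, h1⟩
  have h4 : rk κ ⟨_, h1⟩ = rk κ (fk κ v) := by
    rw [← h3, rk_fk hN κ hκ, ← rkL_eq m u κ h]
    exact h2
  exact congrArg Fin.val (rk_inj κ hκ h4)

theorem card_coll (i j : Fin N) (hij : i ≠ j) :
    (univ.filter fun κ : Fin N → Fin Q => κ i = κ j).card * Q ≤ Q ^ N := by
  have h1 : ((univ.filter fun κ : Fin N → Fin Q => κ i = κ j) ×ˢ (univ : Finset (Fin Q))).card ≤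
      (univ : Finset (Fin N → Fin Q)).card := by
    refine card_le_card_of_injOn (fun p => Function.update p.1 i p.2) (fun _ _ => mem_univ _) ?_
    intro p hp q hq h
    simp only [coe_product, Set.mem_prod, mem_coe, mem_filter, mem_univ, true_and, and_true] at hp hq
    have h' : Function.update p.1 i p.2 = Function.update q.1 i q.2 := h
    have h2 : p.2 = q.2 := by simpa using congrFun h' i
    have h3 : ∀ k, k ≠ i → p.1 k = q.1 k := fun k hk => by
      simpa [Function.update_of_ne hk] using congrFun h' k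
    refine Prod.ext (funext fun k => ?_) h2
    by_cases hk : k = i
    · rw [hk, hp, hq, h3 j hij.symm]
    · exact h3 k hk
  simpa using h1

open Classical in
theorem card_bad :
    (univ.filter fun κ : Fin N → Fin Q => ¬ Function.Injective κ).card * Q ≤ N ^ 2 * Q ^ N := by
  have h1 : (univ.filter fun κ : Fin N → Fin Q => ¬ Function.Injective κ) ⊆
      (univ : Finset (Fin N × Fin N)).biUnion fun p =>
        univ.filter fun κ : Fin N → Fin Q => p.1 ≠ p.2 ∧ κ p.1 = κ p.2 := by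
    intro κ hκ
    simp only [mem_filter, mem_univ, true_and, Function.Injective, not_forall] at hκ
    obtain ⟨i, j, h2, h3⟩ := hκ
    simp only [mem_biUnion, mem_univ, true_and, mem_filter]
    exact ⟨(i, j), h3, h2⟩
  calc _ ≤ (∑ p : Fin N × Fin N,
        (univ.filter fun κ : Fin N → Fin Q => p.1 ≠ p.2 ∧ κ p.1 = κ p.2).card) * Q :=
        Nat.mul_le_mul_right _ ((card_le_card h1).trans card_biUnion_le)
    _ ≤ ∑ _p : Fin N × Fin N, Q ^ N := by
        rw [sum_mul]
        refine sum_le_sum fun p _ => ?_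
        by_cases h : p.1 = p.2
        · simp [h]
        · simp only [ne_eq, h, not_false_eq_true, true_and]
          exact card_coll p.1 p.2 h
    _ = _ := by simp [sq]

theorem sq_le (m : ℕ) (hm : 7 ≤ m) : 2 * m ^ 2 ≤ 2 ^ m := by
  induction m, hm using Nat.le_induction with
  | base => norm_num
  | succ k hk ih => rw [pow_succ 2 k]; nlinarith

theorem Av_keys (b : ℕ) (F : ℕ → ℝ) :
    Av (N * b) F = (∑ κ : Fin N → Fin (2 ^ b), F (finFunctionFinEquiv κ : ℕ)) / ((2 ^ b) ^ N : ℕ) := by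
  unfold Av
  have e : 2 ^ (N * b) = (2 ^ b) ^ N := by rw [mul_comm, pow_mul]
  rw [e, ← Fin.sum_univ_eq_sum_range, ← Equiv.sum_comp finFunctionFinEquiv]
  congr 1
  rw [mul_comm, pow_mul]
  push_cast
  rfl

theorem fld_keys (b : ℕ) (κ : Fin N → Fin (2 ^ b)) (j : Fin N) :
    fld (finFunctionFinEquiv κ : ℕ) (j * b) b = κ j := by
  have h := finFunctionFinEquiv_symm_apply_val (finFunctionFinEquiv κ) j
  rw [Equiv.symm_apply_apply] at h
  rw [h, fld, mul_comm, pow_mul]

theorem WL_nil (m : ℕ) (x : X) (hx : val N x) : WL N m [] x = 1 := by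
  unfold WL
  rw [if_pos hx]
  have : ∀ u v, kk N m [] u v = 0 := fun u v => by simp [kk, zcl]
  simp [this]

end AINI

open AINI in
theorem AINI_proof (hSym : AsymStmt) (hDic : DicStmt) : AiniStmt := by
  classical
  intro N m φ hm hN hev hφ
  obtain ⟨_, _, _, _, hval, _, hsum, _⟩ := hDic N
  set Q : ℕ := 2 ^ (5 * m) with hQ
  set K : Finset (Fin N → Fin Q) := univ.filter fun κ => Function.Injective κ with hK
  set Kb : Finset (Fin N → Fin Q) := univ.filter fun κ => ¬ Function.Injective κ with hKb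
  set n0 : ℝ := ((MM (∅ : Finset (Fin N))).card : ℝ) with hn0
  set S : ℝ := ∑ σ ∈ MM (∅ : Finset (Fin N)), φ (toX σ) with hS
  have hW : ∀ x ∈ Om N, (WL N m [] x : ℝ) = 1 := fun x hx => by
    rw [WL_nil m x ((hval x).2 hx)]; simp
  have hZ : ∑ y ∈ Om N, (WL N m [] y : ℝ) = n0 := by
    rw [sum_congr rfl hW, hsum (fun _ => 1)]; simp [hn0]
  have hA : ∑ x ∈ Om N, (WL N m [] x : ℝ) / (∑ y ∈ Om N, (WL N m [] y : ℝ)) * φ x = S / n0 := by
    rw [hZ, hS, ← hsum φ, sum_div]
    refine sum_congr rfl fun x hx => ?_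
    rw [hW x hx]; ring
  have hS1 : |S| ≤ n0 := by
    calc |S| ≤ ∑ σ ∈ MM (∅ : Finset (Fin N)), |φ (toX σ)| := abs_sum_le_sum_abs _ _
      _ ≤ ∑ _σ ∈ MM (∅ : Finset (Fin N)), (1 : ℝ) := sum_le_sum fun σ _ => hφ _
      _ = n0 := by simp [hn0]
  have hn00 : 0 ≤ n0 := Nat.cast_nonneg _
  have hA1 : |S / n0| ≤ 1 := by
    rw [abs_div, abs_of_nonneg hn00]
    exact div_le_one_of_le₀ hS1 hn00
  have hinj : ∀ κ ∈ K, Function.Injective κ := fun κ hκ => (mem_filter.1 hκ).2
  have hsy := hSym N (Fin Q) K fk (fun κ hκ => ⟨fk_mem hev κ (hinj κ hκ), fun π =>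
    ⟨mem_filter.2 ⟨mem_univ _, (hinj κ hκ).comp π.injective⟩, fk_perm hev κ (hinj κ hκ) π⟩⟩)
    (fun σ => φ (toX σ))
  have hgood : ∑ κ ∈ K, φ (toX (fk κ)) = K.card * (S / n0) := by
    rcases K.eq_empty_or_nonempty with h | ⟨κ, hκ⟩
    · rw [h]; simp
    · have hpos : 0 < n0 := by
        rw [hn0]
        exact_mod_cast card_pos.2 ⟨_, fk_mem hev κ (hinj κ hκ)⟩
      rw [← mul_div_assoc, eq_div_iff hpos.ne', mul_comm]
      exact hsy
  have htot : (K.card : ℝ) + Kb.card = ((Q ^ N : ℕ) : ℝ) := by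
    have := card_filter_add_card_filter_not (s := (univ : Finset (Fin N → Fin Q)))
      (fun κ => Function.Injective κ)
    rw [card_univ, Fintype.card_fun, Fintype.card_fin, Fintype.card_fin] at this
    exact_mod_cast this
  have hT : (0 : ℝ) < ((Q ^ N : ℕ) : ℝ) := by
    have : 0 < Q ^ N := by positivity
    exact_mod_cast this
  have hbad : |∑ κ ∈ Kb, φ (iniL N m (finFunctionFinEquiv κ : ℕ))| ≤ Kb.card := by
    calc _ ≤ ∑ κ ∈ Kb, |φ (iniL N m (finFunctionFinEquiv κ : ℕ))| := abs_sum_le_sum_abs _ _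
      _ ≤ ∑ _κ ∈ Kb, (1 : ℝ) := sum_le_sum fun κ _ => hφ _
      _ = _ := by simp
  have hsplit : ∑ κ : Fin N → Fin Q, φ (iniL N m (finFunctionFinEquiv κ : ℕ)) =
      K.card * (S / n0) + ∑ κ ∈ Kb, φ (iniL N m (finFunctionFinEquiv κ : ℕ)) := by
    rw [← sum_filter_add_sum_filter_not univ (fun κ : Fin N → Fin Q => Function.Injective κ), ← hgood]
    congr 1
    refine sum_congr rfl fun κ hκ => ?_
    rw [iniL_eq hev m _ κ (fld_keys (5 * m) κ) (hinj κ hκ)]
  have hcb : (Kb.card : ℝ) * Q ≤ (N : ℝ) ^ 2 * ((Q ^ N : ℕ) : ℝ) := by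
    have := card_bad (N := N) (Q := Q)
    exact_mod_cast this
  have hsq : 2 * (N : ℝ) ^ 2 ≤ 2 ^ m := by
    have h1 : 2 * N ^ 2 ≤ 2 ^ m := le_trans (by gcongr) (sq_le m (by omega))
    exact_mod_cast h1
  rw [hA, Av_keys, hsplit]
  have e : (K.card * (S / n0) + ∑ κ ∈ Kb, φ (iniL N m (finFunctionFinEquiv κ : ℕ))) /
      ((Q ^ N : ℕ) : ℝ) - S / n0 =
      (∑ κ ∈ Kb, φ (iniL N m (finFunctionFinEquiv κ : ℕ)) - Kb.card * (S / n0)) /
        ((Q ^ N : ℕ) : ℝ) := by
    rw [eq_div_iff hT.ne', sub_mul, div_mul_cancel₀ _ hT.ne', ← htot]; ring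
  rw [e, abs_div, abs_of_pos hT, div_le_iff₀ hT]
  have h2 : |∑ κ ∈ Kb, φ (iniL N m (finFunctionFinEquiv κ : ℕ)) - Kb.card * (S / n0)| ≤
      2 * Kb.card := by
    refine (abs_sub _ _).trans ?_
    rw [abs_mul, abs_of_nonneg (Nat.cast_nonneg (α := ℝ) Kb.card)]
    have := mul_le_mul_of_nonneg_left hA1 (Nat.cast_nonneg (α := ℝ) Kb.card)
    linarith
  refine h2.trans ?_
  have hQ' : (Q : ℝ) = 2 ^ m * 2 ^ (4 * m) := by
    rw [hQ, ← pow_add]; push_cast; congr 1; ring
  have hp : (0 : ℝ) < 2 ^ (4 * m) := by positivity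
  have hp' : (0 : ℝ) < 2 ^ m := by positivity
  rw [inv_pow, inv_mul_eq_div, le_div_iff₀ hp]
  rw [hQ'] at hcb
  have h3 : 2 * (Kb.card : ℝ) * 2 ^ (4 * m) * 2 ^ m ≤ ((Q ^ N : ℕ) : ℝ) * 2 ^ m := by
    nlinarith [mul_le_mul_of_nonneg_right hsq hT.le]
  exact le_of_mul_le_mul_right h3 hp'

end Crest.Agent.R304
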