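import Crest.Agent.R304.DefsA

/-! Row 304, task ALI: the linearised inequality in the list model. -/

set_option autoImplicit false

namespace Crest.Agent.R304

open Finset Crest.Agent.PT Crest.Agent.QC Crest.Agent.R317 Crest.Agent.R300U Crest.Agent.R309
open Crest.Agent.R304W

theorem ALI_proof (hLi : LiStmt) (hDic : DicStmt) (hAmv : AmvStmt) : AliStmt := by
  intro N m p g hm hN hNF
  obtain ⟨-, -, -, -, -, -, hsum, hD⟩ := hDic N
  obtain ⟨hWt, -, hWP, hW, hZ⟩ := hD m p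
  obtain ⟨-, e, he, he'⟩ := hAmv N
  have hm' : (2000 : ℝ) ≤ m := by exact_mod_cast hm
  have hN' : (N : ℝ) ≤ m := by exact_mod_cast hN
  have hm1 : (1 : ℝ) ≤ m := by linarith
  have hε : 1 / (3 * (m : ℝ) ^ 4) ≤ 1 := by
    have := one_le_pow₀ (n := 4) hm1
    rw [div_le_one (by positivity)]
    linarith
  have h1 := hLi N (aF N m p) (fun σ => g (toX σ)) _ hWt (by positivity) hε hNF
  have hV : Var (Om N) (fun x => (WL N m p x : ℝ)) g =
      Var (MM ∅) (w (aF N m p)) (fun σ => g (toX σ)) := by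
    simp only [Var]
    rw [hsum, hsum, hsum, Finset.sum_congr rfl hW,
      Finset.sum_congr rfl fun σ h => congrArg (· * g (toX σ) ^ 2) (hW σ h),
      Finset.sum_congr rfl fun σ h => congrArg (· * g (toX σ)) (hW σ h)]
  have hWL0 : ∀ x, (0 : ℝ) ≤ WL N m p x := by
    intro x
    have : (0 : ℚ) ≤ WL N m p x := by
      unfold WL
      split_ifs
      · positivity
      · exact le_rfl
    exact_mod_cast this
  set T : ℕ → ℝ := fun i => ∑ x ∈ Om N, ∑ y ∈ Om N,
    min ((WL N m p x : ℝ) * WL N m p y)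
        ((WL N m p (mvL N i 1 (x, y)).1 : ℝ) * WL N m p (mvL N i 1 (x, y)).2) *
      (g x + g y - g (mvL N i 1 (x, y)).1 - g (mvL N i 1 (x, y)).2) ^ 2 with hT
  have hT0 : ∀ i, 0 ≤ T i := fun i => Finset.sum_nonneg fun x _ => Finset.sum_nonneg fun y _ =>
    mul_nonneg (le_min (mul_nonneg (hWL0 _) (hWL0 _)) (mul_nonneg (hWL0 _) (hWL0 _))) (sq_nonneg _)
  have hEn : En (aF N m p) (fun σ => g (toX σ)) = ∑ i : Mv N, T (e i) := by
    unfold En
    refine Finset.sum_congr rfl fun i _ => ?_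
    simp only [hT]
    rw [hsum]
    refine Finset.sum_congr rfl fun X hX => ?_
    rw [hsum]
    refine Finset.sum_congr rfl fun Y hY => ?_
    have h2 := (he' i).2 (X, Y)
    simp only at h2
    rw [h2, hW X hX, hW Y hY, hWP, hWP]
  have hle : ∑ i : Mv N, T (e i) ≤ ∑ i ∈ range (N ^ 25), T i := by
    rw [← Finset.sum_image (s := Finset.univ) (g := e) (f := T) fun a _ b _ h => he h]
    refine Finset.sum_le_sum_of_subset_of_nonneg (fun j hj => ?_) fun j _ _ => hT0 j
    obtain ⟨i, -, rfl⟩ := Finset.mem_image.mp hj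
    exact Finset.mem_range.mpr (he' i).1
  have hc : 30 * (N : ℝ) ^ 56 / (1 / (3 * (m : ℝ) ^ 4)) ^ 2 ≤ (m : ℝ) ^ 65 := by
    have h3 : (N : ℝ) ^ 56 ≤ (m : ℝ) ^ 56 := pow_le_pow_left₀ (Nat.cast_nonneg _) hN' 56
    calc 30 * (N : ℝ) ^ 56 / (1 / (3 * (m : ℝ) ^ 4)) ^ 2 = 270 * (N : ℝ) ^ 56 * (m : ℝ) ^ 8 := by
          field_simp
          ring
      _ ≤ m * (m : ℝ) ^ 56 * (m : ℝ) ^ 8 :=
          mul_le_mul_of_nonneg_right (mul_le_mul (le_trans (by norm_num) hm') h3
            (pow_nonneg (Nat.cast_nonneg _) _) (Nat.cast_nonneg _))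
            (pow_nonneg (Nat.cast_nonneg _) _)
      _ = _ := by ring
  rw [hV, hZ]
  refine h1.trans ?_
  rw [hEn]
  exact mul_le_mul hc hle (Finset.sum_nonneg fun i _ => hT0 _) (by positivity)

end Crest.Agent.R304
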