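import Crest.Agent.R304.DefsA

/-! Row 304, task AMV: the list moves are the moves, and they are invertible. -/

set_option autoImplicit false

namespace Crest.Agent.R304

open Finset Crest.Agent.PT Crest.Agent.QC Crest.Agent.R317 Crest.Agent.R300U Crest.Agent.R309
open Crest.Agent.R304W

namespace AMV

variable {N : ℕ}

lemma dig_eq (hN : 0 < N) (i j : ℕ) : dig N i j = i / N ^ j % N :=
  min_eq_left (Nat.mod_lt _ hN).le

def dF (hN : 0 < N) (i j : ℕ) : Fin N := ⟨dig N i j, by rw [dig_eq hN]; exact Nat.mod_lt _ hN⟩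

def cF (hN : 0 < N) (i σ : ℕ) : Mv N := (fun k j => dF hN i (idx σ k j), dF hN i 24)

lemma swN_val (a b v : Fin N) : swN a b v = (Equiv.swap a b v : Fin N) := by
  rw [Equiv.swap_apply_def]
  simp only [swN, Fin.val_inj]
  split_ifs <;> rfl

lemma pmL_val (hN : 0 < N) (i σ : ℕ) (k : Fin 4) (v : Fin N) :
    pmL N i σ k v = (e6 ((cF hN i σ).1 k) v : Fin N) := by
  simp only [e6]
  rw [← swN_val, ← swN_val, ← swN_val]
  rfl

lemma cmpL_toX (hDic : DicStmt) (hN : 0 < N) (i σ : ℕ) (k : Fin 4) (τ : Mp N) :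
    cmpL N i σ k (toX τ) = toX (τ ∘ e6 ((cF hN i σ).1 k)) := by
  refine mkL_eq_ofFn _ _ fun v => ?_
  rw [pmL_val hN, (hDic N).2.1]
  rfl

lemma mvL_toX (hDic : DicStmt) (hAsw : AswStmt) (hN : 0 < N) (i σ : ℕ) (z : Mp N × Mp N) :
    mvL N i σ (toX z.1, toX z.2) = (toX (mv (cF hN i σ) z).1, toX (mv (cF hN i σ) z).2) := by
  have h0 : cmpL N i σ 0 (toX z.1) = _ := cmpL_toX hDic hN i σ 0 z.1
  have h1 : cmpL N i σ 1 (toX z.2) = _ := cmpL_toX hDic hN i σ 1 z.2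
  have h2 : swL N (dig N i 24) _ = _ := hAsw N (dF hN i 24)
    (z.1 ∘ e6 ((cF hN i σ).1 0), z.2 ∘ e6 ((cF hN i σ).1 1))
  simp only [mvL]
  rw [h0, h1, h2]
  exact Prod.ext (cmpL_toX hDic hN i σ 2 _) (cmpL_toX hDic hN i σ 3 _)

lemma e6_rev {c c' : Fin 6 → Fin N} (h : ∀ j, c j = c' j.rev) (v : Fin N) :
    e6 c (e6 c' v) = v := by
  have h0 : c 0 = c' 5 := h 0
  have h1 : c 1 = c' 4 := h 1
  have h2 : c 2 = c' 3 := h 2
  have h3 : c 3 = c' 2 := h 3
  have h4 : c 4 = c' 1 := h 4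
  have h5 : c 5 = c' 0 := h 5
  simp only [e6]
  rw [h0, h1, h2, h3, h4, h5, Equiv.swap_comm (c' 1), Equiv.swap_apply_self,
    Equiv.swap_comm (c' 3), Equiv.swap_apply_self, Equiv.swap_comm (c' 5), Equiv.swap_apply_self]

lemma mv_mv (hBas : BasStmt) {i i' : Mv N} (hs : i'.2 = i.2) (h0 : ∀ j, i.1 0 j = i'.1 2 j.rev)
    (h1 : ∀ j, i.1 1 j = i'.1 3 j.rev) (h2 : ∀ j, i.1 2 j = i'.1 0 j.rev)
    (h3 : ∀ j, i.1 3 j = i'.1 1 j.rev) (z : Mp N × Mp N) : mv i' (mv i z) = z := by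
  have e : ∀ (A : Mp N) {c c' : Fin 6 → Fin N}, (∀ j, c j = c' j.rev) → (A ∘ e6 c) ∘ e6 c' = A := by
    intro A c c' h
    funext v
    simp only [Function.comp_apply, e6_rev h]
  have hsw := ((hBas N).2.2.2.2.1 i.2 (z.1 ∘ e6 (i.1 0), z.2 ∘ e6 (i.1 1))).1
  simp only [mv, hs, e _ h2, e _ h3, Prod.mk.eta, hsw, e _ h0, e _ h1]

/-- the digits of a move -/
def dg (i : Mv N) (t : Fin 25) : Fin N :=
  if h : t.val < 24 then i.1 ⟨t / 6, by omega⟩ ⟨t % 6, by omega⟩ else i.2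

lemma dg_lt (i : Mv N) (k : Fin 4) (j : Fin 6) : dg i ⟨6 * k + j, by omega⟩ = i.1 k j := by
  rw [dg, dif_pos (by show 6 * k.val + j.val < 24; omega)]
  have e1 : (6 * k.val + j.val) / 6 = k.val := by omega
  have e2 : (6 * k.val + j.val) % 6 = j.val := by omega
  simp only [e1, e2, Fin.eta]

lemma dg_top (i : Mv N) : dg i ⟨24, by omega⟩ = i.2 := by
  rw [dg, dif_neg (by simp)]

end AMV

open AMV in
theorem AMV_proof (hBas : BasStmt) (hDic : DicStmt) (hAsw : AswStmt) : AmvStmt := by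
  intro N
  rcases Nat.eq_zero_or_pos N with rfl | hN
  · exact ⟨fun i hi => absurd hi (by simp), fun i => i.2.elim0, fun i => i.2.elim0,
      fun i => i.2.elim0⟩
  refine ⟨fun i _ σ hσ x hx y hy => ?_, fun i => (finFunctionFinEquiv (dg i) : ℕ), ?_,
    fun i => ⟨(finFunctionFinEquiv (dg i)).2, fun z => ?_⟩⟩
  · obtain ⟨X, -, rfl⟩ := Finset.mem_image.mp hx
    obtain ⟨Y, -, rfl⟩ := Finset.mem_image.mp hy
    have h1 := mvL_toX hDic hAsw hN i σ (X, Y)
    have h2 := mvL_toX hDic hAsw hN i (1 - σ) (mv (cF hN i σ) (X, Y))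
    rw [h1, h2, mv_mv hBas (i := cF hN i σ) (i' := cF hN i (1 - σ)) rfl]
    all_goals
      intro j
      obtain rfl | rfl : σ = 0 ∨ σ = 1 := by omega
      all_goals
        simp only [cF]
        congr 1
        fin_cases j <;> rfl
  · intro i i' h
    have h1 : dg i = dg i' := finFunctionFinEquiv.injective (Fin.ext h)
    refine Prod.ext (funext fun k => funext fun j => ?_) ?_
    · rw [← dg_lt, ← dg_lt, h1]
    · rw [← dg_top, ← dg_top, h1]
  · have hd : ∀ t : Fin 25, dF hN (finFunctionFinEquiv (dg i) : ℕ) t = dg i t := by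
      intro t
      refine Fin.ext ?_
      show dig N _ _ = _
      rw [dig_eq hN, ← finFunctionFinEquiv_symm_apply_val, Equiv.symm_apply_apply]
    have hc : cF hN (finFunctionFinEquiv (dg i) : ℕ) 1 = i := by
      refine Prod.ext (funext fun k => funext fun j => ?_) ?_
      · rw [← dg_lt i, ← hd]
        rfl
      · rw [← dg_top i, ← hd]
        rfl
    rw [mvL_toX hDic hAsw hN, hc]

end Crest.Agent.R304
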