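import Crest.Agent.R304.DefsA
import Crest.Agent.R309.PT0

/-! Row 304, task APT1: weights, update and final test are polynomial-time. -/

set_option autoImplicit false

namespace Crest.Agent.R304

open Finset Crest.Agent.PT Crest.Agent.QC Crest.Agent.R317 Crest.Agent.R300U Crest.Agent.R309
open Crest.Agent.R304W

namespace APT1

variable {α : Type} [Enc α]

theorem pt_gx {x : α → X} {v : α → ℕ} (hx : PT x) (hv : PT v) : PT (fun a => gx (x a) (v a)) := by
  unfold gx; fun_prop

attribute [local fun_prop] pt_gx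

theorem dt_val {N : α → ℕ} {x : α → X} (hN : PT N) (hx : PT x) : DT (fun a => val (N a) (x a)) := by
  unfold val; fun_prop

theorem pt_H0 {m : α → ℕ} (hm : PT m) : PT (fun a => H0 (m a)) := by
  unfold H0; fun_prop

theorem pt_rB {m : α → ℕ} (hm : PT m) : PT (fun a => rB (m a)) := by
  unfold rB; fun_prop

theorem zt_kk {N m u v : α → ℕ} {p : α → List ℤ} (hN : PT N) (hm : PT m) (hp : PT p) (hu : PT u)
    (hv : PT v) : ZT (fun a => kk (N a) (m a) (p a) (u a) (v a)) := by
  unfold kk
  exact zt_zcl (by fun_prop) (by fun_prop)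

theorem pt_kk {N m u v : α → ℕ} {p : α → List ℤ} (hN : PT N) (hm : PT m) (hp : PT p) (hu : PT u)
    (hv : PT v) : PT (fun a => kk (N a) (m a) (p a) (u a) (v a)) := (zt_kk hN hm hp hu hv).pt

attribute [local fun_prop] dt_val pt_H0 pt_rB pt_kk

theorem abs_kk (N m : ℕ) (p : List ℤ) (u v : ℕ) : |kk N m p u v| ≤ (m ^ 116 : ℕ) := by
  unfold kk zcl
  rw [abs_le]
  omega

theorem pt_WL {N m : α → ℕ} {p : α → List ℤ} {x : α → X} (hN : PT N) (hm : PT m) (hp : PT p)
    (hx : PT x) : PT (fun a => WL (N a) (m a) (p a) (x a)) := by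
  unfold WL
  refine @PT.iteD _ _ _ _ _ (fun _ => Classical.propDecidable _) _ _ (dt_val hN hx)
    (pt_qzpow (by fun_prop) ?_) (PT.const _)
  refine ZT.ofBound (L := fun a => N a * m a ^ 116) (by fun_prop) (by fun_prop) (fun a => ?_)
  refine (abs_sum_le_sum_abs _ _).trans ((sum_le_sum fun v _ => abs_kk _ _ _ _ _).trans ?_)
  simp

theorem pt_ad {N u v : α → ℕ} {adj : α → List Bool} (hN : PT N) (ha : PT adj) (hu : PT u)
    (hv : PT v) : PT (fun a => ad (N a) (adj a) (u a) (v a)) := by
  unfold ad; fun_prop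

theorem pt_cntB {m u v : α → ℕ} {B : α → List X} (hm : PT m) (hB : PT B) (hu : PT u) (hv : PT v) :
    PT (fun a => cntB (m a) (B a) (u a) (v a)) := by
  unfold cntB; fun_prop

attribute [local fun_prop] pt_WL pt_ad pt_cntB

theorem dt_hiP {N m u v : α → ℕ} {adj : α → List Bool} {p : α → List ℤ} {B : α → List X}
    (hN : PT N) (hm : PT m) (ha : PT adj) (hp : PT p) (hB : PT B) (hu : PT u) (hv : PT v) :
    DT (fun a => hiP (N a) (m a) (adj a) (p a) (B a) (u a) (v a)) := by
  unfold hiP; fun_prop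

theorem dt_fz {N : α → ℕ} {p : α → List ℤ} (hN : PT N) (hp : PT p) :
    DT (fun a => fz (N a) (p a)) := by
  unfold fz; fun_prop

attribute [local fun_prop] dt_hiP dt_fz

theorem dt_stp {N m : α → ℕ} {adj : α → List Bool} {p : α → List ℤ} {B : α → List X}
    (hN : PT N) (hm : PT m) (ha : PT adj) (hp : PT p) (hB : PT B) :
    DT (fun a => stp (N a) (m a) (adj a) (p a) (B a)) := by
  unfold stp; fun_prop

attribute [local fun_prop] dt_stp

theorem pt_dl {N m u v : α → ℕ} {adj : α → List Bool} {p : α → List ℤ} {B : α → List X}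
    (hN : PT N) (hm : PT m) (ha : PT adj) (hp : PT p) (hB : PT B) (hu : PT u) (hv : PT v) :
    PT (fun a => dl (N a) (m a) (adj a) (p a) (B a) (u a) (v a)) := by
  unfold dl; fun_prop

attribute [local fun_prop] pt_dl

theorem pt_updL {N m : α → ℕ} {adj : α → List Bool} {p : α → List ℤ} {B : α → List X}
    (hN : PT N) (hm : PT m) (ha : PT adj) (hp : PT p) (hB : PT B) :
    PT (fun a => updL (N a) (m a) (adj a) (p a) (B a)) := by
  unfold updL; fun_prop

theorem pt_finL {N m : α → ℕ} {adj : α → List Bool} {p : α → List ℤ} {x : α → X}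
    (hN : PT N) (hm : PT m) (ha : PT adj) (hp : PT p) (hx : PT x) :
    PT (fun a => finL (N a) (m a) (adj a) (p a) (x a)) := by
  unfold finL; fun_prop

theorem pt_mOf {q : α → In64} (hq : PT q) : PT (fun a => mOf (q a)) := by
  unfold mOf; fun_prop

end APT1

open APT1 in
theorem APT1_proof : Apt1Stmt :=
  ⟨pt_WL (N := fun q : In64 × List ℤ × X => q.1.1) (by fun_prop) (pt_mOf (by fun_prop))
      (by fun_prop) (by fun_prop),
    pt_updL (N := fun q : In64 × List ℤ × List X => q.1.1) (by fun_prop) (pt_mOf (by fun_prop))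
      (by fun_prop) (by fun_prop) (by fun_prop),
    pt_finL (N := fun q : In64 × List ℤ × X => q.1.1) (by fun_prop) (pt_mOf (by fun_prop))
      (by fun_prop) (by fun_prop) (by fun_prop)⟩

end Crest.Agent.R304
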