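import Crest.Agent.R304.DefsA

/-! Row 304, task APT2: moves, initial sampler, parameters and sizes are polynomial-time. -/

set_option autoImplicit false

namespace Crest.Agent.R304

open Finset Crest.Agent.PT Crest.Agent.QC Crest.Agent.R317 Crest.Agent.R300U Crest.Agent.R309
open Crest.Agent.R304W

namespace APT2

variable {α : Type} [Enc α]

@[fun_prop] theorem pt_gx {x : α → X} {v : α → ℕ} (hx : PT x) (hv : PT v) :
    PT (fun a => gx (x a) (v a)) := by
  unfold gx; fun_prop

@[fun_prop] theorem pt_swN {p q v : α → ℕ} (hp : PT p) (hq : PT q) (hv : PT v) :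
    PT (fun a => swN (p a) (q a) (v a)) := by
  unfold swN; fun_prop

@[fun_prop] theorem pt_dig {N i j : α → ℕ} (hN : PT N) (hi : PT i) (hj : PT j) :
    PT (fun a => dig (N a) (i a) (j a)) := by
  unfold dig
  exact pt_un hN (BT.mod (BT.div (BT.ofPT hi) (BT.pow (BT.ofPT hN) hj)) (BT.ofPT hN))

@[fun_prop] theorem pt_idx {σ k j : α → ℕ} (hσ : PT σ) (hk : PT k) (hj : PT j) :
    PT (fun a => idx (σ a) (k a) (j a)) := by
  unfold idx; fun_prop

@[fun_prop] theorem pt_pmL {N i σ k v : α → ℕ} (hN : PT N) (hi : PT i) (hσ : PT σ) (hk : PT k)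
    (hv : PT v) : PT (fun a => pmL (N a) (i a) (σ a) (k a) (v a)) := by
  unfold pmL; fun_prop

@[fun_prop] theorem pt_cmpL {N i σ k : α → ℕ} {x : α → X} (hN : PT N) (hi : PT i) (hσ : PT σ)
    (hk : PT k) (hx : PT x) : PT (fun a => cmpL (N a) (i a) (σ a) (k a) (x a)) := by
  unfold cmpL; fun_prop

theorem pt_clo {N : α → ℕ} {x y : α → X} {S : α → List Bool} (hN : PT N) (hx : PT x) (hy : PT y)
    (hS : PT S) : PT (fun a => clo (N a) (x a) (y a) (S a)) := by
  unfold clo
  refine pt_mkL (f := fun a v => @decide ((S a).getD v false = true ∨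
    Ex (N a) (fun u => (S a).getD u false = true ∧ (gx (x a) u = v ∨ gx (y a) u = v))) _) hN ?_
  refine pt_decide (DT.or (by fun_prop) ?_)
  refine DT.ex (p := fun (q : α × ℕ) u => (S q.1).getD u false = true ∧
    (gx (x q.1) u = q.2 ∨ gx (y q.1) u = q.2)) (by fun_prop) ?_
  exact DT.and (by fun_prop) (DT.or (DT.eq (BT.ofPT (by fun_prop)) (BT.ofPT (by fun_prop)))
    (DT.eq (BT.ofPT (by fun_prop)) (BT.ofPT (by fun_prop))))

theorem sz_mkL_le {β : Type} [Enc β] (n : ℕ) (f : ℕ → β) (B : ℕ) (h : ∀ i < n, sz (f i) ≤ B) :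
    sz (mkL n f) ≤ n * (2 * B + 1) := by
  have := sz_list_le (mkL n f) B (fun z hz => by
    obtain ⟨i, hi, rfl⟩ := mem_mkL.1 hz
    exact h i hi)
  simpa using this

theorem iterate_eq_rec {β : Type} (f : β → β) (z : β) (n : ℕ) :
    f^[n] z = (Nat.rec z (fun _ b => f b) n : β) := by
  induction n with
  | zero => rfl
  | succ n ih => rw [Function.iterate_succ_apply', ih]

@[fun_prop] theorem pt_clsL {N s : α → ℕ} {x y : α → X} (hN : PT N) (hx : PT x) (hy : PT y)
    (hs : PT s) : PT (fun a => clsL (N a) (x a) (y a) (s a)) := by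
  have hz : PT (fun a => mkL (N a) (fun v => decide (v = s a))) :=
    pt_mkL (f := fun a v => decide (v = s a)) hN
      (pt_decide (DT.eq (BT.ofPT (by fun_prop)) (BT.ofPT (by fun_prop))))
  have h := PT.natRec (s := fun a (_ : ℕ) (b : List Bool) => clo (N a) (x a) (y a) b) hN hz
    (pt_clo (by fun_prop) (by fun_prop) (by fun_prop) (by fun_prop))
    (B := fun a => N a * (2 * 1 + 1)) (hN.pbNat.mul (PB.const _)) (fun a i _ => by
      cases i with
      | zero => exact sz_mkL_le _ _ 1 (fun i _ => by simp)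
      | succ i => exact sz_mkL_le _ _ 1 (fun i _ => by simp))
  exact h.congr (fun a => by unfold clsL; rw [iterate_eq_rec])

@[fun_prop] theorem pt_mixL {N : α → ℕ} {S : α → List Bool} {x y : α → X} (hN : PT N) (hS : PT S)
    (hx : PT x) (hy : PT y) : PT (fun a => mixL (N a) (S a) (x a) (y a)) := by
  unfold mixL
  refine pt_mkL (f := fun a v => if (S a).getD v false = true then gx (y a) v else gx (x a) v) hN ?_
  exact PT.iteD (by fun_prop) (by fun_prop) (by fun_prop)

@[fun_prop] theorem pt_swL {N s : α → ℕ} {z : α → X × X} (hN : PT N) (hs : PT s) (hz : PT z) :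
    PT (fun a => swL (N a) (s a) (z a)) := by
  unfold swL; fun_prop

theorem pt_mvL {N i σ : α → ℕ} {z : α → X × X} (hN : PT N) (hi : PT i) (hσ : PT σ) (hz : PT z) :
    PT (fun a => mvL (N a) (i a) (σ a) (z a)) := by
  unfold mvL
  have h : PT (fun a => swL (N a) (dig (N a) (i a) 24)
      (cmpL (N a) (i a) (σ a) 0 (z a).1, cmpL (N a) (i a) (σ a) 1 (z a).2)) := by fun_prop
  exact PT.pair (pt_cmpL hN hi hσ (PT.const _) h.fst) (pt_cmpL hN hi hσ (PT.const _) h.snd)

theorem pt_rkL {N m u v : α → ℕ} (hN : PT N) (hm : PT m) (hu : BT u) (hv : PT v) :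
    PT (fun a => rkL (N a) (m a) (u a) (v a)) := by
  unfold rkL
  refine PT.sumNat (f := fun a j => if fld (u a) (j * (5 * m a)) (5 * m a) <
    fld (u a) (v a * (5 * m a)) (5 * m a) then 1 else 0) hN ?_
  exact PT.iteD (DT.lt (BT.fld (hu.comp PT.id'.fst) (by fun_prop) (by fun_prop))
    (BT.fld (hu.comp PT.id'.fst) (by fun_prop) (by fun_prop))) (PT.const _) (PT.const _)

@[fun_prop] theorem pt_xr {r : α → ℕ} (hr : PT r) : PT (fun a => xr (r a)) := by
  unfold xr; fun_prop

theorem pt_iniL {N m u : α → ℕ} (hN : PT N) (hm : PT m) (hu : BT u) :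
    PT (fun a => iniL (N a) (m a) (u a)) := by
  unfold iniL
  refine pt_mkL (f := fun a v => fnd (N a) (fun j => rkL (N a) (m a) (u a) j =
    xr (rkL (N a) (m a) (u a) v))) hN ?_
  refine pt_fnd (p := fun (q : α × ℕ) j => rkL (N q.1) (m q.1) (u q.1) j =
    xr (rkL (N q.1) (m q.1) (u q.1) q.2)) (by fun_prop) ?_
  exact DT.eq (BT.ofPT (pt_rkL (by fun_prop) (by fun_prop) (hu.comp PT.id'.fst.fst) (by fun_prop)))
    (BT.ofPT (pt_xr (pt_rkL (by fun_prop) (by fun_prop) (hu.comp PT.id'.fst.fst) (by fun_prop))))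

theorem pt_z0L {N : α → ℕ} (hN : PT N) : PT (fun a => z0L (N a)) := by
  unfold z0L
  exact pt_qprod (f := fun _ i => ((2 * i + 1 : ℕ) : ℚ)) (by fun_prop)
    (pt_qnat (BT.ofPT (by fun_prop)))

@[fun_prop] theorem pt_mOf {q : α → In64} (hq : PT q) : PT (fun a => mOf (q a)) := by
  unfold mOf; fun_prop

theorem sz_val {N : ℕ} {x : X} (h : val N x) : sz x ≤ N * (2 * N + 1) := by
  have := sz_list_le x N (fun z hz => by
    obtain ⟨i, hi, rfl⟩ := List.getElem_of_mem hz
    have h1 := (h.2 i (h.1 ▸ hi)).1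
    rw [gx, List.getD_eq_getElem _ _ hi] at h1
    simpa using h1.le)
  rwa [h.1] at this

theorem sz_int_abs {z : ℤ} {L : ℕ} (h : |z| ≤ L) : sz z ≤ 3 * L + 1 := by
  have h1 := sz_int_le z
  have h2 := size_le_self z.natAbs
  have h3 : z.natAbs ≤ L := by
    have : (z.natAbs : ℤ) ≤ L := by rwa [Int.natCast_natAbs]
    exact_mod_cast this
  omega

theorem abs_kk (N m : ℕ) (p : List ℤ) (u v : ℕ) : |kk N m p u v| ≤ (m ^ 116 : ℕ) := by
  unfold kk zcl
  rw [abs_le]
  omega

theorem abs_dl (N m : ℕ) (adj : List Bool) (p : List ℤ) (B : List X) (u v : ℕ) :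
    |dl N m adj p B u v| ≤ (m + 1 : ℕ) := by
  unfold dl
  rw [abs_le]
  split_ifs <;> omega

theorem sz_updL (N m : ℕ) (adj : List Bool) (p : List ℤ) (B : List X) :
    sz (updL N m adj p B) ≤ (N * N + 1) * (2 * (3 * (m ^ 116 + (m + 1)) + 1) + 1) := by
  unfold updL
  refine sz_mkL_le _ _ _ (fun j _ => sz_int_abs ?_)
  have h1 := abs_kk N m p (j / N) (j % N)
  have h2 := abs_dl N m adj p B (j / N) (j % N)
  split_ifs
  · exact (abs_add_le _ _).trans (by push_cast at *; linarith)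
  · rw [abs_le]; omega
  · rw [abs_le]; omega

theorem sz_iniL (N m u : ℕ) : sz (iniL N m u) ≤ N * (2 * N + 1) := by
  unfold iniL
  exact sz_mkL_le _ _ _ (fun v _ => by simpa using (fnd_spec _ _).1)

theorem pb_bound {N m : α → ℕ} (hN : PT N) (hm : PT m) : PB (fun a => N a * (2 * N a + 1) +
    (N a * N a + 1) * (2 * (3 * (m a ^ 116 + (m a + 1)) + 1) + 1)) :=
  PT.pbNat (by fun_prop)

end APT2

open APT2 in
theorem APT2_proof : Apt2Stmt := by
  refine ⟨?_, ?_, ?_, ?_, ?_, ?_, ?_⟩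
  · exact pt_mvL (N := fun q : In64 × ℕ × ℕ × X × X => q.1.1) (by fun_prop) (by fun_prop)
      (by fun_prop) (by fun_prop)
  · exact pt_iniL (N := fun q : In64 × Bin => q.1.1) (m := fun q => mOf q.1) (by fun_prop)
      (by fun_prop) (BT.val (by fun_prop))
  · exact pt_mOf PT.id'
  · show PT (fun q : In64 => q.1 ^ 25)
    fun_prop
  · show PT (fun q : In64 => q.1 * (5 * mOf q))
    fun_prop
  · exact pt_z0L (N := fun q : In64 => q.1) (by fun_prop)
  · refine ⟨_, pb_bound (N := fun q : In64 => q.1) (m := fun q => mOf q) (by fun_prop)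
      (pt_mOf PT.id'), fun q p y h => ?_, fun q p l => ?_, fun q u => ?_⟩
    · have hv : val q.1 y := by
        by_contra hc
        exact h (by show WL q.1 (mOf q) p y = 0; unfold WL; rw [if_neg hc])
      exact (sz_val hv).trans (Nat.le_add_right _ _)
    · exact (sz_updL _ _ _ _ _).trans (Nat.le_add_left _ _)
    · exact (sz_iniL _ _ _).trans (Nat.le_add_right _ _)

end Crest.Agent.R304
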