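import Crest.Agent.R304.DefsA

set_option autoImplicit false

namespace Crest.Agent.R304

open Finset Crest.Agent.PT Crest.Agent.QC Crest.Agent.R317 Crest.Agent.R300U Crest.Agent.R309
open Crest.Agent.R304W

namespace ASW

variable {N : ℕ}

def R (A B : Mp N) (s : Fin N) : ℕ → Finset (Fin N)
  | 0 => {s}
  | k + 1 => R A B s k ∪ ((R A B s k).image A ∪ (R A B s k).image B)

theorem R_grow (A B : Mp N) (s : Fin N) (k : ℕ) :
    R A B s (k + 1) = R A B s k ∨ k + 1 ≤ (R A B s k).card := by
  induction k with
  | zero => right; simp [R]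
  | succ k ih =>
    by_cases h : R A B s (k + 1) = R A B s k
    · left
      conv_lhs => rw [R, h]
      rfl
    · right
      have h1 := ih.resolve_left h
      have h2 : R A B s k ⊂ R A B s (k + 1) :=
        Finset.ssubset_iff_subset_ne.2 ⟨Finset.subset_union_left, fun h' => h h'.symm⟩
      have := Finset.card_lt_card h2
      omega

theorem s_mem (A B : Mp N) (s : Fin N) (k : ℕ) : s ∈ R A B s k := by
  induction k with
  | zero => simp [R]
  | succ k ih => exact Finset.mem_union_left _ ih

theorem R_eq (hBas : BasStmt) (A B : Mp N) (s : Fin N) : R A B s N = cls A B s := by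
  obtain ⟨h1, h2, h3⟩ := (hBas N).1 A B s
  apply Finset.Subset.antisymm
  · have : ∀ k, R A B s k ⊆ cls A B s := by
      intro k
      induction k with
      | zero => simpa [R] using h1
      | succ k ih =>
        intro v hv
        rcases Finset.mem_union.1 hv with hv | hv
        · exact ih hv
        · rcases Finset.mem_union.1 hv with hv | hv
          · obtain ⟨u, hu, rfl⟩ := Finset.mem_image.1 hv
            exact (h2 u (ih hu)).1
          · obtain ⟨u, hu, rfl⟩ := Finset.mem_image.1 hv
            exact (h2 u (ih hu)).2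
    exact this N
  · have h4 : R A B s (N + 1) = R A B s N := by
      rcases R_grow A B s N with h | h
      · exact h
      · have := Finset.card_le_univ (R A B s N)
        rw [Fintype.card_fin] at this
        omega
    refine h3 _ (s_mem A B s N) (fun v hv => ?_)
    rw [← h4]
    exact ⟨Finset.mem_union_right _ (Finset.mem_union_left _ (Finset.mem_image_of_mem _ hv)),
      Finset.mem_union_right _ (Finset.mem_union_right _ (Finset.mem_image_of_mem _ hv))⟩

theorem iter_iff (hDic : DicStmt) (A B : Mp N) (s : Fin N) (k : ℕ) (v : Fin N) :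
    ((clo N (toX A) (toX B))^[k] (mkL N (fun v => decide (v = s.val)))).getD v false = true ↔
      v ∈ R A B s k := by
  have hg := (hDic N).2.1
  induction k generalizing v with
  | zero =>
    rw [Function.iterate_zero, id, getD_mkL _ _ v.isLt]
    simp [R, Fin.ext_iff]
  | succ k ih =>
    rw [Function.iterate_succ_apply']
    set S := (clo N (toX A) (toX B))^[k] (mkL N (fun v => decide (v = s.val))) with hS
    unfold clo
    rw [getD_mkL _ _ v.isLt, decide_eq_true_iff, R, Finset.mem_union, Finset.mem_union,
      Finset.mem_image, Finset.mem_image]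
    apply or_congr (ih v)
    constructor
    · rintro ⟨u, hu, h1, h2⟩
      have h3 := (ih ⟨u, hu⟩).1 h1
      rcases h2 with h2 | h2
      · left
        refine ⟨⟨u, hu⟩, h3, Fin.ext ?_⟩
        rw [← hg A ⟨u, hu⟩]; exact h2
      · right
        refine ⟨⟨u, hu⟩, h3, Fin.ext ?_⟩
        rw [← hg B ⟨u, hu⟩]; exact h2
    · rintro (⟨u, hu, rfl⟩ | ⟨u, hu, rfl⟩)
      · exact ⟨u, u.isLt, (ih u).2 hu, Or.inl (hg A u)⟩
      · exact ⟨u, u.isLt, (ih u).2 hu, Or.inr (hg B u)⟩

theorem mix_eq (hDic : DicStmt) (S : List Bool) (T : Finset (Fin N))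
    (h : ∀ v : Fin N, S.getD v false = true ↔ v ∈ T) (A B : Mp N) :
    mixL N S (toX A) (toX B) = toX (mix T A B) := by
  have hg := (hDic N).2.1
  unfold mixL
  refine mkL_eq_ofFn _ _ (fun v => ?_)
  unfold mix
  by_cases hv : v ∈ T
  · rw [if_pos ((h v).2 hv), if_pos hv, hg]
  · rw [if_neg (fun h' => hv ((h v).1 h')), if_neg hv, hg]

end ASW

open ASW in
theorem ASW_proof (hBas : BasStmt) (hDic : DicStmt) : AswStmt := by
  intro N s z
  have h : ∀ v : Fin N, (clsL N (toX z.1) (toX z.2) s).getD v false = true ↔ v ∈ cls z.1 z.2 s := by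
    intro v
    rw [← R_eq hBas]
    exact iter_iff hDic z.1 z.2 s N v
  unfold swL sw
  simp only
  rw [mix_eq hDic _ _ h, mix_eq hDic _ _ h]

end Crest.Agent.R304
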