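import Crest.Agent.R304.DefsA

/-! Row 304, task ASYM: an equivariant family of perfect matchings is equidistributed. -/

set_option autoImplicit false

namespace Crest.Agent.R304

open Finset

namespace ASYM

variable {N : ℕ}

theorem mem_MM {σ : Mp N} : σ ∈ MM (∅ : Finset (Fin N)) ↔ (∀ v, σ (σ v) = v) ∧ ∀ v, σ v ≠ v := by
  simp [MM]

theorem cyc (s : Equiv.Perm (Fin N)) (h1 : ∀ v, s (s v) = v) (h2 : ∀ v, s v ≠ v) :
    s.cycleType = Multiset.replicate (N / 2) 2 := by
  have h3 : orderOf s ∣ 2 := orderOf_dvd_of_pow_eq_one (by ext v; simp [pow_two, h1])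
  have h4 : s.cycleType = Multiset.replicate s.cycleType.card 2 := by
    rw [Multiset.eq_replicate_card]
    intro n hn
    exact le_antisymm (Nat.le_of_dvd two_pos ((Equiv.Perm.dvd_of_mem_cycleType hn).trans h3))
      (Equiv.Perm.two_le_of_mem_cycleType hn)
  have h5 : s.support = univ := by
    ext v; simp [Equiv.Perm.mem_support, h2 v]
  have h6 := Equiv.Perm.sum_cycleType s
  rw [h4, h5, Multiset.sum_replicate, card_univ, Fintype.card_fin, smul_eq_mul] at h6
  rw [h4]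
  congr 1
  omega

theorem conj {σ τ : Mp N} (hσ : σ ∈ MM (∅ : Finset (Fin N))) (hτ : τ ∈ MM (∅ : Finset (Fin N))) :
    ∃ π : Equiv.Perm (Fin N), ∀ v, π (τ v) = σ (π v) := by
  rw [mem_MM] at hσ hτ
  let s : Equiv.Perm (Fin N) := Function.Involutive.toPerm σ hσ.1
  let t : Equiv.Perm (Fin N) := Function.Involutive.toPerm τ hτ.1
  have h : IsConj t s := Equiv.Perm.isConj_iff_cycleType_eq.2
    ((cyc t hτ.1 hτ.2).trans (cyc s hσ.1 hσ.2).symm)
  obtain ⟨π, hπ⟩ := isConj_iff.1 h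
  refine ⟨π, fun v => ?_⟩
  have := congrArg (fun e : Equiv.Perm (Fin N) => e (π v)) hπ
  have h2 : π (t v) = s (π v) := by simpa using this
  exact h2

end ASYM

open ASYM in
theorem ASYM_proof : AsymStmt := by
  classical
  intro N β K f H φ
  have h1 : ∀ σ ∈ MM (∅ : Finset (Fin N)), ∀ τ ∈ MM (∅ : Finset (Fin N)),
      (K.filter (fun κ => f κ = σ)).card ≤ (K.filter (fun κ => f κ = τ)).card := by
    intro σ hσ τ hτ
    obtain ⟨π, hπ⟩ := conj hσ hτ
    refine card_le_card_of_injOn (fun κ => κ ∘ π) (fun κ hκ => ?_) (fun κ _ κ' _ h => ?_)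
    · obtain ⟨hK, hf⟩ := mem_filter.1 hκ
      obtain ⟨h2, h3⟩ := (H κ hK).2 π
      refine mem_filter.2 ⟨h2, funext fun v => π.injective ?_⟩
      rw [h3, hf, hπ]
    · funext v
      simpa using congrFun h (π.symm v)
  have h2 : ∀ σ ∈ MM (∅ : Finset (Fin N)),
      (MM (∅ : Finset (Fin N))).card * (K.filter (fun κ => f κ = σ)).card = K.card := by
    intro σ hσ
    rw [card_eq_sum_card_fiberwise (f := f) (s := K) (t := MM ∅) (fun κ hκ => (H κ hκ).1),
      ← smul_eq_mul, ← sum_const]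
    exact sum_congr rfl (fun τ hτ => le_antisymm (h1 σ hσ τ hτ) (h1 τ hτ σ hσ))
  rw [← sum_fiberwise_of_maps_to (g := f) (s := K) (t := MM ∅) (fun κ hκ => (H κ hκ).1), mul_sum,
    mul_sum]
  refine sum_congr rfl (fun σ hσ => ?_)
  rw [sum_congr rfl (fun κ hκ => by rw [(mem_filter.1 hκ).2] : ∀ κ ∈ K.filter (fun κ => f κ = σ),
    φ (f κ) = φ σ), sum_const, nsmul_eq_mul, ← mul_assoc, ← Nat.cast_mul, h2 σ hσ]

end Crest.Agent.R304
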