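import Crest.Agent.R304.AHT

/-! Row 304, task AUD: the deterministic part of the update. -/

set_option autoImplicit false

namespace Crest.Agent.R304

open Finset Crest.Agent.PT Crest.Agent.QC Crest.Agent.R317 Crest.Agent.R300U Crest.Agent.R309
open Crest.Agent.R304W

namespace AUD

theorem ZE_symm {N : ℕ} (a : Fin N → Fin N → ℝ) (u v : Fin N) : ZE a u v = ZE a v u := by
  unfold ZE
  refine sum_congr ?_ fun _ _ => rfl
  ext σ
  simp only [mem_filter, and_congr_right_iff]
  intro h
  have h1 := (mem_filter.1 h).2.1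
  constructor
  · rintro rfl; exact h1 _
  · rintro rfl; exact h1 _

theorem fz_upd (N m : ℕ) (adj : List Bool) (p : List ℤ) (B : List X) :
    fz N (updL N m adj p B) ↔ stp N m adj p B := by
  unfold fz updL
  rw [getD_mkL _ _ (Nat.lt_succ_self _), if_neg (lt_irrefl _)]
  by_cases h : stp N m adj p B <;> simp [h]

theorem est (r c M : ℕ) (e Z : ℝ) (hr : 0 < r) (hM : 0 < M) (hZ : 0 < Z)
    (h : |(c : ℝ) - r * (e / Z)| ≤ r * (1 / (20 * (M : ℝ)))) :
    (2 * r < M * c → 39 / 20 / (M : ℝ) * Z ≤ e) ∧ (¬ 2 * r < M * c → e ≤ 3 / (M : ℝ) * Z) ∧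
    (2 * M * c < r → e ≤ 11 / 20 / (M : ℝ) * Z) ∧ (¬ 2 * M * c < r → 9 / 20 / (M : ℝ) * Z ≤ e) := by
  have hr' : (0 : ℝ) < r := by exact_mod_cast hr
  have hM' : (0 : ℝ) < M := by exact_mod_cast hM
  obtain ⟨t, ht⟩ : ∃ t : ℝ, e = t / M * Z := ⟨e * M / Z, by field_simp⟩
  have h1 : |(M : ℝ) * c - r * t| ≤ r / 20 := by
    have h2 : (M : ℝ) * c - r * t = M * (c - r * (e / Z)) := by rw [ht]; field_simp
    rw [h2, abs_mul, abs_of_pos hM']
    refine (mul_le_mul_of_nonneg_left h hM'.le).trans (le_of_eq ?_)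
    field_simp
  obtain ⟨h2, h3⟩ := abs_le.1 h1
  have mono : ∀ x y : ℝ, r * x ≤ r * y → x / M * Z ≤ y / M * Z := fun x y hxy =>
    mul_le_mul_of_nonneg_right
      (div_le_div_of_nonneg_right (le_of_mul_le_mul_left hxy hr') hM'.le) hZ.le
  rw [ht]
  refine ⟨fun g => mono _ _ ?_, fun g => mono _ _ ?_, fun g => mono _ _ ?_, fun g => mono _ _ ?_⟩
  · have : 2 * (r : ℝ) < M * c := by exact_mod_cast g
    linarith
  · have : (M : ℝ) * c ≤ 2 * r := by exact_mod_cast not_lt.1 g
    linarith
  · have : 2 * (M : ℝ) * c < r := by exact_mod_cast g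
    linarith
  · have : (r : ℝ) ≤ 2 * M * c := by exact_mod_cast not_lt.1 g
    linarith

end AUD

open AUD in
theorem AUD_proof (hDyn : DynStmt) (hDic : DicStmt) : AudStmt := by
  intro N m G _ s p B hm hN hs hI hB
  have hm1 : 1 ≤ m := by omega
  have hsym : ∀ u v, kF N m p u v = kF N m p v u := ((hDic N).2.2.2.2.2.2.2 m p).2.1
  let δ : Fin N → Fin N → ℤ := fun u v => dl N m (adjBits G) p B (min u v) (max u v)
  have hδs : ∀ u v, δ u v = δ v u := fun u v => by simp only [δ, min_comm, max_comm]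
  have hδlt : ∀ u v : Fin N, u < v → δ u v = dl N m (adjBits G) p B u v := fun u v h => by
    have h' : (u : ℕ) ≤ v := le_of_lt h
    simp only [δ, min_eq_left h', max_eq_right h']
  have hbd : ∀ u v, |kF N m p u v + δ u v| ≤ ((s + 1 : ℕ) : ℤ) * m := by
    intro u v
    have h1 := hI.bd u v
    have h2 : |δ u v| ≤ m := AHT.abs_dl N m _ p B _ _ hm1
    have h3 := abs_add_le (kF N m p u v) (δ u v)
    push_cast
    linarith
  have hk : kF N m (updL N m (adjBits G) p B) = kF N m p + δ := by
    funext u v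
    have h1 := hbd u v
    have h2 : (s + 1) * m ≤ m ^ 116 := by
      rw [pow_succ m 115]
      exact Nat.mul_le_mul_right _ hs
    have h3 : ((s + 1 : ℕ) : ℤ) * m ≤ ((m ^ 116 : ℕ) : ℤ) := by exact_mod_cast h2
    obtain ⟨h4, h5⟩ := abs_le.1 (h1.trans h3)
    show kk N m _ u v = kF N m p u v + δ u v
    rw [AHT.kk_upd N m _ p B u.2 v.2]
    show zcl _ (kF N m p u v + δ u v) = _
    unfold zcl
    rw [min_eq_right h5, max_eq_right h4]
  have hZ := hI.nf.1
  have hr : 0 < rB m := by unfold rB; positivity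
  have he : ∀ u v : Fin N, u < v → _ := fun u v h =>
    est (rB m) (cntB m B u v) (m ^ 4) (ZE (aF N m p) u v) (Z (aF N m p) ∅) hr (by positivity) hZ
      (by simpa using hB u v h)
  simp only [Nat.cast_pow] at he
  have had : ∀ u v : Fin N, ad N (adjBits G) u v = decide (G.Adj u v) := adjBits_getD G
  by_cases hst : stp N m (adjBits G) p B
  · have h0 : δ = 0 := by
      funext u v
      simp only [δ, dl, if_pos hst, Pi.zero_apply]
    rw [h0, add_zero] at hk
    have ha : aF N m (updL N m (adjBits G) p B) = aF N m p := by unfold aF; rw [hk]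
    refine ⟨fun u v => ?_, fun u v h => ?_, ?_, fun _ => ?_, fun h => ?_⟩
    · have := hbd u v
      rwa [h0, Pi.zero_apply, Pi.zero_apply, add_zero, ← hk] at this
    · rw [hk]; exact hI.nn u v h
    · rw [ha]; exact hI.nf
    · rw [ha, hk]
      rcases hst with h | h
      · exact hI.done h
      have key : ∀ u v : Fin N, u < v → (G.Adj u v ∧ kF N m p u v = 0) ∨
          ZE (aF N m p) u v ≤ 3 / (m : ℝ) ^ 4 * Z (aF N m p) ∅ := by
        intro u v huv
        by_cases h1 : 2 * rB m < m ^ 4 * cntB m B u v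
        · left
          have h2 : ¬ (ad N (adjBits G) u v = false ∨ 1 ≤ kk N m p u v) :=
            fun h2 => h ⟨v, v.2, u, huv, h1, h2⟩
          rw [had, not_or] at h2
          have h3 : G.Adj u v := by simpa using h2.1
          have h4 := hI.nn u v h3
          have h5 := h2.2
          refine ⟨h3, ?_⟩
          unfold kF at h4 ⊢
          omega
        · exact Or.inr ((he u v huv).2.1 h1)
      intro u v huv
      rcases lt_or_gt_of_ne huv with h1 | h1
      · exact key u v h1
      · rw [ZE_symm, hsym, G.adj_comm]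
        exact key v u h1
    · exact absurd ((fz_upd _ _ _ _ _).2 hst) h
  · have hcase : ∀ u v : Fin N, u < v →
        (δ u v = -1 ∧ hiP N m (adjBits G) p B u v) ∨
        (δ u v = m ∧ 2 * m ^ 4 * cntB m B u v < rB m) ∨
        (δ u v = 0 ∧ ¬ 2 * m ^ 4 * cntB m B u v < rB m) := by
      intro u v h
      rw [hδlt u v h]
      unfold dl
      rw [if_neg hst]
      split_ifs with h1 h2
      · exact Or.inl ⟨rfl, h1⟩
      · exact Or.inr (Or.inl ⟨rfl, h2⟩)
      · exact Or.inr (Or.inr ⟨rfl, h2⟩)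
    have hH : (m : ℝ) ^ 3 ≤ (H0 m : ℝ) := by
      unfold H0
      exact_mod_cast Nat.pow_le_pow_right hm1 (by norm_num)
    have key : ∀ u v : Fin N, u < v →
        (δ u v = -1 ∧ 39 / 20 / (m : ℝ) ^ 4 * Z (aF N m p) ∅ ≤ ZE (aF N m p) u v) ∨
        (δ u v = m ∧ ZE (aF N m p) u v ≤ 11 / 20 / (m : ℝ) ^ 4 * Z (aF N m p) ∅) ∨
        (δ u v = 0 ∧ 9 / 20 / (m : ℝ) ^ 4 * Z (aF N m p) ∅ ≤ ZE (aF N m p) u v) := by
      intro u v h
      rcases hcase u v h with g | g | g
      · exact Or.inl ⟨g.1, (he u v h).1 g.2.1⟩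
      · exact Or.inr (Or.inl ⟨g.1, (he u v h).2.2.1 g.2⟩)
      · exact Or.inr (Or.inr ⟨g.1, (he u v h).2.2.2 g.2⟩)
    obtain ⟨d1, d2⟩ := hDyn N m (H0 m) (kF N m p) δ hm hN hH (fun u v => ⟨hsym u v, hδs u v⟩) hI.nf
      (fun u v huv => by
        rcases lt_or_gt_of_ne huv with h1 | h1
        · exact key u v h1
        · rw [ZE_symm, hδs]
          exact key v u h1)
    unfold stp at hst
    rw [not_or, not_not] at hst
    refine ⟨fun u v => ?_, ?_, ?_, fun h => ?_, fun _ => ?_⟩
    · rw [hk]; exact hbd u v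
    · have key2 : ∀ u v : Fin N, u < v → G.Adj u v → 0 ≤ kF N m p u v + δ u v := by
        intro u v h hG
        have h1 := hI.nn u v hG
        rcases hcase u v h with g | g | g
        · rcases g.2.2 with g2 | g2
          · rw [had] at g2
            simp [hG] at g2
          · rw [g.1]
            unfold kF
            omega
        · rw [g.1]; positivity
        · rw [g.1]; simpa using h1
      intro u v hG
      rw [hk]
      rcases lt_or_gt_of_ne hG.ne with h1 | h1
      · exact key2 u v h1 hG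
      · show 0 ≤ kF N m p u v + δ u v
        rw [hsym, hδs]
        exact key2 v u h1 hG.symm
    · unfold aF
      rw [hk]
      exact d1
    · rcases (fz_upd _ _ _ _ _).1 h with g | g
      · exact absurd g hst.1
      · exact absurd hst.2 g
    · obtain ⟨v, hv, u, huv, hp⟩ := hst.2
      have huv' : (⟨u, huv.trans hv⟩ : Fin N) < ⟨v, hv⟩ := huv
      have h1 := d2 ⟨⟨u, huv.trans hv⟩, ⟨v, hv⟩, huv'.ne, by
        rw [hδlt _ _ huv']
        unfold dl
        rw [if_neg, if_pos hp]
        rintro (g | g)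
        · exact hst.1 g
        · exact g hst.2⟩
      have h2 := hI.pot hst.1
      rw [hk]
      push_cast
      rw [add_div]
      linarith

end Crest.Agent.R304
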