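import Crest.Agent.R304.DefsA

/-!
Row 304 (S0464), task AUP: the update keeps the invariant with high probability.
-/

set_option autoImplicit false

namespace Crest.Agent.R304

open Finset Crest.Agent.R309 Crest.Agent.R304W

namespace AUP

theorem EP_sum {Y ι : Type} (Ω : Finset Y) (μ : Y → ℝ) (k : ℕ)
    (h : ∀ φ ψ (c : ℝ), EP Ω μ k (fun l => φ l + ψ l) = EP Ω μ k φ + EP Ω μ k ψ ∧
      EP Ω μ k (fun l => c * φ l) = c * EP Ω μ k φ ∧ EP Ω μ k (fun _ => c) = c)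
    (s : Finset ι) (φ : ι → List Y → ℝ) :
    EP Ω μ k (fun l => ∑ i ∈ s, φ i l) = ∑ i ∈ s, EP Ω μ k (φ i) := by
  classical
  induction s using Finset.induction_on with
  | empty => simpa using (h (fun _ => 0) (fun _ => 0) 0).2.2
  | insert i s hi ih =>
    simp only [sum_insert hi]
    rw [(h (φ i) (fun l => ∑ j ∈ s, φ j l) 0).1, ih]

theorem num (m : ℕ) (hm : 2000 ≤ m) :
    (m : ℝ) ^ 2 * (2 * Real.exp (-((rB m : ℝ) * (1 / (20 * (m : ℝ) ^ 4)) ^ 2 / 4))) ≤
      (2 : ℝ)⁻¹ ^ (2 * m) := by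
  have hm' : (2000 : ℝ) ≤ m := by exact_mod_cast hm
  have h0 : (0 : ℝ) < m := by linarith
  have e : (rB m : ℝ) * (1 / (20 * (m : ℝ) ^ 4)) ^ 2 / 4 = (m : ℝ) ^ 17 / 1600 := by
    simp only [rB]
    push_cast
    field_simp
    ring
  have h1 : 4 * (m : ℝ) ≤ (m : ℝ) ^ 17 / 1600 := by
    have h2 : (m : ℝ) ^ 3 ≤ (m : ℝ) ^ 17 := pow_le_pow_right₀ (by linarith) (by norm_num)
    have h3 : 6400 * (m : ℝ) ≤ (m : ℝ) ^ 3 := by
      have : (6400 : ℝ) ≤ (m : ℝ) ^ 2 := by nlinarith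
      nlinarith
    linarith
  have h4 : 2 * (m : ℝ) ^ 2 ≤ Real.exp (2 * m) := by
    have := Real.quadratic_le_exp_of_nonneg (x := 2 * (m : ℝ)) (by linarith)
    nlinarith
  have h5 : Real.exp (-1) ≤ (2 : ℝ)⁻¹ := by
    rw [Real.exp_neg]
    refine inv_anti₀ (by norm_num) ?_
    have := Real.add_one_le_exp (1 : ℝ)
    linarith
  have h6 : Real.exp (-(2 * (m : ℝ))) ≤ (2 : ℝ)⁻¹ ^ (2 * m) := by
    have : Real.exp (-(2 * (m : ℝ))) = Real.exp (-1) ^ (2 * m) := by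
      rw [← Real.exp_nat_mul]
      congr 1
      push_cast
      ring
    rw [this]
    exact pow_le_pow_left₀ (Real.exp_pos _).le h5 _
  rw [e]
  calc (m : ℝ) ^ 2 * (2 * Real.exp (-((m : ℝ) ^ 17 / 1600)))
      = (2 * (m : ℝ) ^ 2) * Real.exp (-((m : ℝ) ^ 17 / 1600)) := by ring
    _ ≤ Real.exp (2 * m) * Real.exp (-(4 * (m : ℝ))) :=
        mul_le_mul h4 (Real.exp_le_exp.2 (by linarith)) (Real.exp_pos _).le (Real.exp_pos _).le
    _ = Real.exp (-(2 * (m : ℝ))) := by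
        rw [← Real.exp_add]; congr 1; ring
    _ ≤ _ := h6

end AUP

open AUP in
theorem AUP_proof (hAud : AudStmt) (hEpl : EplStmt) (hDic : DicStmt) : AupStmt := by
  intro N m G _ s p hm hN hs hI
  obtain ⟨_, hgx, _, _, _, _, hsum, hW⟩ := hDic N
  obtain ⟨_, _, _, hw, hZ⟩ := hW m p
  have hZ0 : 0 < Z (aF N m p) ∅ := hI.nf.1
  have hm' : (2000 : ℝ) ≤ m := by exact_mod_cast hm
  have hWnn : ∀ x, (0 : ℝ) ≤ WL N m p x := by
    intro x
    have : (0 : ℚ) ≤ WL N m p x := by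
      unfold WL
      split_ifs
      · positivity
      · exact le_rfl
    exact_mod_cast this
  rw [hZ]
  obtain ⟨_, _, hmono, hlin, hoef⟩ := hEpl X (Om N) (fun x => (WL N m p x : ℝ) / Z (aF N m p) ∅)
    (fun x _ => div_nonneg (hWnn x) hZ0.le) (by rw [← sum_div, hZ, div_self hZ0.ne'])
  have hξ0 : (0 : ℝ) < 1 / (20 * (m : ℝ) ^ 4) := by positivity
  have hξ1 : 1 / (20 * (m : ℝ) ^ 4) ≤ (1 : ℝ) := by
    rw [div_le_one (by positivity)]
    have : (1 : ℝ) ≤ (m : ℝ) ^ 4 := one_le_pow₀ (by linarith)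
    linarith
  have hmean : ∀ u v : Fin N, ∑ x ∈ Om N, (WL N m p x : ℝ) / Z (aF N m p) ∅ *
      (if gx x u = v then (1 : ℝ) else 0) = ZE (aF N m p) u v / Z (aF N m p) ∅ := by
    intro u v
    rw [hsum, ZE, sum_filter, sum_div]
    refine sum_congr rfl fun σ hσ => ?_
    rw [hw σ hσ, hgx]
    by_cases h : σ u = v
    · simp [h]
    · have h' : (σ u).val ≠ v.val := fun e => h (Fin.ext e)
      simp [h, h']
  have hcnt : ∀ (B : List X) (u v : Fin N), (cntB m B u v : ℝ) =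
      ∑ j ∈ range (rB m), (if gx (B.getD j []) u = v then (1 : ℝ) else 0) := by
    intro B u v
    simp only [cntB]
    push_cast
    rfl
  let bad : Fin N × Fin N → List X → ℝ := fun i B =>
    if (rB m : ℝ) * (1 / (20 * (m : ℝ) ^ 4)) <
      |(cntB m B i.1 i.2 : ℝ) - rB m * (ZE (aF N m p) i.1 i.2 / Z (aF N m p) ∅)| then 1 else 0
  have hbad : ∀ i, EP (Om N) (fun x => (WL N m p x : ℝ) / Z (aF N m p) ∅) (rB m) (bad i) ≤
      2 * Real.exp (-((rB m : ℝ) * (1 / (20 * (m : ℝ) ^ 4)) ^ 2 / 4)) := by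
    intro i
    have h := hoef (rB m) (fun x => if gx x i.1 = i.2 then (1 : ℝ) else 0) []
      (1 / (20 * (m : ℝ) ^ 4)) (fun x _ => by split_ifs <;> simp) hξ0 hξ1
    simp only [hmean, ← hcnt] at h
    exact h
  have hbnn : ∀ i B, 0 ≤ bad i B := by
    intro i B
    simp only [bad]
    split_ifs <;> norm_num
  refine (hmono (rB m) _ (fun B => ∑ i, bad i B) fun B _ _ => ?_).trans ?_
  · by_cases h : IA G m (s + 1) (updL N m (adjBits G) p B)
    · rw [if_pos h]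
      exact sum_nonneg fun i _ => hbnn i B
    · rw [if_neg h]
      by_contra hc
      refine h (hAud N m G s p B hm hN hs hI fun u v _ => ?_)
      by_contra hc'
      refine hc (le_trans ?_ (single_le_sum (fun i _ => hbnn i B) (mem_univ (u, v))))
      simp only [bad]
      rw [if_pos (not_le.1 hc')]
  · rw [EP_sum _ _ _ (hlin (rB m))]
    refine (sum_le_sum fun i _ => hbad i).trans ?_
    refine le_trans ?_ (num m hm)
    rw [sum_const, card_univ, Fintype.card_prod, Fintype.card_fin, nsmul_eq_mul]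
    refine mul_le_mul_of_nonneg_right ?_ (by positivity)
    have : (N : ℝ) ≤ m := by exact_mod_cast hN
    push_cast
    nlinarith [Nat.cast_nonneg (α := ℝ) N]

end Crest.Agent.R304
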