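import Crest.Agent.R304.DefsA

/-! Row 304: dictionary between partner lists and maps. -/

set_option autoImplicit false

namespace Crest.Agent.R304

open Finset Crest.Agent.PT Crest.Agent.QC Crest.Agent.R317 Crest.Agent.R300U Crest.Agent.R309

namespace DIC

variable {N : ℕ}

theorem inj : Function.Injective (toX : Mp N → X) := by
  intro σ τ h
  funext v
  exact Fin.ext (congrFun (List.ofFn_injective h) v)

theorem gx_toX (σ : Mp N) (v : Fin N) : gx (toX σ) v = σ v := by
  simp [gx, toX, List.getD_eq_getElem?_getD]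

theorem length_toX (σ : Mp N) : (toX σ).length = N := by simp [toX]

theorem ex_toX (x : X) (h : x.length = N) (hx : ∀ v < N, gx x v < N) : ∃ σ : Mp N, x = toX σ := by
  refine ⟨fun v => ⟨gx x v, hx v v.isLt⟩, List.ext_getElem (by simp [toX, h]) fun i h1 h2 => ?_⟩
  simp [toX, gx, List.getD_eq_getElem?_getD, h1]

theorem val_toX (σ : Mp N) : val N (toX σ) ↔ σ ∈ MM (∅ : Finset (Fin N)) := by
  simp only [val, length_toX, true_and, MM, mem_filter, mem_univ, notMem_empty, iff_false, All]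
  constructor
  · intro h
    refine ⟨fun v => ?_, fun v => ?_⟩
    · have := (h v v.isLt).2.2
      rw [gx_toX, gx_toX] at this
      exact Fin.ext this
    · have := (h v v.isLt).2.1
      rw [gx_toX] at this
      exact fun e => this (congrArg Fin.val e)
  · intro h v hv
    have e := gx_toX σ ⟨v, hv⟩
    simp only at e
    rw [e, gx_toX, h.1]
    exact ⟨(σ _).isLt, fun e' => h.2 ⟨v, hv⟩ (Fin.ext e'), rfl⟩

theorem val_iff (x : X) : val N x ↔ x ∈ Om N := by
  rw [Om, mem_image]
  constructor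
  · intro h
    obtain ⟨σ, rfl⟩ := ex_toX x h.1 (fun v hv => (h.2 v hv).1)
    exact ⟨σ, (val_toX σ).1 h, rfl⟩
  · rintro ⟨σ, h, rfl⟩
    exact (val_toX σ).2 h

theorem sum_Om (F : X → ℝ) : ∑ x ∈ Om N, F x = ∑ σ ∈ MM (∅ : Finset (Fin N)), F (toX σ) :=
  sum_image fun _ _ _ _ h => inj h

theorem kF_symm (m : ℕ) (p : List ℤ) (u v : Fin N) : kF N m p u v = kF N m p v u := by
  simp only [kF, kk, min_comm, max_comm]

theorem base_pos (m : ℕ) : (0 : ℝ) < 1 + 1 / (H0 m : ℝ) := by positivity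

theorem wt (m : ℕ) (p : List ℤ) : Wt (aF N m p) := fun u v =>
  ⟨zpow_pos (base_pos m) _, by simp only [aF, ak, kF_symm m p u v]⟩

theorem zpow_sum' {ι : Type} (s : Finset ι) {a : ℝ} (ha : a ≠ 0) (e : ι → ℤ) :
    a ^ (∑ i ∈ s, e i) = ∏ i ∈ s, a ^ e i := by
  classical
  induction s using Finset.induction_on with
  | empty => simp
  | insert i s hi ih => rw [sum_insert hi, prod_insert hi, zpow_add₀ ha, ih]

theorem WL_eq (m : ℕ) (p : List ℤ) {σ : Mp N} (h : σ ∈ MM (∅ : Finset (Fin N))) :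
    (WL N m p (toX σ) : ℝ) = w (aF N m p) σ := by
  have h2 : ∀ v, σ v ≠ v := by
    simp only [MM, mem_filter, mem_univ, notMem_empty, iff_false, true_and] at h
    exact h.2
  rw [WL, if_pos ((val_toX σ).2 h)]
  push_cast
  rw [← Fin.sum_univ_eq_sum_range (fun v => kk N m p v (gx (toX σ) v)) N,
    zpow_sum' _ (base_pos m).ne', w]
  refine prod_congr rfl fun v _ => ?_
  rw [if_neg (h2 v), gx_toX]
  rfl

end DIC

theorem DIC_proof : DicStmt := fun _ =>
  ⟨DIC.inj, DIC.gx_toX, DIC.length_toX, DIC.ex_toX, DIC.val_iff, DIC.val_toX, DIC.sum_Om,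
    fun m p => ⟨DIC.wt m p, DIC.kF_symm m p, fun σ => by
      unfold wP
      split_ifs with h
      · exact DIC.WL_eq m p h
      · rw [WL, if_neg (fun h' => h ((DIC.val_toX σ).1 h'))]
        simp, fun _ h => DIC.WL_eq m p h, by
      rw [DIC.sum_Om, Z]
      exact sum_congr rfl fun _ h => DIC.WL_eq m p h⟩⟩

end Crest.Agent.R304
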