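import Crest.Agent.R304.DefsE
import Crest.Agent.R309.KT

/-! Row 304, task EKR: the pair kernel of the engine. -/

set_option autoImplicit false

namespace Crest.Agent.R304

open Finset Crest.Agent.PT Crest.Agent.QC Crest.Agent.R317 Crest.Agent.R300U Crest.Agent.R309

namespace EKR

theorem crs_zero (w : ℚ) : crs w 0 = 0 := by simp [crs]

theorem acq_zero (w : ℚ) : acq w 0 = 0 := by simp [acq, crs_zero]

theorem acq_le {w w' : ℚ} (hw : 0 < w) (hw' : 0 ≤ w') :
    0 ≤ acq w w' ∧ acq w w' ≤ 1 ∧ min (w : ℝ) w' ≤ 2 * (w * acq w w') := by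
  rcases hw'.eq_or_lt with h | h
  · subst h
    rw [acq_zero]
    refine ⟨le_rfl, zero_le_one, ?_⟩
    simp
  · obtain ⟨a, b, -, d⟩ := KT.acq_facts w w' hw h
    exact ⟨a, b, d⟩

theorem size_le (m : ℕ) : 2 ^ m.size ≤ 2 * m + 1 := by
  rcases Nat.eq_zero_or_pos m with rfl | h
  · simp
  · have h1 : 0 < m.size := Nat.size_pos.2 h
    have h2 : 2 ^ (m.size - 1) ≤ m := Nat.lt_size.1 (by omega)
    have h3 : 2 ^ m.size = 2 * 2 ^ (m.size - 1) := by
      rw [← pow_succ']; congr 1; omega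
    omega

theorem Av_two (G : ℕ → ℕ → ℝ) :
    Av 2 (fun t => G (fld t 0 1) (fld t 1 1)) = (G 0 0 + G 1 0 + G 0 1 + G 1 1) / 4 := by
  unfold Av
  have e4 : (2 : ℕ) ^ 2 = 4 := by norm_num
  rw [e4]
  simp only [sum_range_succ, sum_range_zero, zero_add]
  have a0 : fld 0 0 1 = 0 := by decide
  have a1 : fld 1 0 1 = 1 := by decide
  have a2 : fld 2 0 1 = 0 := by decide
  have a3 : fld 3 0 1 = 1 := by decide
  have b0 : fld 0 1 1 = 0 := by decide
  have b1 : fld 1 1 1 = 0 := by decide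
  have b2 : fld 2 1 1 = 1 := by decide
  have b3 : fld 3 1 1 = 1 := by decide
  rw [a0, a1, a2, a3, b0, b1, b2, b3]
  norm_num

theorem Av_lt {c n : ℕ} (h : n ≤ 2 ^ c) (f : ℕ → ℝ) (h0 : ∀ i, n ≤ i → f i = 0) :
    Av c f = (∑ i ∈ range n, f i) / 2 ^ c := by
  unfold Av
  congr 1
  symm
  exact sum_subset (range_subset_range.2 h) fun i _ hi => h0 i (by simpa using hi)

theorem Av_five (k l : ℕ) (T : ℕ → ℕ → ℕ → ℕ → ℕ → ℝ) :
    Av (2 * k + l + 2) (fun v => T (fld v 0 k) (fld v k k) (fld v (2 * k) l) (fld v (2 * k + l) 1)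
      (fld v (2 * k + l + 1) 1)) =
    Av k (fun a => Av k (fun b => Av l (fun i =>
      (T a b i 0 0 + T a b i 1 0 + T a b i 0 1 + T a b i 1 1) / 4))) := by
  have e0 : 2 * k + l + 2 = k + (k + (l + 2)) := by omega
  rw [e0]
  have e := Av_split k (k + (l + 2)) (fun a t =>
    T a (fld t 0 k) (fld t k l) (fld t (k + l) 1) (fld t (k + l + 1) 1))
  refine Eq.trans (Eq.trans (Av_congr fun v _ => ?_) e) (Av_congr fun a _ => ?_)
  · simp only [fld_div, add_zero]
    rw [fld_zero, show k + k = 2 * k by omega, show k + (k + l) = 2 * k + l by omega,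
      show k + (k + l + 1) = 2 * k + l + 1 by omega]
  have e' := Av_split k (l + 2) (fun b t => T a b (fld t 0 l) (fld t l 1) (fld t (l + 1) 1))
  refine Eq.trans (Eq.trans (Av_congr fun v _ => ?_) e') (Av_congr fun b _ => ?_)
  · simp only [fld_div, add_zero]
    rw [fld_zero, show k + (l + 1) = k + l + 1 by omega]
  have e'' := Av_split l 2 (fun i t => T a b i (fld t 0 1) (fld t 1 1))
  refine Eq.trans (Eq.trans (Av_congr fun v _ => ?_) e'') (Av_congr fun i _ => ?_)
  · simp only [fld_div, add_zero]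
    rw [fld_zero]
  exact Av_two (fun e σ => T a b i e σ)

theorem ht_mul {a b : ℚ} {h : ℕ} (ha : 0 < a) (hb : 0 < b) (a1 : a.num.toNat < 2 ^ h)
    (a2 : a.den < 2 ^ h) (b1 : b.num.toNat < 2 ^ h) (b2 : b.den < 2 ^ h) :
    (a * b).num.toNat < 2 ^ (2 * h) ∧ (a * b).den < 2 ^ (2 * h) := by
  rw [two_mul, pow_add]
  have pa : 0 < a.num := Rat.num_pos.2 ha
  have pb : 0 < b.num := Rat.num_pos.2 hb
  constructor
  · refine lt_of_le_of_lt ?_ (Nat.mul_lt_mul'' a1 b1)
    have h1 : (a * b).num ≤ a.num * b.num := by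
      rw [Rat.mul_num]
      exact Int.ediv_le_self _ (mul_pos pa pb).le
    have h2 : ((a.num.toNat * b.num.toNat : ℕ) : ℤ) = a.num * b.num := by
      push_cast
      rw [Int.toNat_of_nonneg pa.le, Int.toNat_of_nonneg pb.le]
    omega
  · refine lt_of_le_of_lt ?_ (Nat.mul_lt_mul'' a2 b2)
    exact Nat.le_of_dvd (Nat.mul_pos a.den_pos b.den_pos) (Rat.mul_den_dvd a b)

/-- weight of a pair -/
def w2 (M : Mdl) (p : List ℤ) (z : X × X) : ℚ := M.W p z.1 * M.W p z.2

/-- underlying pair -/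
def vl {Ω : Finset X} (z : {x // x ∈ Ω} × {x // x ∈ Ω}) : X × X := (z.1.1, z.2.1)

theorem sum_val (Ω : Finset X) (F : X × X → ℝ) :
    ∑ z : {x // x ∈ Ω} × {x // x ∈ Ω}, F (vl z) = ∑ z ∈ Ω ×ˢ Ω, F z := by
  rw [Fintype.sum_prod_type, sum_product, ← sum_coe_sort Ω]
  refine sum_congr rfl fun x _ => ?_
  rw [← sum_coe_sort Ω]
  rfl

/-- off-diagonal part of the kernel -/
noncomputable def ofd (M : Mdl) (p : List ℤ) (z y : X × X) : ℝ :=
  ∑ i ∈ range M.nm, ∑ σ ∈ range 2,
    if M.mv i σ z = y then acq (w2 M p z) (w2 M p y) / (4 * (2 : ℝ) ^ M.aB) else 0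

/-- the kernel -/
noncomputable def ker (M : Mdl) (Ω : Finset X) (p : List ℤ)
    (z y : {x // x ∈ Ω} × {x // x ∈ Ω}) : ℝ :=
  ofd M p (vl z) (vl y) +
    if z = y then 1 - ∑ t : {x // x ∈ Ω} × {x // x ∈ Ω}, ofd M p (vl z) (vl t) else 0

theorem sum_off (M : Mdl) (Ω : Finset X) (p : List ℤ) (hz : ∀ y, y ∉ Ω → M.W p y = 0)
    (z : X × X) (G : X × X → ℝ) :
    ∑ y : {x // x ∈ Ω} × {x // x ∈ Ω}, ofd M p z (vl y) * G (vl y) =
      ∑ i ∈ range M.nm, ∑ σ ∈ range 2,
        acq (w2 M p z) (w2 M p (M.mv i σ z)) * G (M.mv i σ z) / (4 * (2 : ℝ) ^ M.aB) := by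
  rw [sum_val Ω (fun y => ofd M p z y * G y)]
  unfold ofd
  simp only [sum_mul]
  rw [sum_comm]
  refine sum_congr rfl fun i _ => ?_
  rw [sum_comm]
  refine sum_congr rfl fun σ _ => ?_
  simp only [ite_mul, zero_mul]
  rw [sum_ite_eq]
  split_ifs with h
  · ring
  · have : w2 M p (M.mv i σ z) = 0 := by
      unfold w2
      rw [mem_product, not_and_or] at h
      rcases h with h | h
      · rw [hz _ h, zero_mul]
      · rw [hz _ h, mul_zero]
    rw [this, acq_zero]; simp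

/-- the list after a move -/
def newL (l : List X) (a b : ℕ) (y : X × X) : List X :=
  mkL l.length (fun j => if j = a then y.1 else if j = b then y.2 else l.getD j [])

theorem getD_ofFn2 {Ω : Finset X} {K : ℕ} (x : Fin K → {x // x ∈ Ω}) (a : Fin K) :
    (List.ofFn (fun i => (x i).1)).getD a [] = (x a).1 := by
  simp [List.getD, a.2]

theorem newL_val {Ω : Finset X} {K : ℕ} (x : Fin K → {x // x ∈ Ω}) (a b : Fin K) (hab : a ≠ b)
    (z : {x // x ∈ Ω} × {x // x ∈ Ω}) :
    newL (List.ofFn (fun i => (x i).1)) a b (vl z) = List.ofFn (fun i => (up2 x a b z i).1) := by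
  unfold newL
  rw [List.length_ofFn]
  refine mkL_eq_ofFn _ _ fun j => ?_
  unfold up2 vl
  by_cases h1 : j = a
  · subst h1
    rw [if_pos rfl, Function.update_of_ne hab, Function.update_self]
  · have h1' : (j : ℕ) ≠ a := fun h => h1 (Fin.ext h)
    rw [if_neg h1']
    by_cases h2 : j = b
    · subst h2
      rw [if_pos rfl, Function.update_self]
    · have h2' : (j : ℕ) ≠ b := fun h => h2 (Fin.ext h)
      rw [if_neg h2', Function.update_of_ne h2, Function.update_of_ne h1, getD_ofFn2]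

end EKR

open EKR in
theorem EKR_proof : EkrStmt := by
  intro M Ω I A hM s p hI
  have hz : ∀ y, y ∉ Ω → M.W p y = 0 := fun y hy => hM.zero p y hy
  have hw : ∀ x ∈ Ω, 0 < M.W p x := fun x hx => (hM.ht p x hx).1
  have hw0 : ∀ y, 0 ≤ M.W p y := fun y => by
    by_cases hy : y ∈ Ω
    · exact (hw y hy).le
    · rw [hz y hy]
  have hv : ∀ z : {x // x ∈ Ω} × {x // x ∈ Ω}, 0 < w2 M p (vl z) := fun z =>
    mul_pos (hw _ z.1.2) (hw _ z.2.2)
  have hv0 : ∀ y, 0 ≤ w2 M p y := fun y => mul_nonneg (hw0 _) (hw0 _)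
  have hA0 : (0 : ℝ) < 4 * 2 ^ M.aB := by positivity
  have hnA' : M.nm ≤ 2 ^ M.aB := (Nat.lt_size_self _).le
  have hnA : (M.nm : ℝ) ≤ 2 ^ M.aB := by exact_mod_cast hnA'
  have hZ : 0 < M.Z Ω p := by
    unfold Mdl.Z
    exact sum_pos (fun x hx => by exact_mod_cast hw x hx) hM.ne
  have hoff0 : ∀ (z : {x // x ∈ Ω} × {x // x ∈ Ω}) y, 0 ≤ ofd M p (vl z) y := by
    intro z y
    unfold ofd
    refine sum_nonneg fun i _ => sum_nonneg fun σ _ => ?_
    split_ifs
    · exact div_nonneg (acq_le (hv z) (hv0 y)).1 hA0.le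
    · exact le_rfl
  have hso : ∀ z : {x // x ∈ Ω} × {x // x ∈ Ω},
      ∑ t : {x // x ∈ Ω} × {x // x ∈ Ω}, ofd M p (vl z) (vl t) ≤ 1 / 2 := by
    intro z
    have e := sum_off M Ω p hz (vl z) (fun _ => 1)
    simp only [mul_one] at e
    rw [e]
    calc _ ≤ ∑ i ∈ range M.nm, ∑ σ ∈ range 2, 1 / (4 * (2 : ℝ) ^ M.aB) :=
          sum_le_sum fun i _ => sum_le_sum fun σ _ =>
            div_le_div_of_nonneg_right (acq_le (hv z) (hv0 _)).2.1 hA0.le
      _ = M.nm * (2 / (4 * (2 : ℝ) ^ M.aB)) := by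
          simp only [sum_const, card_range, nsmul_eq_mul]; push_cast; ring
      _ ≤ 2 ^ M.aB * (2 / (4 * (2 : ℝ) ^ M.aB)) := mul_le_mul_of_nonneg_right hnA (by positivity)
      _ = 1 / 2 := by field_simp; norm_num
  have hrev : ∀ z y : {x // x ∈ Ω} × {x // x ∈ Ω},
      (w2 M p (vl z) : ℝ) * ofd M p (vl z) (vl y) = w2 M p (vl y) * ofd M p (vl y) (vl z) := by
    intro z y
    unfold ofd
    simp only [mul_sum]
    refine sum_congr rfl fun i hi => ?_
    have hi' := mem_range.1 hi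
    have r := (KT.acq_facts _ _ (hv z) (hv y)).2.2.1
    have k : ∀ σ < 2, (M.mv i σ (vl z) = vl y ↔ M.mv i (1 - σ) (vl y) = vl z) := by
      intro σ hσ
      constructor
      · intro h; rw [← h]; exact hM.inv i hi' σ hσ _ z.1.2 _ z.2.2
      · intro h
        have := hM.inv i hi' (1 - σ) (by omega) _ y.1.2 _ y.2.2
        rw [show 1 - (1 - σ) = σ by omega] at this
        rw [← h]
        exact this
    simp only [sum_range_succ, sum_range_zero, zero_add]
    have k0 := k 0 (by omega)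
    have k1 := k 1 (by omega)
    simp only [Nat.sub_zero, Nat.sub_self] at k0 k1
    simp only [k0, k1, mul_ite, mul_zero, ← mul_div_assoc, r]
    ring
  have hμ : ∀ z : {x // x ∈ Ω} × {x // x ∈ Ω},
      M.μ Ω p z.1.1 * M.μ Ω p z.2.1 = (w2 M p (vl z) : ℝ) / M.Z Ω p ^ 2 := by
    intro z
    unfold Mdl.μ w2 vl
    push_cast
    field_simp
  have knn : ∀ z y, 0 ≤ ker M Ω p z y := by
    intro z y
    unfold ker
    split_ifs
    · linarith [hso z, hoff0 z (vl y)]
    · linarith [hoff0 z (vl y)]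
  have kop : ∀ (z : {x // x ∈ Ω} × {x // x ∈ Ω}) (f : {x // x ∈ Ω} × {x // x ∈ Ω} → ℝ),
      ∑ y, ker M Ω p z y * f y = f z + ∑ y, ofd M p (vl z) (vl y) * (f y - f z) := by
    intro z f
    unfold ker
    simp only [add_mul, ite_mul, zero_mul, sum_add_distrib, mul_sub, sum_sub_distrib]
    rw [sum_ite_eq, if_pos (mem_univ _), ← sum_mul]
    ring
  refine ⟨ker M Ω p, ⟨⟨fun x => ?_, ?_⟩, knn, fun z => ?_, fun z => ?_, fun z y => ?_, fun g => ?_⟩,
    fun K hK φ x => ?_⟩
  · exact div_pos (by exact_mod_cast hw _ x.2) hZ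
  · rw [sum_coe_sort Ω (fun x => M.μ Ω p x)]
    unfold Mdl.μ
    rw [← sum_div]
    exact div_self hZ.ne'
  · have := kop z (fun _ => 1)
    simpa using this
  · unfold ker
    rw [if_pos rfl]
    linarith [hso z, hoff0 z (vl z)]
  · rw [hμ, hμ]
    unfold ker
    by_cases h : z = y
    · subst h; rfl
    · rw [if_neg h, if_neg (Ne.symm h), add_zero, add_zero, div_mul_eq_mul_div, div_mul_eq_mul_div,
        hrev]
  · -- the linearised inequality
    classical
    set g' : X → ℝ := fun x => if h : x ∈ Ω then g ⟨x, h⟩ else 0 with hg'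
    have gg : ∀ x : {x // x ∈ Ω}, g x = g' x.1 := fun x => by simp [hg', x.2]
    have a1 := hM.li s p hI g'
    have l1 : ∑ x : {x // x ∈ Ω}, M.μ Ω p x.1 * g x ^ 2 - (∑ x : {x // x ∈ Ω}, M.μ Ω p x.1 * g x) ^ 2 =
        Var Ω (fun x => (M.W p x : ℝ)) g' * M.Z Ω p / M.Z Ω p ^ 2 := by
      simp only [gg]
      rw [sum_coe_sort Ω (fun x => M.μ Ω p x * g' x ^ 2), sum_coe_sort Ω (fun x => M.μ Ω p x * g' x)]
      unfold Var Mdl.μ
      simp only [div_mul_eq_mul_div, ← sum_div]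
      have : ∑ x ∈ Ω, (M.W p x : ℝ) = M.Z Ω p := rfl
      rw [this]
      field_simp
    set D : X × X → X × X → ℝ := fun z y => (g' z.1 + g' z.2 - g' y.1 - g' y.2) ^ 2 with hD
    set S : ℝ := ∑ z : {x // x ∈ Ω} × {x // x ∈ Ω}, ∑ i ∈ range M.nm, ∑ σ ∈ range 2,
      acq (w2 M p (vl z)) (w2 M p (M.mv i σ (vl z))) *
        ((w2 M p (vl z) : ℝ) * D (vl z) (M.mv i σ (vl z))) / (4 * (2 : ℝ) ^ M.aB) with hS
    have l2 : ∑ z : {x // x ∈ Ω} × {x // x ∈ Ω}, ∑ y : {x // x ∈ Ω} × {x // x ∈ Ω},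
        M.μ Ω p z.1.1 * M.μ Ω p z.2.1 * ker M Ω p z y * (g z.1 + g z.2 - g y.1 - g y.2) ^ 2 =
        S / M.Z Ω p ^ 2 := by
      rw [hS, sum_div]
      refine sum_congr rfl fun z _ => ?_
      rw [← sum_off M Ω p hz (vl z) (fun y => (w2 M p (vl z) : ℝ) * D (vl z) y), sum_div]
      refine sum_congr rfl fun y _ => ?_
      rw [hμ]
      unfold ker
      by_cases h : z = y
      · subst h; simp [hD]
      · rw [if_neg h]
        simp only [hD, gg, vl]
        ring
    have a2 : ∑ i ∈ range M.nm, ∑ x ∈ Ω, ∑ y ∈ Ω,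
        min ((M.W p x : ℝ) * M.W p y) ((M.W p (M.mv i 1 (x, y)).1 : ℝ) * M.W p (M.mv i 1 (x, y)).2) *
          (g' x + g' y - g' (M.mv i 1 (x, y)).1 - g' (M.mv i 1 (x, y)).2) ^ 2 ≤
        (8 * 2 ^ M.aB) * S := by
      rw [hS, sum_comm (s := (univ : Finset ({x // x ∈ Ω} × {x // x ∈ Ω}))), mul_sum]
      refine sum_le_sum fun i _ => ?_
      rw [← sum_product', ← sum_val Ω (fun z =>
        min ((M.W p z.1 : ℝ) * M.W p z.2) ((M.W p (M.mv i 1 (z.1, z.2)).1 : ℝ) *
          M.W p (M.mv i 1 (z.1, z.2)).2) *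
          (g' z.1 + g' z.2 - g' (M.mv i 1 (z.1, z.2)).1 - g' (M.mv i 1 (z.1, z.2)).2) ^ 2), mul_sum]
      refine sum_le_sum fun z _ => ?_
      simp only [sum_range_succ, sum_range_zero, zero_add, Prod.mk.eta]
      obtain ⟨c1, -, -⟩ := acq_le (hv z) (hv0 (M.mv i 0 (vl z)))
      obtain ⟨-, -, c3⟩ := acq_le (hv z) (hv0 (M.mv i 1 (vl z)))
      have hvz : (0 : ℝ) < w2 M p (vl z) := by exact_mod_cast hv z
      have c4 : 0 ≤ acq (w2 M p (vl z)) (w2 M p (M.mv i 0 (vl z))) *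
          ((w2 M p (vl z) : ℝ) * D (vl z) (M.mv i 0 (vl z))) :=
        mul_nonneg c1 (mul_nonneg hvz.le (sq_nonneg _))
      have c5 := mul_le_mul_of_nonneg_right c3 (sq_nonneg (g' (vl z).1 + g' (vl z).2 -
        g' (M.mv i 1 (vl z)).1 - g' (M.mv i 1 (vl z)).2))
      have e : ∀ X Y : ℝ, (8 * 2 ^ M.aB) * (X / (4 * (2 : ℝ) ^ M.aB) + Y / (4 * (2 : ℝ) ^ M.aB)) =
          2 * X + 2 * Y := fun X Y => by field_simp; ring
      rw [e]
      have e1 : (M.W p (vl z).1 : ℝ) * M.W p (vl z).2 = w2 M p (vl z) := by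
        unfold w2; push_cast; ring
      have e2 : (M.W p (M.mv i 1 (vl z)).1 : ℝ) * M.W p (M.mv i 1 (vl z)).2 =
          w2 M p (M.mv i 1 (vl z)) := by
        unfold w2; push_cast; ring
      rw [e1, e2]
      simp only [hD] at c4 ⊢
      nlinarith
    have hS0 : 0 ≤ S := by
      rw [hS]
      refine sum_nonneg fun z _ => sum_nonneg fun i _ => sum_nonneg fun σ _ => ?_
      have hvz : (0 : ℝ) < w2 M p (vl z) := by exact_mod_cast hv z
      exact div_nonneg (mul_nonneg (acq_le (hv z) (hv0 _)).1 (mul_nonneg hvz.le (sq_nonneg _))) hA0.le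
    have hc : M.m ^ 65 * (8 * 2 ^ M.aB) ≤ M.m ^ 91 := by
      have h1 : 2 ^ M.aB ≤ 2 * M.nm + 1 := size_le M.nm
      have h2 := hM.nm
      have h3 := hM.big
      have h4 : 1 ≤ M.m ^ 25 := Nat.one_le_pow _ _ (by omega)
      have h5 : 8 * 2 ^ M.aB ≤ M.m * M.m ^ 25 := by nlinarith
      calc M.m ^ 65 * (8 * 2 ^ M.aB) ≤ M.m ^ 65 * (M.m * M.m ^ 25) := Nat.mul_le_mul_left _ h5
        _ = M.m ^ 91 := by ring
    have hc' : (M.m : ℝ) ^ 65 * (8 * 2 ^ M.aB) ≤ (M.m : ℝ) ^ 91 := by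
      have := (Nat.cast_le (α := ℝ)).2 hc
      rwa [Nat.cast_mul, Nat.cast_mul, Nat.cast_pow, Nat.cast_pow, Nat.cast_pow, Nat.cast_ofNat,
        Nat.cast_ofNat] at this
    rw [l1, l2, ← mul_div_assoc]
    refine div_le_div_of_nonneg_right ?_ (by positivity)
    calc _ ≤ _ := a1
      _ ≤ (M.m : ℝ) ^ 65 * ((8 * 2 ^ M.aB) * S) := 
        mul_le_mul_of_nonneg_left a2 (pow_nonneg (Nat.cast_nonneg _) _)
      _ = (M.m : ℝ) ^ 65 * (8 * 2 ^ M.aB) * S := by ring
      _ ≤ _ := mul_le_mul_of_nonneg_right hc' hS0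
  · -- the chain
    set l : List X := List.ofFn (fun i => (x i).1) with hl
    have hlen : l.length = K := by rw [hl, List.length_ofFn]
    have hKa : K ≤ 2 ^ M.aK := hK.trans (Nat.lt_size_self _).le
    set ψ : ℕ → ℕ → ℕ → ℕ → ℝ := fun a b i σ =>
      acq (w2 M p (l.getD a [], l.getD b [])) (w2 M p (M.mv i σ (l.getD a [], l.getD b []))) *
        (φ (newL l a b (M.mv i σ (l.getD a [], l.getD b []))) - φ l) with hψ
    set T : ℕ → ℕ → ℕ → ℕ → ℕ → ℝ := fun a b i e σ =>
      if a < K ∧ b < K ∧ a ≠ b ∧ i < M.nm ∧ e = 1 then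
        ψ (un K a) (un K b) (un M.nm i) (un 1 σ) else 0 with hT
    have hmem : ∀ a < K, l.getD a [] ∈ Ω := by
      intro a ha
      have := getD_ofFn2 x ⟨a, ha⟩
      rw [hl]
      simp only at this
      rw [this]
      exact (x ⟨a, ha⟩).2
    have hsz : ∀ a < K, ∀ b < K, ∀ y : X × X,
        (max (crs (w2 M p (l.getD a [], l.getD b [])) (w2 M p y))
          (crs (w2 M p y) (w2 M p (l.getD a [], l.getD b [])))).size ≤ 4 * rh M.m := by
      intro a ha b hb y
      obtain ⟨p1, p2, p3⟩ := hM.ht p _ (hmem a ha)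
      obtain ⟨q1, q2, q3⟩ := hM.ht p _ (hmem b hb)
      obtain ⟨a1, a2⟩ := ht_mul p1 q1 p2 p3 q2 q3
      rw [Nat.size_le, show 4 * rh M.m = 2 * rh M.m + 2 * rh M.m by omega, pow_add]
      by_cases hy : y.1 ∈ Ω ∧ y.2 ∈ Ω
      · obtain ⟨p1', p2', p3'⟩ := hM.ht p _ hy.1
        obtain ⟨q1', q2', q3'⟩ := hM.ht p _ hy.2
        obtain ⟨b1, b2⟩ := ht_mul p1' q1' p2' p3' q2' q3'
        unfold crs w2
        exact max_lt (Nat.mul_lt_mul'' b1 a2) (Nat.mul_lt_mul'' a1 b2)
      · have h0 : w2 M p y = 0 := by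
          unfold w2
          rcases not_and_or.1 hy with h | h
          · rw [hz _ h, zero_mul]
          · rw [hz _ h, mul_zero]
        rw [h0, crs_zero]
        refine max_lt (by positivity) ?_
        unfold crs w2
        rw [Rat.den_zero, mul_one]
        exact lt_of_lt_of_le a1 (Nat.le_mul_of_pos_right _ (by positivity))
    have e1 : Kt M.b1 (M.cstep p) φ l = φ l + Av (2 * M.aK + M.aB + 2) (fun v =>
        T (fld v 0 M.aK) (fld v M.aK M.aK) (fld v (2 * M.aK) M.aB) (fld v (2 * M.aK + M.aB) 1)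
          (fld v (2 * M.aK + M.aB + 1) 1)) := by
      unfold Kt
      have hb0 : M.b0 = 2 * M.aK + M.aB + 2 := rfl
      have e := Av_fld_fld (c := M.b1) (s := 0) (k := M.b0) (s' := M.b0) (k' := 4 * rh M.m)
        (by omega) (by unfold Mdl.b1; omega) (fun v r => φ
          (if fld v 0 M.aK < K ∧ fld v M.aK M.aK < K ∧ fld v 0 M.aK ≠ fld v M.aK M.aK ∧
            fld v (2 * M.aK) M.aB < M.nm ∧ fld v (2 * M.aK + M.aB) 1 = 1 then
          M.pstep p l (un K (fld v 0 M.aK)) (un K (fld v M.aK M.aK))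
            (un M.nm (fld v (2 * M.aK) M.aB)) (un 1 (fld v (2 * M.aK + M.aB + 1) 1)) r else l))
      rw [← Av_const (2 * M.aK + M.aB + 2) (φ l), ← Av_add, ← hb0]
      refine Eq.trans (Av_congr fun u _ => ?_) (e.trans (Av_congr fun v _ => ?_))
      · unfold Mdl.cstep
        rw [hlen, fld_fld (by omega), fld_fld (by omega), fld_fld (by omega), fld_fld (by omega),
          fld_fld (by omega)]
        simp only [zero_add]
      · simp only [hT]
        split_ifs with hc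
        · obtain ⟨c1, c2, -⟩ := hc
          have u1 : un K (fld v 0 M.aK) = fld v 0 M.aK := min_eq_left c1.le
          have u2 : un K (fld v M.aK M.aK) = fld v M.aK M.aK := min_eq_left c2.le
          rw [u1, u2]
          simp only [hψ]
          rw [← KT.Av_accept (hsz _ c1 _ c2 _)]
          refine Av_congr fun r _ => ?_
          unfold Mdl.pstep
          split_ifs <;> first | rfl | contradiction
        · simp
    have e2 : ∀ a b : Fin K, a ≠ b → Pab (ker M Ω p) a b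
        (fun y : Fin K → {x // x ∈ Ω} => φ (List.ofFn (fun i => (y i).1))) x - φ l =
        ∑ i ∈ range M.nm, ∑ σ ∈ range 2, ψ a b i σ / (4 * (2 : ℝ) ^ M.aB) := by
      intro a b hab
      unfold Pab
      rw [kop (x a, x b) (fun z => φ (List.ofFn (fun i => (up2 x a b z i).1)))]
      have u0 : up2 x a b (x a, x b) = x := by
        unfold up2
        simp
      have v0 : vl (x a, x b) = (l.getD a [], l.getD b []) := by
        rw [hl, getD_ofFn2, getD_ofFn2]; rfl
      rw [u0, ← hl, add_sub_cancel_left]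
      have := sum_off M Ω p hz (vl (x a, x b)) (fun y => φ (newL l a b y) - φ l)
      simp only [hψ]
      rw [← v0, ← this]
      refine sum_congr rfl fun z _ => ?_
      rw [hl, newL_val x a b hab]
    rw [e1, Av_five]
    unfold PK
    beta_reduce
    rw [← hl]
    congr 1
    have hp4 : (4 : ℝ) ^ M.aK = 2 ^ M.aK * 2 ^ M.aK := by rw [← mul_pow]; norm_num
    rw [Av_lt hKa _ (fun a ha => by
      rw [← Av_const M.aK 0]
      refine Av_congr fun b _ => ?_
      rw [← Av_const M.aB 0]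
      refine Av_congr fun i _ => ?_
      have : ¬ a < K := by omega
      simp [hT, this]), sum_range, mul_sum, sum_div]
    refine sum_congr rfl fun a _ => ?_
    rw [Av_lt hKa _ (fun b hb => by
      rw [← Av_const M.aB 0]
      refine Av_congr fun i _ => ?_
      have : ¬ b < K := by omega
      simp [hT, this]), sum_range, mul_sum, sum_div, sum_div]
    refine sum_congr rfl fun b _ => ?_
    by_cases hab : a = b
    · subst hab
      simp [hT]
    · have hab' : (a : ℕ) ≠ b := fun h => hab (Fin.ext h)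
      rw [if_neg hab, e2 a b hab, Av_lt hnA' _ (fun i hi => by
        have : ¬ i < M.nm := by omega
        simp [hT, this]), mul_sum, sum_div, sum_div, sum_div]
      refine sum_congr rfl fun i hi => ?_
      have hi' := mem_range.1 hi
      have u1 : un K a = a := min_eq_left a.2.le
      have u2 : un K b = b := min_eq_left b.2.le
      have u3 : un M.nm i = i := min_eq_left hi'.le
      have v0 : un 1 0 = 0 := by decide
      have v1 : un 1 1 = 1 := by decide
      simp only [hT, a.2, b.2, hab', hi', u1, u2, u3, v0, v1, ne_eq, not_false_eq_true, true_and,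
        zero_ne_one, if_false, if_true, sum_range_succ, sum_range_zero, zero_add, hp4]
      field_simp
      ring

end Crest.Agent.R304
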