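import Crest.Agent.R304.DefsA

set_option autoImplicit false

namespace Crest.Agent.R304

open Finset Crest.Agent.PT Crest.Agent.QC Crest.Agent.R317 Crest.Agent.R300U Crest.Agent.R309
open Crest.Agent.R304W Crest.Matchings

theorem good_mdl (hDic : DicStmt) (hAmv : AmvStmt) (hAli : AliStmt) (hAht : AhtStmt)
    (hAup : AupStmt) (hAini : AiniStmt) (hAi0 : Ai0Stmt) (hAfin : AfinStmt)
    (N : ℕ) (G : SimpleGraph (Fin N)) [DecidableRel G.Adj] (a : ℕ)
    (hG : numPerfectMatchings G ≠ 0) :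
    (mdl (N, adjBits G, a)).Good (Om N) (IA G (mOf (N, adjBits G, a))) (numPerfectMatchings G) := by
  have hm : 2000 ≤ mOf (N, adjBits G, a) := by simp only [mOf]; omega
  have hN : N ≤ mOf (N, adjBits G, a) := by simp only [mOf]; omega
  obtain ⟨-, -, -, -, hval, -⟩ := hDic N
  obtain ⟨hev, hne, hfin⟩ := (hAfin N _ G hm hN).2 hG
  refine ⟨hm, Nat.pow_le_pow_left hN 25, hne, ?_, ?_, (hAmv N).1, ?_, ?_, ?_, hAi0 N _ G hm hN hev,
    fun φ hφ => hAini N _ φ hm hN hev hφ, hfin⟩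
  · intro p x hx
    have : ¬ val N x := fun h => hx ((hval x).1 h)
    show WL N _ p x = 0
    rw [WL, if_neg this]
  · intro p x hx
    exact (hAht N _ (adjBits G) p x hm hN ((hval x).2 hx)).1
  · intro s p hI g
    exact hAli N _ p g hm hN hI.nf
  · intro s _ p _ B x hx
    exact (hAht N _ (adjBits G) p x hm hN ((hval x).2 hx)).2 B
  · intro s hs p hI
    exact hAup N _ G s p hm hN hs hI

theorem Pb_mono (c : ℕ) (E F : ℕ → Prop) (h : ∀ u, E u → F u) : Pb c E ≤ Pb c F := by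
  classical
  unfold Pb Av
  refine div_le_div_of_nonneg_right (sum_le_sum fun u _ => ?_) (by positivity)
  by_cases hE : E u
  · simp [hE, h u hE]
  · simp only [hE, if_false]; split_ifs <;> norm_num

theorem Pb_true (c : ℕ) (E : ℕ → Prop) (h : ∀ u, E u) : Pb c E = 1 := by
  classical
  unfold Pb Av
  simp [h]

theorem z0_nonneg (N : ℕ) : 0 ≤ z0L N := by
  unfold z0L
  exact prod_nonneg fun _ _ => by positivity

theorem good64 (hDic : DicStmt) (hAmv : AmvStmt) (hAli : AliStmt) (hAht : AhtStmt)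
    (hAup : AupStmt) (hAini : AiniStmt) (hAi0 : Ai0Stmt) (hAfin : AfinStmt) (hEout : EoutStmt)
    (hEpt : EptStmt) : Good64 (fun q => (mdl q).bT) (fun q => (mdl q.1).out q.2.val) := by
  intro N G _ a ha
  have hm : 2000 ≤ mOf (N, adjBits G, a) := by simp only [mOf]; omega
  have hN : N ≤ mOf (N, adjBits G, a) := by simp only [mOf]; omega
  have ham : a ≤ mOf (N, adjBits G, a) := by simp only [mOf]; omega
  have hzero : numPerfectMatchings G = 0 → ∀ u, (mdl (N, adjBits G, a)).out u = 0 := fun h0 =>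
    (hEpt.2 _).2 ((hAfin N _ G hm hN).1 h0)
  refine ⟨fun u _ => (hEpt.2 _).1 (z0_nonneg N) u, fun h0 u _ => hzero h0 u, ?_⟩
  by_cases h0 : numPerfectMatchings G = 0
  · rw [Pb_true]
    · have : (0 : ℝ) ≤ (2 : ℝ)⁻¹ ^ a := by positivity
      linarith
    · intro u
      simp [hzero h0 u, h0]
  · have hg := good_mdl hDic hAmv hAli hAht hAup hAini hAi0 hAfin N G a h0
    have h1 := hEout _ _ _ _ hg
    have h2 : (2 : ℝ)⁻¹ ^ mOf (N, adjBits G, a) ≤ (2 : ℝ)⁻¹ ^ a :=
      pow_le_pow_of_le_one (by norm_num) (by norm_num) ham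
    have hmm : (mdl (N, adjBits G, a)).m = mOf (N, adjBits G, a) := rfl
    rw [hmm] at h1
    refine le_trans (by linarith) (h1.trans (Pb_mono _ _ _ fun u hu => ?_))
    have hA : (0 : ℝ) ≤ numPerfectMatchings G := by positivity
    have ha' : (0 : ℝ) < a := by exact_mod_cast ha
    have h3 : (numPerfectMatchings G : ℝ) / mOf (N, adjBits G, a) ≤ numPerfectMatchings G / a :=
      div_le_div_of_nonneg_left hA ha' (by exact_mod_cast ham)
    have h4 := abs_le.1 (hu.trans h3)
    have e : (1 : ℝ) / a * numPerfectMatchings G = numPerfectMatchings G / a := by ring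
    constructor
    · rw [sub_mul, e]; linarith [h4.1]
    · rw [add_mul, e]; linarith [h4.2]

theorem pt_mdl (h1 : Apt1Stmt) (h2 : Apt2Stmt) (hEpt : EptStmt) :
    PT (fun q : In64 × Bin => (mdl q.1).out q.2.val) ∧ PT (fun q => (mdl q).bT) := by
  obtain ⟨hW, hU, hF⟩ := h1
  obtain ⟨hmv, hini, hm, hnm, hbI, hz, B, hB, b1, b2, b3⟩ := h2
  exact hEpt.1 In64 mdl B hB hm hnm hbI hz hW hmv hU hF hini b1 b2 b3

end Crest.Agent.R304
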