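import Crest.Agent.R304.ALLa
import Crest.Agent.R304.EKR
import Crest.Agent.R304.DIC
import Crest.Agent.R304.ASW
import Crest.Agent.R304.AMV
import Crest.Agent.R304.ALI
import Crest.Agent.R304.AHT
import Crest.Agent.R304.AUD
import Crest.Agent.R304.AUP
import Crest.Agent.R304.ASYM
import Crest.Agent.R304.AINI
import Crest.Agent.R304.AI0
import Crest.Agent.R304.AFIN
import Crest.Agent.R304.APT1
import Crest.Agent.R304.APT2
import Crest.Agent.R304.MAIN

set_option autoImplicit false

namespace Crest.Agent.R304

open Crest.Agent.PT Crest.Agent.R304W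

theorem dic : DicStmt := DIC_proof
theorem amv : AmvStmt := AMV_proof bas dic (ASW_proof bas dic)

theorem good_all : Good64 (fun q => (mdl q).bT) (fun q => (mdl q.1).out q.2.val) :=
  good64 dic amv (ALI_proof li dic amv) AHT_proof (AUP_proof (AUD_proof DYN_proof dic) epl dic)
    (AINI_proof ASYM_proof dic) (AI0_proof cnt' dic)
    (AFIN_proof (LOW_proof cnt') NPM_proof cnt' dic) (eout EKR_proof) EPT_proof

theorem pt_all : PT (fun q : In64 × Bin => (mdl q.1).out q.2.val) ∧ PT (fun q => (mdl q).bT) :=
  pt_mdl APT1_proof APT2_proof EPT_proof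

end Crest.Agent.R304
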