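import Crest.Agent.R304.DefsM

set_option autoImplicit false

namespace Crest.Agent.R304

open Finset Crest.Agent.R309

namespace CLS

variable {N : ℕ}

lemma comp_comp {e : Mp N} (he : ∀ v, e (e v) = v) (X : Mp N) : (X ∘ e) ∘ e = X := by
  funext v; simp [he]

lemma close (hBas : BasStmt) {e X : Mp N} (he : ∀ v, e (e v) = v) (hX : X ∈ MM (supp e)) :
    X ∘ e ∈ MM ∅ ∧ ∀ a, w a (X ∘ e) = w a X * w a e := by
  simp only [MM, supp, mem_filter, mem_univ, true_and] at hX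
  obtain ⟨h1, h2, h3⟩ := (hBas N).2.2.2.2.2.1 X e hX.1 he fun v => by
    by_cases h : e v = v
    · exact Or.inr h
    · exact Or.inl ((hX.2 v).2 h)
  refine ⟨?_, h3⟩
  simp only [MM, mem_filter, mem_univ, true_and]
  refine ⟨h1, fun v => ?_⟩
  rw [h2, hX.2]
  simp

lemma sum_close (hBas : BasStmt) {e : Mp N} (he : ∀ v, e (e v) = v) (F : Mp N → ℝ)
    (hF : ∀ X, 0 ≤ F X) : ∑ X ∈ MM (supp e), F (X ∘ e) ≤ ∑ X ∈ MM ∅, F X := by
  rw [← sum_image (s := MM (supp e)) (g := fun X => X ∘ e) (f := F) fun X _ Y _ h => by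
    rw [← comp_comp he X, ← comp_comp he Y]; exact congrArg (· ∘ e) h]
  refine sum_le_sum_of_subset_of_nonneg (fun Y hY => ?_) fun X _ _ => hF X
  obtain ⟨X, hX, rfl⟩ := mem_image.1 hY
  exact (close hBas he hX).1

end CLS

open CLS in
theorem CLS_proof (hBas : BasStmt) : ClsStmt := by
  intro N a g c s ha he
  have hw : ∀ σ, 0 < w a σ := fun σ => (hBas N).2.2.2.2.2.2.2 a σ ha
  have hwP : ∀ σ, 0 ≤ wP a σ := fun σ => by
    unfold wP; split_ifs
    · exact (hw σ).le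
    · exact le_rfl
  set F : Mv N → Mp N → Mp N → ℝ := fun i X Y =>
    min (w a X * w a Y) (wP a (mv i (X, Y)).1 * wP a (mv i (X, Y)).2) *
      (g X + g Y - g (mv i (X, Y)).1 - g (mv i (X, Y)).2) ^ 2 with hF
  have hF0 : ∀ i X Y, 0 ≤ F i X Y := fun i X Y =>
    mul_nonneg (le_min (mul_pos (hw X) (hw Y)).le (mul_nonneg (hwP _) (hwP _))) (sq_nonneg _)
  have h1 : ∑ X ∈ MM ∅, ∑ Y ∈ MM ∅, F (c, s) X Y ≤ En a g :=
    single_le_sum (f := fun i => ∑ X ∈ MM ∅, ∑ Y ∈ MM ∅, F i X Y)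
      (fun i _ => sum_nonneg fun X _ => sum_nonneg fun Y _ => hF0 i X Y) (mem_univ (c, s))
  refine le_trans ?_ h1
  refine le_trans ?_ (sum_close hBas (he 0) (fun X => ∑ Y ∈ MM ∅, F (c, s) X Y)
    fun X => sum_nonneg fun Y _ => hF0 _ X Y)
  rw [EE, mul_sum]
  refine sum_le_sum fun X hX => ?_
  refine le_trans ?_ (sum_close hBas (he 1) (fun Y => F (c, s) (X ∘ e6 (c 0)) Y)
    fun Y => hF0 _ _ Y)
  rw [mul_sum]
  refine sum_le_sum fun Y hY => ?_
  split_ifs with h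
  · have e : mv (c, s) (X ∘ e6 (c 0), Y ∘ e6 (c 1)) =
        ((sw s (X, Y)).1 ∘ e6 (c 2), (sw s (X, Y)).2 ∘ e6 (c 3)) := by
      simp only [mv, comp_comp (he 0), comp_comp (he 1)]
    obtain ⟨a0, b0⟩ := close hBas (he 0) hX
    obtain ⟨a1, b1⟩ := close hBas (he 1) hY
    obtain ⟨a2, b2⟩ := close hBas (he 2) h.1
    obtain ⟨a3, b3⟩ := close hBas (he 3) h.2
    have hX' : ∀ v, X (X v) = v := (mem_filter.1 hX).2.1
    have hY' : ∀ v, Y (Y v) = v := (mem_filter.1 hY).2.1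
    have hm : w a (sw s (X, Y)).1 * w a (sw s (X, Y)).2 = w a X * w a Y :=
      ((hBas N).2.2.2.1 X Y (cls X Y s) hX' hY' ((hBas N).1 X Y s).2.1).2 a
    simp only [hF, e, wP, a2, a3, if_true, b0, b1, b2, b3]
    have hp := (mul_pos (hw X) (hw Y)).le
    have e1 : w a X * w a (e6 (c 0)) * (w a Y * w a (e6 (c 1))) =
        w a X * w a Y * (w a (e6 (c 0)) * w a (e6 (c 1))) := by ring
    have e2 : w a (sw s (X, Y)).1 * w a (e6 (c 2)) * (w a (sw s (X, Y)).2 * w a (e6 (c 3))) =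
        w a X * w a Y * (w a (e6 (c 2)) * w a (e6 (c 3))) := by rw [← hm]; ring
    rw [e1, e2, ← mul_min_of_nonneg _ _ hp]
    exact le_of_eq (by ring)
  · rw [mul_zero]; exact hF0 _ _ _

end Crest.Agent.R304
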