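import Crest.Agent.R304.DefsM

set_option autoImplicit false

namespace Crest.Agent.R304

open Finset Crest.Agent.R309

namespace CNT

lemma edge (hBas : BasStmt) {N : ℕ} (T : Finset (Fin N)) (p q : Fin N) (hpq : p ≠ q) (hp : p ∉ T)
    (hq : q ∉ T) :
    ((MM T).filter (fun σ : Mp N => σ p = q)).card = (MM (insert p (insert q T))).card := by
  have h := ((hBas N).2.2.2.2.2.2.1 (fun _ _ => 1) T p q (fun _ _ => ⟨one_pos, rfl⟩) hpq hp hq).2.1
  have hw : ∀ σ : Mp N, w (fun _ _ => 1) σ = 1 := by
    intro σ
    simp [w]
  simp only [Z, hw, sum_const, nsmul_eq_mul, mul_one, one_pow, one_mul] at h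
  exact_mod_cast h

lemma main (hBas : BasStmt) {N : ℕ} (k : ℕ) : ∀ T : Finset (Fin N), T.card + 2 * k = N →
    (MM T).card = ∏ i ∈ range k, (2 * i + 1) := by
  induction k with
  | zero =>
    intro T hT
    have hu : T = univ := Finset.eq_univ_of_card T (by simpa using hT)
    subst hu
    have : MM (univ : Finset (Fin N)) = {id} := by
      ext σ
      simp only [MM, mem_filter, mem_univ, true_and, iff_true, mem_singleton]
      constructor
      · intro h
        funext v
        exact h.2 v
      · rintro rfl
        simp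
    rw [this]
    simp
  | succ k ih =>
    intro T hT
    obtain ⟨p, hp⟩ : ∃ p, p ∉ T := by
      by_contra h
      push Not at h
      have : T = univ := Finset.eq_univ_of_forall h
      rw [this, card_univ, Fintype.card_fin] at hT
      omega
    rw [Finset.card_eq_sum_card_fiberwise (f := fun σ : Mp N => σ p) (s := MM T)
      (t := (insert p T)ᶜ) ?_, prod_range_succ]
    · have e : ∀ q ∈ (insert p T)ᶜ, ((MM T).filter (fun σ : Mp N => σ p = q)).card =
          ∏ i ∈ range k, (2 * i + 1) := by
        intro q hq
        rw [mem_compl, mem_insert, not_or] at hq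
        rw [edge hBas T p q (Ne.symm hq.1) hp hq.2]
        apply ih
        rw [card_insert_of_notMem (by simp [hp, Ne.symm hq.1]), card_insert_of_notMem hq.2]
        omega
      rw [sum_congr rfl e, sum_const, card_compl, card_insert_of_notMem hp, Fintype.card_fin,
        smul_eq_mul, mul_comm]
      congr 1
      omega
    · intro σ hσ
      simp only [MM, coe_filter, mem_univ, true_and, Set.mem_setOf_eq] at hσ
      simp only [coe_compl, coe_insert, Set.mem_compl_iff, Set.mem_insert_iff, mem_coe, not_or]
      have h1 : σ p ≠ p := fun h => hp ((hσ.2 p).mp h)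
      refine ⟨h1, fun h => h1 ?_⟩
      have h2 := (hσ.2 (σ p)).mpr h
      rw [hσ.1 p] at h2
      exact h2.symm

end CNT

theorem CNT_proof (hBas : BasStmt) : CntStmt := by
  intro N
  refine ⟨fun k T h => CNT.main hBas k T h, ?_, ?_⟩
  · intro p q hpq hN
    have h2 : 2 ≤ N := by
      have := p.2
      have := q.2
      have : p.1 ≠ q.1 := fun h => hpq (Fin.ext h)
      omega
    obtain ⟨k, hk⟩ : ∃ k, N = 2 * (k + 1) := ⟨N / 2 - 1, by omega⟩
    rw [CNT.edge hBas ∅ p q hpq (by simp) (by simp), CNT.main hBas k _ ?_,
      CNT.main hBas (k + 1) ∅ (by simp [hk]), prod_range_succ]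
    · congr 1
      omega
    · rw [card_insert_of_notMem (by simp [hpq]), card_insert_of_notMem (by simp)]
      simp
      omega
  · have := Finset.card_le_univ (MM (∅ : Finset (Fin N)))
    simpa using this

end Crest.Agent.R304
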