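import Crest.Agent.R304.DefsM

set_option autoImplicit false

namespace Crest.Agent.R304

open Finset Crest.Agent.R309

namespace COST

theorem fa_pos (θ σ : Bool) (l : ℝ) (h : 0 < l) : 0 < fa θ σ l := by
  unfold fa; split_ifs
  · exact h
  · exact one_pos

theorem fa_mul (θ : Bool) (l : ℝ) : fa θ true l * fa θ false l = l := by
  cases θ <;> simp [fa]

theorem fa_mul' (θ σ : Bool) (l : ℝ) : fa θ (!σ) l * fa θ σ l = l := by
  cases θ <;> cases σ <;> simp [fa]

theorem mul_bd (x y c d C : ℝ) (hx : 0 < x) (hy : 0 < y) (h1 : x ≤ C * c) (h2 : y ≤ C * d) :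
    x * y ≤ C ^ 2 * (c * d) := by
  calc x * y ≤ (C * c) * (C * d) := mul_le_mul h1 h2 hy.le (le_trans hx.le h1)
    _ = _ := by ring

end COST

open COST in
theorem COST_proof : CostStmt := by
  intro α β γ l₀ l₁ l₂ C c₁ c₂ c₃ h0 h2 h01 h21 hC hc₁ hc₂ hc₃
  have h1 : 0 < l₁ := lt_of_lt_of_le h0 h01
  set x : Bool → ℝ := fun σ => if σ = α then l₀ else l₁ with hx
  set y : Bool → ℝ := fun σ => if σ = γ then l₂ else l₁ with hy
  have hc₁' : ∀ σ, x σ ≤ C * c₁ σ := hc₁
  have hc₂' : ∀ σ, y σ ≤ C * c₂ σ := hc₂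
  have hc₃' : ∀ σ, min (x σ) (y σ) ≤ C * c₃ σ := hc₃
  have hx0 : ∀ σ, 0 < x σ := fun σ => by simp only [hx]; split_ifs <;> assumption
  have hy0 : ∀ σ, 0 < y σ := fun σ => by simp only [hy]; split_ifs <;> assumption
  have hx1 : ∀ σ, x σ ≤ l₁ := fun σ => by simp only [hx]; split_ifs <;> linarith
  have hy1 : ∀ σ, y σ ≤ l₁ := fun σ => by simp only [hy]; split_ifs <;> linarith
  have hxx : x true * x false = l₀ * l₁ := by cases α <;> simp [hx, mul_comm]
  have hyy : y true * y false = l₂ * l₁ := by cases γ <;> simp [hy, mul_comm]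
  have hm0 : ∀ σ, 0 < min (x σ) (y σ) := fun σ => lt_min (hx0 σ) (hy0 σ)
  have hmin : ∀ σ, x σ * y σ ≤ min (x σ) (y σ) * l₁ := by
    intro σ
    rcases le_total (x σ) (y σ) with h | h
    · rw [min_eq_left h]; exact mul_le_mul_of_nonneg_left (hy1 σ) (hx0 σ).le
    · rw [min_eq_right h, mul_comm]; exact mul_le_mul_of_nonneg_left (hx1 σ) (hy0 σ).le
  have hmm : l₀ * l₂ ≤ min (x true) (y true) * min (x false) (y false) := by
    have h3 := mul_le_mul (hmin true) (hmin false) (mul_pos (hx0 _) (hy0 _)).le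
      (mul_pos (hm0 _) h1).le
    have h4 : x true * y true * (x false * y false) = (l₀ * l₂) * (l₁ * l₁) := by
      calc x true * y true * (x false * y false) = (x true * x false) * (y true * y false) := by ring
        _ = _ := by rw [hxx, hyy]; ring
    rw [h4] at h3
    have h5 : min (x true) (y true) * l₁ * (min (x false) (y false) * l₁) =
        (min (x true) (y true) * min (x false) (y false)) * (l₁ * l₁) := by ring
    rw [h5] at h3
    exact le_of_mul_le_mul_right h3 (mul_pos h1 h1)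
  have hC2 : 1 ≤ C ^ 2 := one_le_pow₀ hC
  have htot : om α β γ l₀ l₁ l₂ c₁ c₂ c₃ true true true *
      om α β γ l₀ l₁ l₂ c₁ c₂ c₃ false false false = l₀ * l₁ * l₂ := by
    simp only [om, if_true]
    calc _ = (fa α true l₀ * fa α false l₀) * (fa β true l₁ * fa β false l₁) *
        (fa γ true l₂ * fa γ false l₂) := by ring
      _ = _ := by rw [fa_mul, fa_mul, fa_mul]
  have hA : ∀ σ, x σ * y σ * (fa α σ l₀ * fa γ σ l₂) ≤
      C ^ 2 * (c₁ σ * fa γ σ l₂ * (c₂ σ * fa α σ l₀)) := by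
    intro σ
    have h3 := mul_bd _ _ _ _ C (hx0 σ) (hy0 σ) (hc₁' σ) (hc₂' σ)
    calc _ ≤ C ^ 2 * (c₁ σ * c₂ σ) * (fa α σ l₀ * fa γ σ l₂) :=
          mul_le_mul_of_nonneg_right h3 (mul_pos (fa_pos _ _ _ h0) (fa_pos _ _ _ h2)).le
      _ = _ := by ring
  have hB : ∀ σ, x σ * y σ * (fa α σ l₀ * fa γ σ l₂) ≤
      C ^ 2 * (c₃ σ * fa β (!σ) l₁ * (fa α σ l₀ * fa β σ l₁ * fa γ σ l₂)) := by
    intro σ
    have hcc : 0 < C * c₃ σ := lt_of_lt_of_le (hm0 σ) (hc₃' σ)
    have h3 : x σ * y σ ≤ C ^ 2 * (c₃ σ * l₁) := by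
      calc x σ * y σ ≤ min (x σ) (y σ) * l₁ := hmin σ
        _ ≤ C * c₃ σ * l₁ := mul_le_mul_of_nonneg_right (hc₃' σ) h1.le
        _ = 1 * (C * c₃ σ * l₁) := by ring
        _ ≤ C * (C * c₃ σ * l₁) := mul_le_mul_of_nonneg_right hC (mul_pos hcc h1).le
        _ = _ := by ring
    calc _ ≤ C ^ 2 * (c₃ σ * l₁) * (fa α σ l₀ * fa γ σ l₂) :=
          mul_le_mul_of_nonneg_right h3 (mul_pos (fa_pos _ _ _ h0) (fa_pos _ _ _ h2)).le
      _ = C ^ 2 * (c₃ σ * (fa β (!σ) l₁ * fa β σ l₁)) * (fa α σ l₀ * fa γ σ l₂) := by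
          rw [fa_mul']
      _ = _ := by ring
  refine ⟨?_, ?_⟩
  · intro τ₁ τ₂
    cases τ₁ <;> cases τ₂
    · rw [htot]
      simp only [om, Bool.not_false, Bool.not_true, Bool.false_eq_true, Bool.true_eq_false,
        if_false]
      have h3 := mul_bd _ _ _ _ C (hm0 true) (hm0 false) (hc₃' true) (hc₃' false)
      calc l₀ * l₁ * l₂ = (l₀ * l₂) * l₁ := by ring
        _ ≤ C ^ 2 * (c₃ true * c₃ false) * l₁ :=
          mul_le_mul_of_nonneg_right (hmm.trans h3) h1.le
        _ = C ^ 2 * (c₃ true * c₃ false) * (fa β true l₁ * fa β false l₁) := by rw [fa_mul]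
        _ = _ := by ring
    · rw [htot]
      simp only [om, Bool.not_false, Bool.not_true, Bool.false_eq_true, Bool.true_eq_false,
        if_false, if_true]
      have h3 := mul_bd _ _ _ _ C (hx0 true) (hx0 false) (hc₁' true) (hc₁' false)
      rw [hxx] at h3
      calc l₀ * l₁ * l₂ ≤ C ^ 2 * (c₁ true * c₁ false) * l₂ :=
          mul_le_mul_of_nonneg_right h3 h2.le
        _ = C ^ 2 * (c₁ true * c₁ false) * (fa γ true l₂ * fa γ false l₂) := by rw [fa_mul]
        _ = _ := by ring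
    · rw [htot]
      simp only [om, Bool.not_false, Bool.not_true, Bool.false_eq_true, Bool.true_eq_false,
        if_false, if_true]
      have h3 := mul_bd _ _ _ _ C (hy0 true) (hy0 false) (hc₂' true) (hc₂' false)
      rw [hyy] at h3
      calc l₀ * l₁ * l₂ = l₂ * l₁ * l₀ := by ring
        _ ≤ C ^ 2 * (c₂ true * c₂ false) * l₀ := mul_le_mul_of_nonneg_right h3 h0.le
        _ = C ^ 2 * (c₂ true * c₂ false) * (fa α true l₀ * fa α false l₀) := by rw [fa_mul]
        _ = _ := by ring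
    · simp only [Bool.not_true]
      rw [htot]
      have : 0 < l₀ * l₁ * l₂ := by positivity
      nlinarith
  · rw [htot]
    have hC0 : 0 < C ^ 2 := by positivity
    have ht : x true * y true * (fa α true l₀ * fa γ true l₂) ≤ C ^ 2 *
        min (om α β γ l₀ l₁ l₂ c₁ c₂ c₃ true false true * om α β γ l₀ l₁ l₂ c₁ c₂ c₃ true true false)
          (om α β γ l₀ l₁ l₂ c₁ c₂ c₃ true false false * om α β γ l₀ l₁ l₂ c₁ c₂ c₃ true true true) := by
      rw [mul_min_of_nonneg _ _ hC0.le]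
      refine le_min ?_ ?_
      · simpa [om] using hA true
      · simpa [om] using hB true
    have hf : x false * y false * (fa α false l₀ * fa γ false l₂) ≤ C ^ 2 *
        min (om α β γ l₀ l₁ l₂ c₁ c₂ c₃ false true true * om α β γ l₀ l₁ l₂ c₁ c₂ c₃ false false false)
          (om α β γ l₀ l₁ l₂ c₁ c₂ c₃ false true false * om α β γ l₀ l₁ l₂ c₁ c₂ c₃ false false true) := by
      rw [mul_min_of_nonneg _ _ hC0.le]
      refine le_min ?_ ?_
      · simpa [om] using hB false
      · simpa [om] using hA false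
    have hp : ∀ σ, 0 < x σ * y σ * (fa α σ l₀ * fa γ σ l₂) := fun σ =>
      mul_pos (mul_pos (hx0 σ) (hy0 σ)) (mul_pos (fa_pos _ _ _ h0) (fa_pos _ _ _ h2))
    have h3 := mul_le_mul ht hf (hp false).le ((hp true).le.trans ht)
    have h4 : x true * y true * (fa α true l₀ * fa γ true l₂) *
        (x false * y false * (fa α false l₀ * fa γ false l₂)) = (l₀ * l₁ * l₂) ^ 2 := by
      calc _ = (x true * x false) * (y true * y false) * (fa α true l₀ * fa α false l₀) *
          (fa γ true l₂ * fa γ false l₂) := by ring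
        _ = _ := by rw [hxx, hyy, fa_mul, fa_mul]; ring
    rw [h4] at h3
    refine h3.trans (le_of_eq ?_)
    ring

end Crest.Agent.R304
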