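import Crest.Agent.R304.DefsM

set_option autoImplicit false

namespace Crest.Agent.R304

open Finset

namespace CYC

variable {N : ℕ}

theorem mem_MM {σ : Mp N} (h : σ ∈ MM (∅ : Finset (Fin N))) :
    (∀ v, σ (σ v) = v) ∧ ∀ v, σ v ≠ v := by
  unfold MM at h
  rw [mem_filter] at h
  exact ⟨h.2.1, fun v hv => by simpa using (h.2.2 v).1 hv⟩

theorem wk_even (I F : Mp N) (r : Fin N) {k : ℕ} (hk : k % 2 = 0) :
    wk I F r (k + 1) = I (wk I F r k) := by
  rw [wk, if_pos hk]

theorem wk_odd (I F : Mp N) (r : Fin N) {k : ℕ} (hk : k % 2 = 1) :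
    wk I F r (k + 1) = F (wk I F r k) := by
  rw [wk, if_neg (by omega)]

theorem exists_rep (x : ℕ → Fin N) : ∃ j, j ≤ N ∧ ∃ i < j, x i = x j := by
  obtain ⟨i, hi, j, hj, hne, h⟩ := Finset.exists_ne_map_eq_of_card_lt_of_maps_to
    (s := range (N + 1)) (t := (univ : Finset (Fin N))) (f := x) (by simp)
    (fun _ _ => mem_coe.2 (mem_univ _))
  rw [mem_range] at hi hj
  rcases lt_or_gt_of_ne hne with h1 | h1
  · exact ⟨j, by omega, i, h1, h⟩
  · exact ⟨i, by omega, j, h1, h.symm⟩

theorem exists_len (I F : Mp N) (r : Fin N) (hI : ∀ v, I (I v) = v) (hI' : ∀ v, I v ≠ v)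
    (hF : ∀ v, F (F v) = v) (hF' : ∀ v, F v ≠ v) (hr : I r ≠ F r) :
    ∃ L, 4 ≤ L ∧ L ≤ N ∧ L % 2 = 0 ∧ wk I F r L = r ∧
      ∀ i < L, ∀ j < L, wk I F r i = wk I F r j → i = j := by
  classical
  have hex : ∃ j, ∃ i < j, wk I F r i = wk I F r j := by
    obtain ⟨j, _, h⟩ := exists_rep (wk I F r)
    exact ⟨j, h⟩
  have hLN : Nat.find hex ≤ N := by
    obtain ⟨j, hj, h⟩ := exists_rep (wk I F r)
    exact (Nat.find_min' hex h).trans hj
  have hinj : ∀ i < Nat.find hex, ∀ j < Nat.find hex, wk I F r i = wk I F r j → i = j := by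
    intro i hi j hj h
    by_contra hne
    rcases lt_or_gt_of_ne hne with h1 | h1
    · exact Nat.find_min hex hj ⟨i, h1, h⟩
    · exact Nat.find_min hex hi ⟨j, h1, h.symm⟩
  obtain ⟨i, hi, hx⟩ := Nat.find_spec hex
  generalize Nat.find hex = L at hLN hinj hi hx
  obtain ⟨l, rfl⟩ : ∃ l, L = l + 1 := ⟨L - 1, by omega⟩
  -- the parity of `l` differs from that of `i`
  have hpar : l % 2 ≠ i % 2 := by
    intro hp
    have h1 : wk I F r l = wk I F r (i + 1) := by
      rcases Nat.mod_two_eq_zero_or_one i with h | h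
      · rw [wk_even I F r h, hx, wk_even I F r (hp.trans h), hI]
      · rw [wk_odd I F r h, hx, wk_odd I F r (hp.trans h), hF]
    by_cases h2 : i + 1 < l + 1
    · have := hinj l (by omega) (i + 1) h2 h1
      omega
    · have h3 : i = l := by omega
      subst h3
      rcases Nat.mod_two_eq_zero_or_one i with h | h
      · rw [wk_even I F r h] at h1
        exact hI' _ h1.symm
      · rw [wk_odd I F r h] at h1
        exact hF' _ h1.symm
  have hi0 : i = 0 := by
    by_contra hne
    obtain ⟨i', rfl⟩ : ∃ i', i = i' + 1 := ⟨i - 1, by omega⟩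
    have h1 : wk I F r i' = wk I F r l := by
      rcases Nat.mod_two_eq_zero_or_one i' with h | h
      · rw [wk_even I F r h, wk_even I F r (k := l) (by omega)] at hx
        rw [← hI (wk I F r i'), hx, hI]
      · rw [wk_odd I F r h, wk_odd I F r (k := l) (by omega)] at hx
        rw [← hF (wk I F r i'), hx, hF]
    have := hinj i' (by omega) l (by omega) h1
    omega
  subst hi0
  have h0 : wk I F r 0 = r := rfl
  rw [h0] at hx
  refine ⟨l + 1, ?_, hLN, by omega, hx.symm, hinj⟩
  by_contra hlt
  have hl : l = 1 := by omega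
  subst hl
  rw [wk_odd I F r (by norm_num), wk_even I F r (k := 0) (by norm_num), h0] at hx
  apply hr
  rw [← hF (I r), ← hx]

end CYC

theorem CYC_proof (hBas : BasStmt) : CycStmt := by
  intro N I F r hI hF hr
  obtain ⟨hI1, hI2⟩ := CYC.mem_MM hI
  obtain ⟨hF1, hF2⟩ := CYC.mem_MM hF
  obtain ⟨L, h4, hN, hpar, hL, hinj⟩ := CYC.exists_len I F r hI1 hI2 hF1 hF2 hr
  obtain ⟨hs, hcl, hmin⟩ := (hBas N).1 I F r
  have h0 : wk I F r 0 = r := rfl
  have hlast : F (wk I F r (L - 1)) = r := by
    rw [← CYC.wk_odd I F r (by omega), show L - 1 + 1 = L by omega, hL]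
  have hFr : F r = wk I F r (L - 1) := by
    rw [← hF1 (wk I F r (L - 1)), hlast]
  have hcls : cls I F r = (range L).image (wk I F r) := by
    apply Finset.Subset.antisymm
    · apply hmin
      · exact mem_image.2 ⟨0, mem_range.2 (by omega), h0⟩
      · intro v hv
        obtain ⟨k, hk, rfl⟩ := mem_image.1 hv
        rw [mem_range] at hk
        rcases Nat.mod_two_eq_zero_or_one k with h | h
        · refine ⟨mem_image.2 ⟨k + 1, mem_range.2 (by omega), CYC.wk_even I F r h⟩, ?_⟩
          by_cases hk0 : k = 0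
          · subst hk0
            exact mem_image.2 ⟨L - 1, mem_range.2 (by omega), by rw [h0, hFr]⟩
          · obtain ⟨k', rfl⟩ : ∃ k', k = k' + 1 := ⟨k - 1, by omega⟩
            refine mem_image.2 ⟨k', mem_range.2 (by omega), ?_⟩
            rw [CYC.wk_odd I F r (k := k') (by omega), hF1]
        · constructor
          · obtain ⟨k', rfl⟩ : ∃ k', k = k' + 1 := ⟨k - 1, by omega⟩
            refine mem_image.2 ⟨k', mem_range.2 (by omega), ?_⟩
            rw [CYC.wk_even I F r (k := k') (by omega), hI1]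
          · by_cases hk1 : k + 1 < L
            · exact mem_image.2 ⟨k + 1, mem_range.2 hk1, CYC.wk_odd I F r h⟩
            · refine mem_image.2 ⟨0, mem_range.2 (by omega), ?_⟩
              rw [h0, show k = L - 1 by omega, hlast]
    · intro v hv
      obtain ⟨k, hk, rfl⟩ := mem_image.1 hv
      clear hk hv
      induction k with
      | zero => exact hs
      | succ k ih =>
        rcases Nat.mod_two_eq_zero_or_one k with h | h
        · rw [CYC.wk_even I F r h]; exact (hcl _ ih).1
        · rw [CYC.wk_odd I F r h]; exact (hcl _ ih).2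
  refine ⟨L, ⟨h4, hN, hpar, hL, hinj, hcls⟩, ?_, ?_⟩
  · funext v
    have e1 : 0 + 0 % 2 = 0 := rfl
    have e2 : L - 1 + 1 - (L - 1) % 2 = L - 1 := by omega
    simp only [chd, sw, mix, e1, e2, hcls, h0]
    by_cases h1 : v = r
    · subst h1
      rw [if_pos rfl, if_pos (mem_image.2 ⟨0, mem_range.2 (by omega), h0⟩), hFr]
    · rw [if_neg h1]
      by_cases h2 : v = wk I F r (L - 1)
      · rw [if_pos h2, if_pos (mem_image.2 ⟨L - 1, mem_range.2 (by omega), h2.symm⟩), h2, hlast]
      · rw [if_neg h2]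
        have h3 : v ∈ (Ioo 0 (L - 1)).image (wk I F r) ↔ v ∈ (range L).image (wk I F r) := by
          simp only [mem_image, mem_Ioo, mem_range]
          constructor
          · rintro ⟨k, hk, rfl⟩
            exact ⟨k, by omega, rfl⟩
          · rintro ⟨k, hk, rfl⟩
            refine ⟨k, ⟨?_, ?_⟩, rfl⟩
            · by_contra hc
              exact h1 (by rw [show k = 0 by omega, h0])
            · by_contra hc
              exact h2 (by rw [show k = L - 1 by omega])
        by_cases h4 : v ∈ (range L).image (wk I F r)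
        · rw [if_pos (h3.2 h4), if_pos h4]
        · rw [if_neg (fun h => h4 (h3.1 h)), if_neg h4]
  · intro i _
    funext v
    have e2 : i + 1 + 1 - (i + 1) % 2 = i + i % 2 + 1 := by omega
    have e3 : wk I F r (i + i % 2 + 1) = I (wk I F r (i + i % 2)) :=
      CYC.wk_even I F r (by omega)
    have e4 : Ioo (i + i % 2) (i + i % 2 + 1) = ∅ := by
      ext k; simp only [mem_Ioo, notMem_empty, iff_false]; omega
    simp only [chd, e2, e3, e4, image_empty, notMem_empty, if_false]
    by_cases h1 : v = wk I F r (i + i % 2)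
    · rw [if_pos h1, h1]
    · rw [if_neg h1]
      by_cases h2 : v = I (wk I F r (i + i % 2))
      · rw [if_pos h2, h2, hI1]
      · rw [if_neg h2]

end Crest.Agent.R304
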