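import Crest.Agent.R304.DefsM

/-! Row 304, task DYN: one update of the exponents. -/

set_option autoImplicit false

namespace Crest.Agent.R304

open Finset

namespace DYN

variable {N : ℕ}

theorem mm_ne {σ : Mp N} (h : σ ∈ MM (∅ : Finset (Fin N))) (v : Fin N) : σ v ≠ v := by
  have := (mem_filter.1 h).2.2 v
  simpa using this

theorem mm_inv {σ : Mp N} (h : σ ∈ MM (∅ : Finset (Fin N))) (v : Fin N) : σ (σ v) = v :=
  (mem_filter.1 h).2.1 v

theorem w_ak {H : ℝ} (hH : 0 < H) (k : Fin N → Fin N → ℤ) {σ : Mp N}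
    (h : σ ∈ MM (∅ : Finset (Fin N))) :
    w (ak H k) σ = Real.exp (Real.log (1 + 1 / H) * ∑ v, (k v (σ v) : ℝ)) := by
  rw [mul_sum, Real.exp_sum, w]
  refine prod_congr rfl fun v _ => ?_
  rw [if_neg (mm_ne h v), ak, ← Real.rpow_intCast, Real.rpow_def_of_pos (by positivity)]

theorem w_add {H : ℝ} (hH : 0 < H) (k δ : Fin N → Fin N → ℤ) {σ : Mp N}
    (h : σ ∈ MM (∅ : Finset (Fin N))) :
    w (ak H (k + δ)) σ =
      w (ak H k) σ * Real.exp (Real.log (1 + 1 / H) * ∑ v, (δ v (σ v) : ℝ)) := by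
  rw [w_ak hH _ h, w_ak hH _ h, ← Real.exp_add, ← mul_add, ← sum_add_distrib]
  simp

theorem exch (a φ : Fin N → Fin N → ℝ) :
    ∑ σ ∈ MM ∅, w a σ * ∑ v, φ v (σ v) = ∑ p, ∑ q, if p = q then 0 else φ p q * ZE a p q := by
  simp only [mul_sum]
  rw [sum_comm]
  refine sum_congr rfl fun p _ => ?_
  rw [← sum_fiberwise (s := MM ∅) (g := fun σ : Mp N => σ p)]
  refine sum_congr rfl fun q _ => ?_
  split_ifs with h
  · refine sum_eq_zero fun σ hσ => ?_
    obtain ⟨h1, h2⟩ := mem_filter.1 hσ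
    exact absurd (h2.trans h.symm) (mm_ne h1 p)
  · rw [ZE, mul_sum]
    refine sum_congr rfl fun σ hσ => ?_
    rw [(mem_filter.1 hσ).2, mul_comm]

theorem exp_le_quad {x : ℝ} (h : |x| ≤ 1) : Real.exp x ≤ 1 + x + x ^ 2 := by
  have := Real.abs_exp_sub_one_sub_id_le h
  have := le_abs_self (Real.exp x - 1 - x)
  linarith

end DYN

open DYN in
theorem DYN_proof : DynStmt := by
  intro N m H k δ hm hN hH hsym hNF hδ
  have hm' : (2000 : ℝ) ≤ m := by exact_mod_cast hm
  have hN' : (N : ℝ) ≤ m := by exact_mod_cast hN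
  have hm0 : (0 : ℝ) < m := by linarith
  have hm3 : (m : ℝ) ≤ m ^ 3 := le_self_pow₀ (by linarith) (by norm_num)
  have hH0 : 0 < H := by linarith
  obtain ⟨hZ, hNF⟩ := hNF
  set τ : ℝ := Real.log (1 + 1 / H) with hτ
  have hτ1 : τ ≤ 1 / H := by
    have := Real.log_le_sub_one_of_pos (show 0 < 1 + 1 / H by positivity)
    linarith
  have hτ2 : 1 / (H + 1) ≤ τ := by
    have := Real.one_sub_inv_le_log_of_pos (show 0 < 1 + 1 / H by positivity)
    refine le_trans (le_of_eq ?_) this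
    field_simp
    ring
  have hτ0 : 0 < τ := lt_of_lt_of_le (by positivity) hτ2
  have hτ3 : τ * m ^ 2 ≤ 1 / m := by
    have : 1 / H ≤ 1 / (m : ℝ) ^ 3 := one_div_le_one_div_of_le (by positivity) hH
    calc τ * m ^ 2 ≤ 1 / (m : ℝ) ^ 3 * m ^ 2 :=
          mul_le_mul_of_nonneg_right (hτ1.trans this) (by positivity)
      _ = 1 / m := by field_simp
  have hmi : 1 / (m : ℝ) ≤ 1 / 2000 := one_div_le_one_div_of_le (by norm_num) hm'
  set ε : ℝ := 1 / (m : ℝ) ^ 4 with hε
  have hε0 : 0 < ε := by positivity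
  have e3 : 1 / (3 * (m : ℝ) ^ 4) = ε / 3 := by rw [hε]; field_simp
  have e4 : ∀ c : ℝ, c / (m : ℝ) ^ 4 = c * ε := fun c => by rw [hε]; field_simp
  rw [e3] at hNF ⊢
  simp only [e4] at hδ
  have hW : ∀ σ ∈ MM (∅ : Finset (Fin N)), 0 < w (ak H k) σ := fun σ h => by
    rw [w_ak hH0 _ h]; positivity
  have hv : ∀ p q, p ≠ q → (-1 : ℝ) ≤ δ p q ∧ |(δ p q : ℝ)| ≤ m := by
    intro p q h
    rcases hδ p q h with h | h | h <;> rw [h.1] <;> push_cast
    · exact ⟨le_rfl, by rw [abs_neg, abs_one]; linarith⟩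
    · exact ⟨by linarith, by rw [abs_of_pos hm0]⟩
    · exact ⟨by linarith, by rw [abs_zero]; linarith⟩
  have hA : ∀ σ ∈ MM (∅ : Finset (Fin N)), τ * ∑ v, |(δ v (σ v) : ℝ)| ≤ 1 / m := by
    intro σ h
    have h1 : ∑ v, |(δ v (σ v) : ℝ)| ≤ ∑ _v : Fin N, (m : ℝ) :=
      sum_le_sum fun v _ => (hv v _ (mm_ne h v).symm).2
    simp only [sum_const, card_univ, Fintype.card_fin, nsmul_eq_mul] at h1
    refine le_trans (mul_le_mul_of_nonneg_left (h1.trans ?_) hτ0.le) hτ3
    nlinarith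
  have hB : ∀ σ : Mp N, |τ * ∑ v, (δ v (σ v) : ℝ)| ≤ τ * ∑ v, |(δ v (σ v) : ℝ)| := by
    intro σ
    rw [abs_mul, abs_of_pos hτ0]
    exact mul_le_mul_of_nonneg_left (abs_sum_le_sum_abs _ _) hτ0.le
  have hS : ∀ σ ∈ MM (∅ : Finset (Fin N)), |τ * ∑ v, (δ v (σ v) : ℝ)| ≤ 1 / 2000 :=
    fun σ h => (hB σ).trans ((hA σ h).trans hmi)
  have hlo : ∀ σ ∈ MM (∅ : Finset (Fin N)), 1999 / 2000 * w (ak H k) σ ≤ w (ak H (k + δ)) σ := by
    intro σ h
    rw [w_add hH0 k δ h, mul_comm]
    refine mul_le_mul_of_nonneg_left ?_ (hW σ h).le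
    have := Real.add_one_le_exp (τ * ∑ v, (δ v (σ v) : ℝ))
    have := (abs_le.1 (hS σ h)).1
    linarith
  have hhi : ∀ σ ∈ MM (∅ : Finset (Fin N)), w (ak H (k + δ)) σ ≤ 1001 / 1000 * w (ak H k) σ := by
    intro σ h
    rw [w_add hH0 k δ h, mul_comm]
    refine mul_le_mul_of_nonneg_right ?_ (hW σ h).le
    have h1 := exp_le_quad ((hS σ h).trans (by norm_num))
    obtain ⟨h2, h3⟩ := abs_le.1 (hS σ h)
    nlinarith
  have hZlo : 1999 / 2000 * Z (ak H k) ∅ ≤ Z (ak H (k + δ)) ∅ := by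
    unfold Z
    rw [mul_sum]
    exact sum_le_sum hlo
  have hZhi : Z (ak H (k + δ)) ∅ ≤ 1001 / 1000 * Z (ak H k) ∅ := by
    unfold Z
    rw [mul_sum]
    exact sum_le_sum hhi
  have hZ' : 0 < Z (ak H (k + δ)) ∅ := by linarith
  have hquad : Z (ak H (k + δ)) ∅ ≤ Z (ak H k) ∅ + τ * ∑ p, ∑ q,
      if p = q then 0 else ((δ p q : ℝ) + |(δ p q : ℝ)| / m) * ZE (ak H k) p q := by
    rw [← exch (ak H k) fun p q => (δ p q : ℝ) + |(δ p q : ℝ)| / m]
    unfold Z
    rw [mul_sum, ← sum_add_distrib]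
    refine sum_le_sum fun σ h => ?_
    rw [w_add hH0 k δ h, ← hτ, sum_add_distrib, ← sum_div]
    have h1 := exp_le_quad ((hS σ h).trans (by norm_num))
    have h2 : (τ * ∑ v, (δ v (σ v) : ℝ)) ^ 2 ≤ τ * ((∑ v, |(δ v (σ v) : ℝ)|) / m) := by
      rw [← sq_abs, sq]
      refine (mul_le_mul (hB σ) ((hB σ).trans (hA σ h)) (abs_nonneg _)
        ((abs_nonneg _).trans (hB σ))).trans (le_of_eq ?_)
      field_simp
    have h3 := mul_le_mul_of_nonneg_left (h1.trans (add_le_add_right h2 _)) (hW σ h).le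
    linarith
  have hZE : ∀ p q, 0 ≤ ZE (ak H k) p q := fun p q =>
    sum_nonneg fun σ h => (hW σ (mem_filter.1 h).1).le
  have hεZ : 0 < ε * Z (ak H k) ∅ := mul_pos hε0 hZ
  have hm1 : ((m : ℝ) + |(m : ℝ)| / m) = m + 1 := by rw [abs_of_pos hm0]; field_simp
  refine ⟨⟨hZ', fun p q hpq => ?_⟩, ?_⟩
  · have hElo : 1999 / 2000 * ZE (ak H k) p q ≤ ZE (ak H (k + δ)) p q := by
      unfold ZE
      rw [mul_sum]
      exact sum_le_sum fun σ h => hlo σ (mem_filter.1 h).1
    have hZε := mul_le_mul_of_nonneg_left hZhi hε0.le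
    rcases hδ p q hpq with h | h | h
    · nlinarith [h.2]
    · have h1 : (1 + τ * m) * ZE (ak H k) p q ≤ ZE (ak H (k + δ)) p q := by
        unfold ZE
        rw [mul_sum]
        refine sum_le_sum fun σ hσ => ?_
        obtain ⟨hσ, hp⟩ := mem_filter.1 hσ
        have hq : σ q = p := by rw [← hp, mm_inv hσ]
        rw [w_add hH0 k δ hσ, mul_comm]
        refine mul_le_mul_of_nonneg_left ?_ (hW σ hσ).le
        have h2 : ∑ v ∈ ({p, q} : Finset (Fin N)), ((δ v (σ v) : ℝ) + 1) ≤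
            ∑ v, ((δ v (σ v) : ℝ) + 1) :=
          sum_le_sum_of_subset_of_nonneg (subset_univ _) fun v _ _ => by
            have := (hv v _ (mm_ne hσ v).symm).1
            linarith
        rw [sum_pair hpq, hp, hq, ← (hsym p q).2, h.1, sum_add_distrib] at h2
        simp only [sum_const, card_univ, Fintype.card_fin, nsmul_eq_mul, mul_one] at h2
        push_cast at h2
        have h3 : τ * m ≤ τ * ∑ v, (δ v (σ v) : ℝ) :=
          mul_le_mul_of_nonneg_left (by linarith) hτ0.le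
        have := Real.add_one_le_exp (τ * ∑ v, (δ v (σ v) : ℝ))
        linarith
      have h2 : (∑ p, ∑ q, if p = q then 0 else ((δ p q : ℝ) + |(δ p q : ℝ)| / m) * ZE (ak H k) p q)
          ≤ ∑ _p : Fin N, ∑ _q : Fin N, (m + 1) * (11 / 20 * ε * Z (ak H k) ∅) := by
        refine sum_le_sum fun p _ => sum_le_sum fun q _ => ?_
        split_ifs with hh
        · positivity
        rcases hδ p q hh with h | h | h <;> rw [h.1] <;> push_cast
        · refine le_trans (mul_nonpos_of_nonpos_of_nonneg ?_ (hZE p q)) (by positivity)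
          rw [abs_neg, abs_one]
          linarith
        · rw [hm1]
          exact mul_le_mul_of_nonneg_left h.2 (by positivity)
        · simp only [abs_zero, zero_div, add_zero, zero_mul]
          positivity
      simp only [sum_const, card_univ, Fintype.card_fin, nsmul_eq_mul] at h2
      have h3 : (N : ℝ) * (N * ((m + 1) * (11 / 20 * ε * Z (ak H k) ∅))) ≤ m * Z (ak H k) ∅ := by
        have f1 : (N : ℝ) * (N * ((m + 1) * (11 / 20 * ε * Z (ak H k) ∅))) ≤
            m * (m * ((m * m) * (1 * ε * Z (ak H k) ∅))) := by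
          gcongr
          · nlinarith
          · norm_num
        refine f1.trans ?_
        have f2 : (m : ℝ) * (m * ((m * m) * (1 * ε * Z (ak H k) ∅))) = Z (ak H k) ∅ := by
          rw [hε]; field_simp
        rw [f2]
        exact le_mul_of_one_le_left hZ.le (by linarith)
      have h4 : Z (ak H (k + δ)) ∅ ≤ (1 + τ * m) * Z (ak H k) ∅ := by
        have := mul_le_mul_of_nonneg_left (h2.trans h3) hτ0.le
        linarith
      calc ε / 3 * Z (ak H (k + δ)) ∅ ≤ ε / 3 * ((1 + τ * m) * Z (ak H k) ∅) :=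
            mul_le_mul_of_nonneg_left h4 (by positivity)
        _ = (1 + τ * m) * (ε / 3 * Z (ak H k) ∅) := by ring
        _ ≤ (1 + τ * m) * ZE (ak H k) p q :=
            mul_le_mul_of_nonneg_left (hNF p q hpq) (by positivity)
        _ ≤ _ := h1
    · nlinarith [h.2]
  · rintro ⟨p, q, hpq, hd⟩
    let t : Fin N → Fin N → ℝ := fun p q => if p = q then 0 else
      ((δ p q : ℝ) + |(δ p q : ℝ)| / m) * ZE (ak H k) p q - ε * Z (ak H k) ∅ * δ p q
    have heavy : ∀ p q, p ≠ q → δ p q = -1 → t p q ≤ -(9 / 10) * (ε * Z (ak H k) ∅) := by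
      intro p q hpq hd
      have h : 39 / 20 * ε * Z (ak H k) ∅ ≤ ZE (ak H k) p q := by
        rcases hδ p q hpq with h | h | h
        · exact h.2
        · omega
        · omega
      simp only [t, if_neg hpq, hd]
      push_cast
      rw [abs_neg, abs_one]
      nlinarith
    have ht : ∀ p q, t p q ≤ 0 := by
      intro p q
      by_cases hh : p = q
      · simp [t, hh]
      rcases hδ p q hh with h | h | h
      · exact (heavy p q hh h.1).trans (by linarith)
      · simp only [t, if_neg hh, h.1]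
        push_cast
        rw [hm1]
        have := mul_le_mul_of_nonneg_left h.2 (show (0 : ℝ) ≤ m + 1 by positivity)
        nlinarith
      · simp [t, h.1]
    have h1 : ∑ p, ∑ q, t p q ≤ -(9 / 5) * (ε * Z (ak H k) ∅) := by
      have f1 : ∀ p q, ∑ q, t p q ≤ t p q := by
        intro p q
        have := single_le_sum (f := fun q => -t p q) (s := univ)
          (fun q _ => neg_nonneg.2 (ht p q)) (mem_univ q)
        rw [sum_neg_distrib] at this
        linarith
      have f2 : ∑ x ∈ ({p, q} : Finset (Fin N)), -∑ y, t x y ≤ ∑ x, -∑ y, t x y :=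
        sum_le_sum_of_subset_of_nonneg (subset_univ _) fun x _ _ =>
          neg_nonneg.2 (sum_nonpos fun y _ => ht x y)
      rw [sum_pair hpq, sum_neg_distrib] at f2
      have f3 := heavy p q hpq hd
      have f4 := heavy q p hpq.symm ((hsym p q).2 ▸ hd)
      have := f1 p q
      have := f1 q p
      linarith
    have h2 : ∑ p, ∑ q, t p q =
        (∑ p, ∑ q, if p = q then 0 else ((δ p q : ℝ) + |(δ p q : ℝ)| / m) * ZE (ak H k) p q) -
          ε * Z (ak H k) ∅ * ∑ p, ∑ q, if p = q then 0 else (δ p q : ℝ) := by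
      simp only [mul_sum, ← sum_sub_distrib]
      refine sum_congr rfl fun p _ => sum_congr rfl fun q _ => ?_
      simp only [t]
      split_ifs <;> simp
    have h3 : (∑ p, ∑ q, if p = q then 0 else ((k + δ) p q : ℝ)) =
        (∑ p, ∑ q, if p = q then 0 else (k p q : ℝ)) +
          ∑ p, ∑ q, if p = q then 0 else (δ p q : ℝ) := by
      simp only [← sum_add_distrib]
      refine sum_congr rfl fun p _ => sum_congr rfl fun q _ => ?_
      split_ifs <;> simp
    have h4 := Real.log_le_sub_one_of_pos (div_pos hZ' hZ)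
    rw [Real.log_div hZ'.ne' hZ.ne'] at h4
    unfold pot
    rw [h3, ← hτ]
    generalize (∑ p, ∑ q, if p = q then 0 else (k p q : ℝ)) = A at *
    generalize (∑ p, ∑ q, if p = q then 0 else (δ p q : ℝ)) = B at *
    have h5 : Z (ak H (k + δ)) ∅ / Z (ak H k) ∅ ≤ 1 + τ * (ε * B - 9 / 5 * ε) := by
      rw [div_le_iff₀ hZ]
      have := mul_le_mul_of_nonneg_left (h2.symm.le.trans h1) hτ0.le
      linarith
    have h6 : 1 / ((m : ℝ) ^ 4 * H) ≤ τ * (9 / 5 * ε) := by
      have f1 : 1 / ((m : ℝ) ^ 4 * H) = 1 / H * ε := by rw [hε]; field_simp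
      have f2 : 1 / H ≤ 9 / 5 * (1 / (H + 1)) := by
        rw [mul_one_div, div_le_div_iff₀ hH0 (by positivity)]
        linarith
      rw [f1]
      nlinarith
    linarith

end Crest.Agent.R304
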