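import Crest.Agent.R304.DefsE

/-!
Row 304, task EAV: concentration of the rounded batch average.
-/

set_option autoImplicit false

namespace Crest.Agent.R304

open Finset

namespace EAV

theorem round_close (m : ℕ) (y : ℚ) (h0 : 0 ≤ y) (h2 : y ≤ 2) :
    |((min (2 * 2 ^ m) ⌊2 ^ m * y⌋₊ : ℕ) : ℝ) / 2 ^ m - y| ≤ (2 : ℝ)⁻¹ ^ m := by
  have hp : (0 : ℚ) < 2 ^ m := by positivity
  have h1 : ⌊2 ^ m * y⌋₊ ≤ 2 * 2 ^ m := by
    apply Nat.floor_le_of_le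
    push_cast
    nlinarith
  rw [min_eq_right h1]
  have h3 : ((⌊2 ^ m * y⌋₊ : ℕ) : ℚ) ≤ 2 ^ m * y := Nat.floor_le (by positivity)
  have h4 : 2 ^ m * y < ((⌊2 ^ m * y⌋₊ : ℕ) : ℚ) + 1 := Nat.lt_floor_add_one _
  have h3' : ((⌊2 ^ m * y⌋₊ : ℕ) : ℝ) ≤ 2 ^ m * (y : ℝ) := by exact_mod_cast h3
  have h4' : 2 ^ m * (y : ℝ) < ((⌊2 ^ m * y⌋₊ : ℕ) : ℝ) + 1 := by exact_mod_cast h4
  have hp' : (0 : ℝ) < 2 ^ m := by positivity
  have e : ((⌊2 ^ m * y⌋₊ : ℕ) : ℝ) / 2 ^ m - y = (((⌊2 ^ m * y⌋₊ : ℕ) : ℝ) - 2 ^ m * y) / 2 ^ m := by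
    field_simp
  rw [e, abs_div, abs_of_pos hp', inv_pow, ← one_div]
  apply div_le_div_of_nonneg_right _ hp'.le
  rw [abs_le]
  constructor <;> linarith

theorem avg_close (m : ℕ) (hm : 0 < m) (f : X → ℚ) (B : List X)
    (h : ∀ j < rB m, 0 ≤ f (B.getD j []) ∧ f (B.getD j []) ≤ 2) :
    |(avg m f B : ℝ) - (∑ j ∈ range (rB m), (f (B.getD j []) : ℝ)) / rB m| ≤ (2 : ℝ)⁻¹ ^ m := by
  have hk : (0 : ℝ) < rB m := by
    have : 0 < rB m := by unfold rB; positivity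
    exact_mod_cast this
  have e : (avg m f B : ℝ) - (∑ j ∈ range (rB m), (f (B.getD j []) : ℝ)) / rB m =
      (∑ j ∈ range (rB m), (((min (2 * 2 ^ m) ⌊2 ^ m * f (B.getD j [])⌋₊ : ℕ) : ℝ) / 2 ^ m -
        f (B.getD j []))) / rB m := by
    unfold avg
    rw [sum_sub_distrib, ← sum_div, Rat.cast_div, Rat.cast_natCast, Nat.cast_sum]
    push_cast
    field_simp
  rw [e, abs_div, abs_of_pos hk, div_le_iff₀ hk]
  calc _ ≤ ∑ j ∈ range (rB m), |((min (2 * 2 ^ m) ⌊2 ^ m * f (B.getD j [])⌋₊ : ℕ) : ℝ) / 2 ^ m -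
        f (B.getD j [])| := abs_sum_le_sum_abs _ _
    _ ≤ ∑ _j ∈ range (rB m), (2 : ℝ)⁻¹ ^ m :=
        sum_le_sum fun j hj => round_close m _ (h j (mem_range.1 hj)).1 (h j (mem_range.1 hj)).2
    _ = _ := by rw [sum_const, card_range, nsmul_eq_mul, mul_comm]

theorem num (m : ℕ) (hm : 2000 ≤ m) :
    2 * Real.exp (-((rB m : ℝ) * (1 / (32 * (m : ℝ) ^ 11)) ^ 2 / 4)) ≤ (2 : ℝ)⁻¹ ^ (2 * m) := by
  have hm' : (2000 : ℝ) ≤ m := by exact_mod_cast hm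
  have hm0 : (0 : ℝ) < m := by linarith
  have e : (rB m : ℝ) * (1 / (32 * (m : ℝ) ^ 11)) ^ 2 / 4 = (m : ℝ) ^ 3 / 4096 := by
    unfold rB
    push_cast
    field_simp
    norm_num
  rw [e]
  have h1 : ((2 * m + 1 : ℕ) : ℝ) ≤ (m : ℝ) ^ 3 / 4096 := by
    push_cast
    have : (4000000 : ℝ) ≤ (m : ℝ) ^ 2 := by nlinarith
    have : (4000000 : ℝ) * m ≤ (m : ℝ) ^ 3 := by nlinarith
    linarith
  have h2 : Real.exp (-1) ≤ (2 : ℝ)⁻¹ := by
    rw [Real.exp_neg]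
    apply inv_anti₀ (by norm_num)
    have := Real.add_one_le_exp (1 : ℝ)
    linarith
  have h3 : Real.exp (-((m : ℝ) ^ 3 / 4096)) ≤ (2 : ℝ)⁻¹ ^ (2 * m + 1) := by
    calc Real.exp (-((m : ℝ) ^ 3 / 4096)) ≤ Real.exp (((2 * m + 1 : ℕ) : ℝ) * (-1)) :=
          Real.exp_le_exp.2 (by linarith)
      _ = Real.exp (-1) ^ (2 * m + 1) := Real.exp_nat_mul _ _
      _ ≤ _ := pow_le_pow_left₀ (Real.exp_pos _).le h2 _
  rw [pow_succ (2 : ℝ)⁻¹] at h3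
  linarith

end EAV

theorem EAV_proof (hEpl : EplStmt) : EavStmt := by
  intro m Ω μ f c η hm hμ hs hη hf
  obtain ⟨_, _, hmono, _, hho⟩ := hEpl X Ω μ hμ hs
  have hm' : (2000 : ℝ) ≤ m := by exact_mod_cast hm
  have hm0 : (0 : ℝ) < m := by linarith
  have hk : (0 : ℝ) < rB m := by
    have : 0 < rB m := by unfold rB; positivity
    exact_mod_cast this
  have hξ0 : (0 : ℝ) < 1 / (32 * (m : ℝ) ^ 11) := by positivity
  have hξ1 : 1 / (32 * (m : ℝ) ^ 11) ≤ (1 : ℝ) := by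
    rw [div_le_one (by positivity)]
    have : (1 : ℝ) ≤ (m : ℝ) ^ 11 := one_le_pow₀ (by linarith)
    linarith
  have h1 := hho (rB m) (fun x => ((f x : ℝ) - c) / η) [] _ (fun x hx => by
    rw [abs_div, abs_of_pos hη, div_le_one hη]; exact (hf x hx).2.2) hξ0 hξ1
  refine le_trans (hmono _ _ _ fun l hl hin => ?_) (h1.trans (EAV.num m hm))
  have hj : ∀ j < rB m, l.getD j [] ∈ Ω := by
    intro j hj
    apply hin
    rw [List.getD_eq_getElem _ _ (by omega)]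
    exact List.getElem_mem _
  have hc := EAV.avg_close m (by omega) f l fun j h => ⟨(hf _ (hj j h)).1, (hf _ (hj j h)).2.1⟩
  have e1 : ∑ x ∈ Ω, μ x * (((f x : ℝ) - c) / η) = (∑ x ∈ Ω, μ x * f x - c) / η := by
    have : ∀ x, μ x * (((f x : ℝ) - c) / η) = (μ x * f x - μ x * c) / η := fun x => by ring
    simp only [this]
    rw [← sum_div, sum_sub_distrib, ← sum_mul, hs, one_mul]
  have e2 : ∑ j ∈ range (rB m), ((f (l.getD j []) : ℝ) - c) / η -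
      rB m * ∑ x ∈ Ω, μ x * (((f x : ℝ) - c) / η) =
      rB m / η * ((∑ j ∈ range (rB m), (f (l.getD j []) : ℝ)) / rB m - ∑ x ∈ Ω, μ x * f x) := by
    rw [e1, ← sum_div, sum_sub_distrib, sum_const, card_range, nsmul_eq_mul]
    field_simp
    ring
  by_cases hbad : η / (32 * (m : ℝ) ^ 11) + (2 : ℝ)⁻¹ ^ m < |(avg m f l : ℝ) - ∑ x ∈ Ω, μ x * f x|
  · rw [if_pos hbad, if_pos]
    rw [e2, abs_mul, abs_of_pos (div_pos hk hη)]
    have h2 : η / (32 * (m : ℝ) ^ 11) <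
        |(∑ j ∈ range (rB m), (f (l.getD j []) : ℝ)) / rB m - ∑ x ∈ Ω, μ x * f x| := by
      have := abs_sub_le (avg m f l : ℝ) ((∑ j ∈ range (rB m), (f (l.getD j []) : ℝ)) / rB m)
        (∑ x ∈ Ω, μ x * f x)
      linarith
    calc (rB m : ℝ) * (1 / (32 * (m : ℝ) ^ 11)) = rB m / η * (η / (32 * (m : ℝ) ^ 11)) := by
          field_simp
      _ < _ := mul_lt_mul_of_pos_left h2 (div_pos hk hη)
  · rw [if_neg hbad]
    split_ifs <;> norm_num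

end Crest.Agent.R304
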