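import Crest.Agent.R304.DefsE
import Crest.Agent.R309.ITR

/-! Row 304, task ECH: one run of the population chain from a warm start. -/

set_option autoImplicit false

namespace Crest.Agent.R304

open Finset Crest.Agent.PT Crest.Agent.QC Crest.Agent.R317 Crest.Agent.R300U Crest.Agent.R309

namespace ECH

theorem two_pow_size_le (m : ℕ) (h : 0 < m) : 2 ^ m.size ≤ 2 * m := by
  have h1 : 0 < m.size := Nat.size_pos.2 h
  have h2 : 2 ^ (m.size - 1) ≤ m := Nat.lt_size.1 (by omega)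
  have h3 : 2 ^ m.size = 2 * 2 ^ (m.size - 1) := by
    rw [← pow_succ']; congr 1; omega
  omega

/-- the numerical bound -/
theorem num (m : ℕ) (hm : 2000 ≤ m) (K e₁ : ℝ) (hK0 : 0 ≤ K) (hK : K ≤ 4 * (m : ℝ) ^ 209)
    (he : (m : ℝ) ^ 3 / 32 ≤ e₁) :
    3 * K ^ 2 * (Real.exp (-e₁) + 72 * (m : ℝ) ^ 91 * Real.exp (-((m : ℝ) ^ 3 / 32))) ≤
      ((2 : ℝ)⁻¹ ^ (2 * m)) ^ 2 := by
  have hm' : (2000 : ℝ) ≤ m := by exact_mod_cast hm
  have hm0 : (0 : ℝ) < m := by linarith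
  set E := Real.exp (-((m : ℝ) ^ 3 / 32)) with hE
  have hE0 : 0 < E := Real.exp_pos _
  have h1 : Real.exp (-e₁) ≤ E := Real.exp_le_exp.2 (by linarith)
  have h91 : (1 : ℝ) ≤ (m : ℝ) ^ 91 := one_le_pow₀ (by linarith)
  have h2 : Real.exp (-e₁) + 72 * (m : ℝ) ^ 91 * E ≤ 73 * (m : ℝ) ^ 91 * E := by nlinarith
  have h3 : K ^ 2 ≤ (4 * (m : ℝ) ^ 209) ^ 2 := pow_le_pow_left₀ hK0 hK 2
  have h4 : 3 * K ^ 2 * (Real.exp (-e₁) + 72 * (m : ℝ) ^ 91 * E) ≤
      3 * (4 * (m : ℝ) ^ 209) ^ 2 * (73 * (m : ℝ) ^ 91 * E) := by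
    apply mul_le_mul (by linarith) h2 (by positivity) (by positivity)
  have h5 : 3 * (4 * (m : ℝ) ^ 209) ^ 2 * (73 * (m : ℝ) ^ 91 * E) = 3504 * (m : ℝ) ^ 509 * E := by
    ring
  have h6 : (3504 : ℝ) * (m : ℝ) ^ 509 ≤ (m : ℝ) ^ 511 := by
    have : (3504 : ℝ) ≤ (m : ℝ) ^ 2 := by nlinarith
    calc (3504 : ℝ) * (m : ℝ) ^ 509 ≤ (m : ℝ) ^ 2 * (m : ℝ) ^ 509 :=
          mul_le_mul_of_nonneg_right this (by positivity)
      _ = _ := by ring
  have h7 : (m : ℝ) ^ 511 ≤ Real.exp (511 * m) := by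
    have a : (m : ℝ) ≤ Real.exp m := by have := Real.add_one_le_exp (m : ℝ); linarith
    calc (m : ℝ) ^ 511 ≤ Real.exp m ^ 511 := pow_le_pow_left₀ hm0.le a _
      _ = _ := by rw [← Real.exp_nat_mul]; norm_num
  have h8 : Real.exp (511 * m) * E ≤ Real.exp (-(4 * m)) := by
    rw [hE, ← Real.exp_add]
    apply Real.exp_le_exp.2
    have : (515 * 32 : ℝ) ≤ (m : ℝ) ^ 2 := by nlinarith
    nlinarith
  have h9 : Real.exp (-(4 * m)) ≤ ((2 : ℝ)⁻¹ ^ (2 * m)) ^ 2 := by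
    have a : Real.exp (-1) ≤ (2 : ℝ)⁻¹ := by
      rw [Real.exp_neg]
      apply inv_anti₀ (by norm_num)
      have := Real.add_one_le_exp (1 : ℝ); linarith
    calc Real.exp (-(4 * m)) = Real.exp (-1) ^ (2 * m * 2) := by
          rw [← Real.exp_nat_mul]; congr 1; push_cast; ring
      _ ≤ (2 : ℝ)⁻¹ ^ (2 * m * 2) := pow_le_pow_left₀ (Real.exp_pos _).le a _
      _ = _ := by rw [pow_mul]
  calc _ ≤ 3504 * (m : ℝ) ^ 509 * E := h4.trans h5.le
    _ ≤ Real.exp (511 * m) * E := mul_le_mul_of_nonneg_right (h6.trans h7) hE0.le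
    _ ≤ _ := h8.trans h9

/-- the chi-square bound -/
theorem chi {α : Type} [Fintype α] (μ ν : α → ℝ) (η : ℝ) (hμ : ∀ x, 0 < μ x) (h1 : ∑ x, μ x = 1)
    (h2 : ∑ x, ν x = 1) (h : ∀ x, |ν x - μ x| ≤ η * μ x) : ∑ x, ν x ^ 2 / μ x ≤ 1 + η ^ 2 := by
  have : ∀ x, ν x ^ 2 / μ x ≤ η ^ 2 * μ x + 2 * ν x - μ x := by
    intro x
    have a := hμ x
    rw [div_le_iff₀ a]
    have b : (ν x - μ x) ^ 2 ≤ (η * μ x) ^ 2 := by
      rw [← sq_abs]; exact pow_le_pow_left₀ (abs_nonneg _) (h x) 2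
    nlinarith
  refine (sum_le_sum fun x _ => this x).trans (le_of_eq ?_)
  rw [sum_sub_distrib, sum_add_distrib, ← mul_sum, ← mul_sum, h1, h2]; ring

theorem ratio (a a' z z' h : ℝ) (ha : 0 < a) (hz : 0 < z) (h0 : 0 ≤ h) (h3 : h ≤ 1 / 3)
    (h1 : |a' - a| ≤ a * h) (h2 : |z' - z| ≤ z * h) : |a / z - a' / z'| ≤ 3 * h * (a' / z') := by
  rw [abs_le] at h1 h2
  have ha' : 0 < a' := by nlinarith
  have hz' : 0 < z' := by nlinarith
  have e : a / z - a' / z' = (a * z' - a' * z) / (z * z') := by field_simp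
  have e' : 3 * h * (a' / z') = (3 * h * a' * z) / (z * z') := by field_simp
  rw [e, e', abs_div, abs_of_pos (mul_pos hz hz')]
  apply div_le_div_of_nonneg_right _ (mul_pos hz hz').le
  have b1 : a * z' ≤ a * (z * (1 + h)) := mul_le_mul_of_nonneg_left (by linarith) ha.le
  have b2 : a * (z * (1 - h)) ≤ a * z' := mul_le_mul_of_nonneg_left (by linarith) ha.le
  have b3 : a' * z ≤ a * (1 + h) * z := mul_le_mul_of_nonneg_right (by linarith) hz.le
  have b4 : a * (1 - h) * z ≤ a' * z := mul_le_mul_of_nonneg_right (by linarith) hz.le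
  have b5 : h * (a * (1 - h) * z) ≤ h * (a' * z) := mul_le_mul_of_nonneg_left b4 h0
  have b6 : 0 ≤ h * (a * z) * (1 / 3 - h) := by
    have := mul_pos ha hz
    have : 0 ≤ 1 / 3 - h := by linarith
    positivity
  rw [abs_le]
  constructor <;> nlinarith

theorem sub_append (B R : List X) : sub (B ++ R) 0 B.length = B := by
  apply List.ext_getElem
  · simp [sub]
  · intro i h1 h2
    simp [sub, mkL, List.getD_eq_getElem?_getD, List.getElem?_append_left h2,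
      List.getElem?_eq_getElem h2]

end ECH

open ECH in
theorem ECH_proof (hEkr : EkrStmt) (hPop : PopStmt) (hEpl : EplStmt) : EchStmt := by
  intro M Ω I A hG s p p' hI hrat K hK hk0 ψ hψ
  classical
  obtain ⟨P, hKer, hKt⟩ := hEkr M Ω I A hG s p' hI
  have hm := hG.big
  set m := M.m with hmdef
  have hm' : (2000 : ℝ) ≤ m := by exact_mod_cast hm
  have hm0 : (0 : ℝ) < m := by linarith
  set k₀ := K - (rD m + 1) with hk₀
  have hpos : 1 ≤ m ^ 209 := Nat.one_le_pow _ _ (by omega)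
  have hKk : K = k₀ + (rD m + 1) := by omega
  have hZ : ∀ q, 0 < M.Z Ω q := fun q =>
    sum_pos (fun x hx => by exact_mod_cast (hG.ht q x hx).1) hG.ne
  have hμ0 : ∀ q, ∀ x ∈ Ω, 0 < M.μ Ω q x := fun q x hx =>
    div_pos (by exact_mod_cast (hG.ht q x hx).1) (hZ q)
  have hμ1 : ∀ q, ∑ x ∈ Ω, M.μ Ω q x = 1 := fun q => by
    unfold Mdl.μ; rw [← sum_div]; exact div_self (hZ q).ne'
  have hμ1' : ∀ q, ∑ x : {x // x ∈ Ω}, M.μ Ω q x.1 = 1 := fun q => by
    rw [← hμ1 q]; exact sum_coe_sort Ω (fun x => M.μ Ω q x)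
  set φL : List X → ℝ := fun l => ψ (sub l 0 k₀) with hφL
  set φ : (Fin K → {x // x ∈ Ω}) → ℝ := fun y => φL (List.ofFn (fun i => (y i).1)) with hφ
  have hit : ∀ (T : ℕ) (x : Fin K → {x // x ∈ Ω}),
      (Kt M.b1 (M.cstep p'))^[T] φL (List.ofFn (fun i => (x i).1)) =
        (PK P (1 / 4 ^ M.aK))^[T] φ x := by
    intro T
    induction T with
    | zero => intro x; rfl
    | succ T ih =>
      intro x
      rw [Function.iterate_succ_apply', Function.iterate_succ_apply', hKt K hK]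
      congr 1
      funext y
      exact ih y
  obtain ⟨e1, -, -, -, -⟩ := hEpl X Ω (M.μ Ω p) (fun x hx => (hμ0 p x hx).le) (hμ1 p)
  obtain ⟨f1, f2, f3, f4, -⟩ := hEpl X Ω (M.μ Ω p') (fun x hx => (hμ0 p' x hx).le) (hμ1 p')
  have E1 : EP Ω (M.μ Ω p) K (fun l => Av M.bS (fun u => ψ (M.run p' l u))) =
      ∑ x : Fin K → {x // x ∈ Ω}, pm (fun y : {x // x ∈ Ω} => M.μ Ω p y.1) x *
        (PK P (1 / 4 ^ M.aK))^[rT m] φ x := by
    rw [e1]
    refine sum_congr rfl fun x _ => ?_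
    congr 1
    rw [← hit, ← Av_iterN M.b1 (M.cstep p') _ (rT m) M.bS le_rfl φL]
    simp only [Mdl.run, List.length_ofFn, hφL]
    rfl
  have E2 : EP Ω (M.μ Ω p') k₀ ψ =
      ∑ x : Fin K → {x // x ∈ Ω}, pm (fun y : {x // x ∈ Ω} => M.μ Ω p' y.1) x * φ x := by
    rw [hφ, ← f1 K φL]
    conv_rhs => rw [hKk]
    rw [f2]
    have key : ∀ B : List X, B.length = k₀ →
        EP Ω (M.μ Ω p') (rD m + 1) (fun R => φL (B ++ R)) = ψ B := by
      intro B hB
      have : (fun R => φL (B ++ R)) = fun _ => ψ B := by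
        funext R
        simp only [hφL]
        rw [← hB, sub_append]
      rw [this]
      exact (f4 _ ψ ψ (ψ B)).2.2
    exact le_antisymm (f3 _ _ _ fun l hl _ => (key l hl).ge) (f3 _ _ _ fun l hl _ => (key l hl).le)
  rw [E1, E2]
  have hH : (3 : ℝ) ≤ (rH m : ℝ) := by
    unfold rH; push_cast
    calc (3 : ℝ) ≤ m := by linarith
      _ = (m : ℝ) ^ 1 := (pow_one _).symm
      _ ≤ (m : ℝ) ^ 105 := pow_le_pow_right₀ (by linarith) (by norm_num)
  have hH0 : (0 : ℝ) < rH m := by linarith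
  have hZr : |M.Z Ω p' - M.Z Ω p| ≤ M.Z Ω p * (1 / rH m) := by
    unfold Mdl.Z
    rw [← sum_sub_distrib, sum_mul]
    refine (abs_sum_le_sum_abs _ _).trans (sum_le_sum fun x hx => ?_)
    rw [mul_one_div]; exact hrat x hx
  have hchi := chi (fun y : {x // x ∈ Ω} => M.μ Ω p' y.1) (fun y : {x // x ∈ Ω} => M.μ Ω p y.1)
    (3 * (1 / rH m)) (fun y => hμ0 p' y.1 y.2) (hμ1' p') (hμ1' p) (fun y => by
      refine ratio _ _ _ _ _ (by exact_mod_cast (hG.ht p y.1 y.2).1) (hZ p) (by positivity) ?_ ?_ hZr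
      · exact one_div_le_one_div_of_le (by norm_num) hH
      · rw [mul_one_div]; exact hrat y.1 y.2)
  have hKr : (K : ℝ) ≤ 4 * (m : ℝ) ^ 209 := by
    have : ((rK m : ℕ) : ℝ) = 4 * (m : ℝ) ^ 209 := by unfold rK; push_cast; ring
    rw [← this]; exact_mod_cast hK
  have haK1 : (K : ℝ) ≤ 2 ^ M.aK := by
    have : K ≤ 2 ^ M.aK := hK.trans (Nat.lt_size_self _).le
    exact_mod_cast this
  have haK2 : (2 : ℝ) ^ M.aK ≤ 8 * (m : ℝ) ^ 209 := by
    have h1 : 2 ^ M.aK ≤ 2 * rK m := two_pow_size_le (rK m) (by unfold rK; omega)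
    have h2 : ((2 * rK m : ℕ) : ℝ) = 8 * (m : ℝ) ^ 209 := by unfold rK; push_cast; ring
    rw [← h2]; exact_mod_cast h1
  have h4 : (4 : ℝ) ^ M.aK = (2 ^ M.aK) ^ 2 := by rw [← pow_mul, mul_comm, pow_mul]; norm_num
  have hk0r : 2 * (m : ℝ) ^ 209 ≤ k₀ := by exact_mod_cast hk0
  have hD : ((rD m : ℕ) : ℝ) = (m : ℝ) ^ 94 := by unfold rD; push_cast; ring
  have hT : ((rT m : ℕ) : ℝ) = (m : ℝ) ^ 304 := by unfold rT; push_cast; ring
  have hpop := hPop {x // x ∈ Ω} K k₀ (rD m) (rT m) (fun y => M.μ Ω p' y.1) (fun y => M.μ Ω p y.1) P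
    ((m : ℝ) ^ 91) (1 / 4 ^ M.aK) ((3 * (1 / rH m)) ^ 2) hKer (one_le_pow₀ (by linarith))
    (by positivity)
    (by
      rw [h4, one_div, inv_mul_le_iff₀ (by positivity), mul_one]
      exact pow_le_pow_left₀ (Nat.cast_nonneg _) haK1 2)
    (by omega) (by omega)
    (by
      have a : (K : ℝ) - k₀ = (m : ℝ) ^ 94 + 1 := by
        rw [hKk]; push_cast; rw [hD]; ring
      rw [a]
      have b1 : (1 : ℝ) ≤ (m : ℝ) ^ 94 := one_le_pow₀ (by linarith)
      have b2 : (1 : ℝ) ≤ (m : ℝ) ^ 209 := one_le_pow₀ (by linarith)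
      have b3 : 64 * (m : ℝ) ^ 91 * ((m : ℝ) ^ 94 + 1) ≤ 64 * (m : ℝ) ^ 91 * (2 * (m : ℝ) ^ 94) :=
        mul_le_mul_of_nonneg_left (by linarith) (by positivity)
      have b4 : 64 * (m : ℝ) ^ 91 * (2 * (m : ℝ) ^ 94) = 128 * (m : ℝ) ^ 185 := by ring
      have b5 : 128 * (m : ℝ) ^ 185 ≤ (m : ℝ) ^ 209 := by
        calc 128 * (m : ℝ) ^ 185 ≤ m * (m : ℝ) ^ 185 :=
              mul_le_mul_of_nonneg_right (by linarith) (by positivity)
          _ = (m : ℝ) ^ 186 := by ring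
          _ ≤ (m : ℝ) ^ 209 := pow_le_pow_right₀ (by linarith) (by norm_num)
      linarith)
    (hμ1' p) hchi (by positivity)
    (by
      have a : ((rH m : ℕ) : ℝ) = (m : ℝ) ^ 105 := by unfold rH; push_cast; ring
      rw [a]
      have b : (3 * (1 / (m : ℝ) ^ 105)) ^ 2 * (4 * (m : ℝ) ^ 209) = 36 / m := by
        field_simp; ring
      calc (3 * (1 / (m : ℝ) ^ 105)) ^ 2 * K ≤ (3 * (1 / (m : ℝ) ^ 105)) ^ 2 * (4 * (m : ℝ) ^ 209) :=
            mul_le_mul_of_nonneg_left hKr (by positivity)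
        _ = 36 / m := b
        _ ≤ 1 := by rw [div_le_one hm0]; linarith)
    φ (fun x => hψ _)
    (by
      intro x y hxy
      simp only [hφ, hφL]
      congr 1
      unfold sub mkL
      refine List.map_congr_left fun j hj => ?_
      have hj' : j < k₀ := List.mem_range.1 hj
      have hjK : j < K := by omega
      simp only [zero_add, List.getD_eq_getElem?_getD, List.getElem?_ofFn, hjK, dite_true]
      rw [hxy ⟨j, hjK⟩ hj'])
  have e3 : ((rD m : ℕ) : ℝ) / (32 * (m : ℝ) ^ 91) = (m : ℝ) ^ 3 / 32 := by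
    rw [hD]; field_simp
  rw [e3] at hpop
  have hfin := num m hm K (1 / 4 ^ M.aK * k₀ * (rT m : ℕ) / (24 * (m : ℝ) ^ 91)) (Nat.cast_nonneg _) hKr
    (by
      rw [hT, le_div_iff₀ (by positivity)]
      have a1 : (4 : ℝ) ^ M.aK ≤ (8 * (m : ℝ) ^ 209) ^ 2 := by
        rw [h4]; exact pow_le_pow_left₀ (by positivity) haK2 2
      have a2 : 1 / (8 * (m : ℝ) ^ 209) ^ 2 ≤ 1 / (4 : ℝ) ^ M.aK :=
        one_div_le_one_div_of_le (by positivity) a1
      have a3 : 1 / (8 * (m : ℝ) ^ 209) ^ 2 * (2 * (m : ℝ) ^ 209) * (m : ℝ) ^ 304 ≤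
          1 / (4 : ℝ) ^ M.aK * k₀ * (m : ℝ) ^ 304 :=
        mul_le_mul_of_nonneg_right (mul_le_mul a2 hk0r (by positivity) (by positivity))
          (by positivity)
      refine le_trans ?_ a3
      have a4 : 1 / (8 * (m : ℝ) ^ 209) ^ 2 * (2 * (m : ℝ) ^ 209) * (m : ℝ) ^ 304 =
          m / 32 * (m : ℝ) ^ 94 := by
        field_simp; ring
      have a5 : (m : ℝ) ^ 3 / 32 * (24 * (m : ℝ) ^ 91) = 24 / 32 * (m : ℝ) ^ 94 := by ring
      rw [a4, a5]
      exact mul_le_mul_of_nonneg_right (by linarith) (by positivity))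
  exact abs_le_of_sq_le_sq' (hpop.trans hfin) (by positivity) |> abs_le.2

end Crest.Agent.R304
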