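import Crest.Agent.R304.DefsE
import Crest.Agent.R309.ITR

/-! Row 304: the output of the engine is accurate with high probability. -/

set_option autoImplicit false

namespace Crest.Agent.R304

open Finset Crest.Agent.PT Crest.Agent.QC Crest.Agent.R317 Crest.Agent.R300U Crest.Agent.R309

namespace EOUT

theorem pow_le_two_pow {m : ℕ} (hm : 2000 ≤ m) : m ^ 150 ≤ 2 ^ m := by
  induction m, hm using Nat.le_induction with
  | base =>
    calc 2000 ^ 150 ≤ (2 ^ 11) ^ 150 := Nat.pow_le_pow_left (by norm_num) _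
      _ = 2 ^ (11 * 150) := (pow_mul _ _ _).symm
      _ ≤ 2 ^ 2000 := Nat.pow_le_pow_right two_pos (by omega)
  | succ m hm ih =>
    have h1 : ((m + 1) * 2000) ^ 150 ≤ (m * 2001) ^ 150 := Nat.pow_le_pow_left (by omega) _
    rw [mul_pow, mul_pow] at h1
    have h2 : 2001 ^ 150 ≤ 2 * 2000 ^ 150 := by norm_num
    have h3 : (m + 1) ^ 150 * 2000 ^ 150 ≤ (2 * m ^ 150) * 2000 ^ 150 := by
      calc _ ≤ m ^ 150 * 2001 ^ 150 := h1
        _ ≤ m ^ 150 * (2 * 2000 ^ 150) := Nat.mul_le_mul_left _ h2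
        _ = _ := by ring
    have h4 := Nat.le_of_mul_le_mul_right h3 (by positivity)
    rw [pow_succ 2 m]; omega

theorem one_add_pow_le {x : ℝ} (hx : 0 ≤ x) (k : ℕ) (h : 2 * k * x ≤ 1) :
    (1 + x) ^ k ≤ 1 + 2 * k * x := by
  induction k with
  | zero => simp
  | succ k ih =>
    push_cast at h ⊢
    have h1 : 2 * k * x ≤ 1 := by nlinarith
    have h2 := ih h1
    rw [pow_succ]
    have h3 : (1 + x) ^ k * (1 + x) ≤ (1 + 2 * k * x) * (1 + x) :=
      mul_le_mul_of_nonneg_right h2 (by linarith)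
    nlinarith [mul_le_mul_of_nonneg_right h1 hx]

theorem mkL_succ {β : Type} (k : ℕ) (f : ℕ → β) :
    mkL (k + 1) f = f 0 :: mkL k (fun j => f (j + 1)) := by
  simp [mkL, List.range_succ_eq_map, Function.comp_def]

theorem sub_append (B R : List X) : sub (B ++ R) 0 B.length = B := by
  refine List.ext_getElem (by simp [sub]) fun i h1 h2 => ?_
  simp [sub, mkL, List.getD_eq_getElem?_getD, List.getElem?_append_left h2, h2]

theorem EP_abs (hEpl : EplStmt) {Ω : Finset X} {μ : X → ℝ} (h0 : ∀ x ∈ Ω, 0 ≤ μ x)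
    (h1 : ∑ x ∈ Ω, μ x = 1) (k : ℕ) (Φ : List X → ℝ) (hΦ : ∀ l, |Φ l| ≤ 1) :
    |EP Ω μ k Φ| ≤ 1 := by
  obtain ⟨-, -, hm, hl, -⟩ := hEpl X Ω μ h0 h1
  rw [abs_le]
  constructor
  · rw [← (hl k Φ Φ (-1)).2.2]
    exact hm k _ _ fun l _ _ => (abs_le.1 (hΦ l)).1
  · rw [← (hl k Φ Φ 1).2.2]
    exact hm k _ _ fun l _ _ => (abs_le.1 (hΦ l)).2

/-- the hybrid argument -/
theorem hybrid (hEpl : EplStmt) {Ω : Finset X} {μ : X → ℝ} (h0 : ∀ x ∈ Ω, 0 ≤ μ x)
    (h1 : ∑ x ∈ Ω, μ x = 1) (b : ℕ) (ini : ℕ → X) (ε : ℝ)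
    (hi : ∀ φ : X → ℝ, (∀ x, |φ x| ≤ 1) → |Av b (fun u => φ (ini u)) - ∑ x ∈ Ω, μ x * φ x| ≤ ε) :
    ∀ (k : ℕ) (Φ : List X → ℝ), (∀ l, |Φ l| ≤ 1) →
      |Av (k * b) (fun u => Φ (mkL k (fun j => ini (fld u (j * b) b)))) - EP Ω μ k Φ| ≤ k * ε
  | 0, Φ, _ => by simp [mkL, EP]
  | k + 1, Φ, hΦ => by
    have e1 : Av ((k + 1) * b) (fun u => Φ (mkL (k + 1) (fun j => ini (fld u (j * b) b)))) =
        Av b (fun x => Av (k * b) (fun y =>
          Φ (ini x :: mkL k (fun j => ini (fld y (j * b) b))))) := by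
      rw [← Av_split b (k * b) (fun x y => Φ (ini x :: mkL k (fun j => ini (fld y (j * b) b)))),
        show (k + 1) * b = b + k * b by ring]
      refine Av_congr fun u _ => ?_
      rw [mkL_succ]
      simp only [fld_div, Nat.zero_mul, fld_zero]
      congr 3
      funext j
      rw [show (j + 1) * b = b + j * b by ring]
    have e2 := hi (fun x => EP Ω μ k (fun l => Φ (x :: l)))
      (fun x => EP_abs hEpl h0 h1 k _ fun l => hΦ _)
    have e3 : |Av b (fun x => Av (k * b) (fun y =>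
          Φ (ini x :: mkL k (fun j => ini (fld y (j * b) b))))) -
        Av b (fun x => EP Ω μ k (fun l => Φ (ini x :: l)))| ≤ k * ε := by
      rw [← Av_sub]
      exact (abs_Av_le _ _).trans (Av_le_const fun x _ =>
        hybrid hEpl h0 h1 b ini ε hi k (fun l => Φ (ini x :: l)) fun l => hΦ _)
    rw [e1, EP]
    have := abs_sub_le (Av b (fun x => Av (k * b) (fun y =>
          Φ (ini x :: mkL k (fun j => ini (fld y (j * b) b))))))
      (Av b (fun x => EP Ω μ k (fun l => Φ (ini x :: l))))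
      (∑ x ∈ Ω, μ x * EP Ω μ k (fun l => Φ (x :: l)))
    push_cast
    linarith

variable {M : Mdl} {Ω : Finset X} {I : ℕ → List ℤ → Prop} {A : ℝ}

theorem Z_pos (G : M.Good Ω I A) (p : List ℤ) : 0 < M.Z Ω p :=
  sum_pos (fun x hx => by exact_mod_cast (G.ht p x hx).1) G.ne

theorem mu_nonneg (G : M.Good Ω I A) (p : List ℤ) : ∀ x ∈ Ω, 0 ≤ M.μ Ω p x := fun x hx =>
  div_nonneg (by exact_mod_cast (G.ht p x hx).1.le) (Z_pos G p).le

theorem mu_sum (G : M.Good Ω I A) (p : List ℤ) : ∑ x ∈ Ω, M.μ Ω p x = 1 := by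
  unfold Mdl.μ
  rw [← sum_div]
  exact div_self (Z_pos G p).ne'

open Classical in
/-- the output computed from a state is bad -/
noncomputable def bad (M : Mdl) (A : ℝ) (t : St) : ℝ :=
  if ¬ |((t.2.1 * avg M.m (M.fin t.1) (sub t.2.2 0 (rB M.m)) : ℚ) : ℝ) - A| ≤ A / M.m then 1 else 0

theorem bad_bd (t : St) : 0 ≤ bad M A t ∧ bad M A t ≤ 1 := by
  unfold bad
  split_ifs <;> norm_num

theorem iter_bd (j : ℕ) (t : St) :
    0 ≤ (Kt M.bS M.stage)^[j] (bad M A) t ∧ (Kt M.bS M.stage)^[j] (bad M A) t ≤ 1 := by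
  induction j generalizing t with
  | zero => exact bad_bd t
  | succ j ih =>
    rw [Function.iterate_succ_apply']
    exact ⟨Av_nonneg fun u _ => (ih _).1, Av_le_const fun u _ => (ih _).2⟩

theorem size {m : ℕ} (hm : 2000 ≤ m) : rB m + rL m * rR m ≤ rK m := by
  unfold rK rL rR rB rD
  have h1 : 1 ≤ m ^ 25 := Nat.one_le_pow _ _ (by omega)
  have h2 : 3 * m ^ 25 ≤ m ^ 94 := by
    calc 3 * m ^ 25 ≤ m * m ^ 25 := Nat.mul_le_mul_right _ (by omega)
      _ = m ^ 26 := by ring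
      _ ≤ m ^ 94 := Nat.pow_le_pow_right (by omega) (by norm_num)
  have h3 : m ^ 25 ≤ m ^ 209 := Nat.pow_le_pow_right (by omega) (by norm_num)
  have h4 : m ^ 115 * (2 * m ^ 25 + m ^ 94 + 1) ≤ m ^ 115 * (2 * m ^ 94) :=
    Nat.mul_le_mul_left _ (by omega)
  have h5 : m ^ 115 * (2 * m ^ 94) = 2 * m ^ 209 := by ring
  omega

theorem delta {m : ℕ} (hm : 2000 ≤ m) :
    (1 + 1 / (4 * (m : ℝ) ^ 116)) ^ rL m - 1 ≤ 1 / (2 * m) := by
  have hm' : (2000 : ℝ) ≤ m := by exact_mod_cast hm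
  have hp : (0 : ℝ) < m := by linarith
  have e : 2 * (rL m : ℝ) * (1 / (4 * (m : ℝ) ^ 116)) = 1 / (2 * m) := by
    unfold rL
    push_cast
    field_simp
    norm_num
  have := one_add_pow_le (x := 1 / (4 * (m : ℝ) ^ 116)) (by positivity) (rL m) (by
    rw [e, div_le_one (by positivity)]
    linarith)
  linarith

theorem err {m : ℕ} (hm : 2000 ≤ m) :
    1 / (32 * (m : ℝ) ^ 11) + (2 : ℝ)⁻¹ ^ m ≤ 1 / (8 * m) := by
  have hm' : (2000 : ℝ) ≤ m := by exact_mod_cast hm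
  have hp : (0 : ℝ) < m := by linarith
  have h1 : (m : ℝ) ≤ (m : ℝ) ^ 11 := le_self_pow₀ (by linarith) (by norm_num)
  have h2 : (m : ℝ) ^ 150 ≤ 2 ^ m := by exact_mod_cast pow_le_two_pow hm
  have h3 : (m : ℝ) ^ 2 ≤ (m : ℝ) ^ 150 := pow_le_pow_right₀ (by linarith) (by norm_num)
  have h4 : 1 / (32 * (m : ℝ) ^ 11) ≤ 1 / (16 * m) :=
    one_div_le_one_div_of_le (by positivity) (by linarith)
  have h5 : (2 : ℝ)⁻¹ ^ m ≤ 1 / (16 * m) := by
    rw [inv_pow, ← one_div]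
    exact one_div_le_one_div_of_le (by positivity) (by nlinarith)
  have h6 : 1 / (8 * (m : ℝ)) = 1 / (16 * m) + 1 / (16 * m) := by
    field_simp
    norm_num
  linarith

theorem total {m : ℕ} (hm : 2000 ≤ m) :
    (2 : ℝ)⁻¹ ^ (2 * m) + rL m * (3 * (2 : ℝ)⁻¹ ^ (2 * m)) + rK m * (2 : ℝ)⁻¹ ^ (4 * m) ≤
      (2 : ℝ)⁻¹ ^ m := by
  have hm' : (2000 : ℝ) ≤ m := by exact_mod_cast hm
  have h2 : (m : ℝ) ^ 150 ≤ 2 ^ m := by exact_mod_cast pow_le_two_pow hm
  set t : ℝ := (2 : ℝ)⁻¹ ^ m with ht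
  have tp : 0 < t := by positivity
  have t1 : t ≤ 1 := pow_le_one₀ (by norm_num) (by norm_num)
  have h3 : (m : ℝ) ^ 150 * t ≤ 1 := by
    rw [ht, inv_pow, ← div_eq_mul_inv, div_le_one (by positivity)]
    exact h2
  have e2 : (2 : ℝ)⁻¹ ^ (2 * m) = t * t := by rw [ht, two_mul, pow_add]
  have e4 : (2 : ℝ)⁻¹ ^ (4 * m) = t * t * (t * t) := by
    rw [← e2, ← pow_add]; congr 1; ring
  rw [e2, e4]
  unfold rL rK
  push_cast
  have a1 : (1 : ℝ) ≤ (m : ℝ) ^ 115 := one_le_pow₀ (by linarith)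
  have a2 : 8 * (m : ℝ) ^ 115 ≤ (m : ℝ) ^ 150 := by
    calc 8 * (m : ℝ) ^ 115 ≤ m * (m : ℝ) ^ 115 := by gcongr; linarith
      _ = (m : ℝ) ^ 116 := by ring
      _ ≤ _ := pow_le_pow_right₀ (by linarith) (by norm_num)
  have a3 : 8 * (m : ℝ) ^ 209 ≤ (m : ℝ) ^ 150 * (m : ℝ) ^ 150 := by
    calc 8 * (m : ℝ) ^ 209 ≤ m * (m : ℝ) ^ 209 := by gcongr; linarith
      _ = (m : ℝ) ^ 210 := by ring
      _ ≤ (m : ℝ) ^ 300 := pow_le_pow_right₀ (by linarith) (by norm_num)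
      _ = _ := by ring
  have b1 : (1 + 3 * (m : ℝ) ^ 115) * t ≤ 1 / 2 := by nlinarith
  have b2 : 4 * (m : ℝ) ^ 209 * (t * t) ≤ 1 / 2 := by
    have h4 : 0 ≤ (m : ℝ) ^ 150 * t := by positivity
    have h5 : ((m : ℝ) ^ 150 * t) * ((m : ℝ) ^ 150 * t) ≤ 1 := by nlinarith
    nlinarith [mul_le_mul_of_nonneg_right a3 (mul_pos tp tp).le]
  have b3 : 4 * (m : ℝ) ^ 209 * (t * t) * t ≤ 1 / 2 := by nlinarith
  calc _ = ((1 + 3 * (m : ℝ) ^ 115) * t + 4 * (m : ℝ) ^ 209 * (t * t) * t) * t := by ring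
    _ ≤ 1 * t := by gcongr; linarith
    _ = t := one_mul t

theorem close {z v Z A δ e m : ℝ} (hZ : 0 < Z) (hm : 1 ≤ m) (hz : |z - Z| ≤ δ * Z)
    (hδ : δ ≤ 1 / (2 * m)) (hv : |v - A / Z| ≤ e) (he : e ≤ 1 / (8 * m)) (hA : Z ≤ 2 * A) :
    |z * v - A| ≤ A / m := by
  have hA0 : 0 < A := by linarith
  have hm0 : 0 < m := by linarith
  have h1 : 1 / (2 * m) ≤ 1 := by
    rw [div_le_one (by positivity)]; linarith
  have h2 : |z - Z| ≤ 1 / (2 * m) * Z := hz.trans (mul_le_mul_of_nonneg_right hδ hZ.le)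
  have h3 : |z| ≤ 4 * A := by
    have := abs_sub_abs_le_abs_sub z Z
    rw [abs_of_pos hZ] at this
    nlinarith
  have e1 : z * v - A = z * (v - A / Z) + (z - Z) * (A / Z) := by
    field_simp
    ring
  rw [e1]
  refine (abs_add_le _ _).trans ?_
  rw [abs_mul, abs_mul, abs_of_pos (div_pos hA0 hZ)]
  have h4 : |z| * |v - A / Z| ≤ 4 * A * (1 / (8 * m)) :=
    mul_le_mul h3 (hv.trans he) (abs_nonneg _) (by positivity)
  have h5 : |z - Z| * (A / Z) ≤ 1 / (2 * m) * Z * (A / Z) :=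
    mul_le_mul_of_nonneg_right h2 (div_pos hA0 hZ).le
  have h6 : 4 * A * (1 / (8 * m)) + 1 / (2 * m) * Z * (A / Z) = A / m := by
    field_simp
    norm_num
  linarith

theorem base (hEav : EavStmt) (hEpl : EplStmt) (G : M.Good Ω I A) (p : List ℤ) (z : ℚ)
    (h : M.Inv Ω I (rL M.m) p z) :
    EP Ω (M.μ Ω p) (rK M.m - rL M.m * rR M.m) (fun l => bad M A (p, z, l)) ≤
      (2 : ℝ)⁻¹ ^ (2 * M.m) := by
  obtain ⟨-, hs, hm, hl, -⟩ := hEpl X Ω (M.μ Ω p) (mu_nonneg G p) (mu_sum G p)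
  obtain ⟨k, hk⟩ : ∃ k, rK M.m - rL M.m * rR M.m = rB M.m + k :=
    ⟨rK M.m - rL M.m * rR M.m - rB M.m, by have := size G.big; omega⟩
  obtain ⟨hf, hA, hZ⟩ := G.fin p h.1
  rw [hk, hs]
  refine le_trans (hm _ _ _ fun B hB _ => ?_) (hEav M.m Ω (M.μ Ω p) (M.fin p) 0 1 G.big
    (mu_nonneg G p) (mu_sum G p) one_pos fun x hx => ?_)
  · have e : (fun R => bad M A (p, z, B ++ R)) = fun _ => bad M A (p, z, B) := by
      funext R
      have e1 : sub (B ++ R) 0 (rB M.m) = B := by rw [← hB]; exact sub_append B R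
      have e2 : sub B 0 (rB M.m) = B := by
        have := sub_append B []
        rwa [List.append_nil, hB] at this
      simp only [bad, e1, e2]
    rw [e, (hl k (fun _ => 0) (fun _ => 0) _).2.2]
    split_ifs with hc
    · exact (bad_bd _).2
    · have e2 : sub B 0 (rB M.m) = B := by
        have := sub_append B []
        rwa [List.append_nil, hB] at this
      have e3 : ∑ x ∈ Ω, M.μ Ω p x * M.fin p x = A / M.Z Ω p := by
        rw [← hA, sum_div]
        refine sum_congr rfl fun x _ => ?_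
        unfold Mdl.μ
        ring
      rw [e3, not_lt] at hc
      have hm1 : (1 : ℝ) ≤ M.m := by
        have : 1 ≤ M.m := by have := G.big; omega
        exact_mod_cast this
      have := close (Z_pos G p) hm1 h.2 (delta G.big) hc (err G.big) hZ
      unfold bad
      rw [if_neg]
      simp only [e2, not_not]
      push_cast
      exact this
  · have h1 := hf x hx
    have h2 : (0 : ℝ) ≤ M.fin p x := by exact_mod_cast h1.1
    have h3 : (M.fin p x : ℝ) ≤ 1 := by exact_mod_cast h1.2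
    refine ⟨h1.1, h1.2.trans (by norm_num), ?_⟩
    rw [sub_zero, abs_of_nonneg h2]
    exact h3

theorem back (hEsg : EsgStmt) (hEav : EavStmt) (hEpl : EplStmt) (G : M.Good Ω I A) :
    ∀ j s : ℕ, s + j = rL M.m → ∀ p z, M.Inv Ω I s p z →
      EP Ω (M.μ Ω p) (rK M.m - s * rR M.m) (fun l => (Kt M.bS M.stage)^[j] (bad M A) (p, z, l)) ≤
        (2 : ℝ)⁻¹ ^ (2 * M.m) + j * (3 * (2 : ℝ)⁻¹ ^ (2 * M.m))
  | 0, s, hs, p, z, h => by
    obtain rfl : s = rL M.m := by omega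
    simpa using base hEav hEpl G p z h
  | j + 1, s, hs, p, z, h => by
    have := hEsg M Ω I A G s (by omega) _ _ (iter_bd (M := M) (A := A) j)
      (back hEsg hEav hEpl G j (s + 1) (by omega)) p z h
    rw [Function.iterate_succ_apply']
    push_cast
    linarith

end EOUT

theorem EOUT_proof (hEsg : EsgStmt) (hEav : EavStmt) (hEpl : EplStmt) : EoutStmt := by
  intro M Ω I A G
  have h0 : M.Inv Ω I 0 [] M.z0 := ⟨G.i0.1, by simp [G.i0.2]⟩
  have h1 := EOUT.back hEsg hEav hEpl G (rL M.m) 0 (by simp) [] M.z0 h0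
  rw [Nat.zero_mul, Nat.sub_zero] at h1
  have h2 := EOUT.hybrid hEpl (EOUT.mu_nonneg G []) (EOUT.mu_sum G []) M.bI M.ini _ G.ini (rK M.m)
    (fun l => (Kt M.bS M.stage)^[rL M.m] (EOUT.bad M A) ([], M.z0, l)) (fun l => by
      have := EOUT.iter_bd (M := M) (A := A) (rL M.m) ([], M.z0, l)
      rw [abs_of_nonneg this.1]
      exact this.2)
  have h3 : Pb M.bT (fun u => ¬ |(M.out u : ℝ) - A| ≤ A / M.m) =
      Av (rK M.m * M.bI) (fun x => (Kt M.bS M.stage)^[rL M.m] (EOUT.bad M A) (M.start x)) := by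
    have e := Av_fld_fld (c := M.bT) (s := 0) (k := rK M.m * M.bI) (s' := rK M.m * M.bI)
      (k' := rL M.m * M.bS) (by omega) le_rfl
      (fun x y => EOUT.bad M A (iterN M.bS M.stage (M.start x) y (rL M.m)))
    simp only [Av_iterN M.bS M.stage _ (rL M.m) _ le_rfl] at e
    rw [← e]
    unfold Pb EOUT.bad
    refine Av_congr fun u _ => ?_
    exact @if_congr ℝ _ _ (_) (_) _ _ _ _ Iff.rfl rfl rfl
  have h4 := EOUT.total G.big
  rw [Pb_not] at h3
  have h5 := (abs_le.1 h2).2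
  have h6 : Av (rK M.m * M.bI) (fun x => (Kt M.bS M.stage)^[rL M.m] (EOUT.bad M A) (M.start x)) =
      Av (rK M.m * M.bI) (fun u => (Kt M.bS M.stage)^[rL M.m] (EOUT.bad M A)
        ([], M.z0, mkL (rK M.m) (fun j => M.ini (fld u (j * M.bI) M.bI)))) := rfl
  linarith

end Crest.Agent.R304
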