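import Crest.Agent.R304.DefsP

/-!
Row 304: calculus of expectations over independent samples.
-/

set_option autoImplicit false

namespace Crest.Agent.R304

open Finset

namespace EPL

variable {X : Type} (Ω : Finset X) (μ : X → ℝ)

theorem prod_form [DecidableEq X] : ∀ (k : ℕ) (φ : List X → ℝ),
    EP Ω μ k φ = ∑ x : Fin k → {x // x ∈ Ω},
      pm (fun y : {x // x ∈ Ω} => μ y.1) x * φ (List.ofFn (fun i => (x i).1))
  | 0, φ => by simp [EP, pm]
  | k + 1, φ => by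
    rw [EP, ← (Fin.consEquiv (fun _ : Fin (k + 1) => {x // x ∈ Ω})).sum_comp, Fintype.sum_prod_type,
      ← Finset.sum_coe_sort Ω]
    refine sum_congr rfl fun a _ => ?_
    rw [prod_form k, mul_sum]
    refine sum_congr rfl fun x _ => ?_
    simp only [pm, Fin.consEquiv_apply, Fin.prod_univ_succ, List.ofFn_succ, Fin.cons_zero,
      Fin.cons_succ]
    ring

theorem split : ∀ (k l : ℕ) (φ : List X → ℝ),
    EP Ω μ (k + l) φ = EP Ω μ k (fun B => EP Ω μ l (fun R => φ (B ++ R)))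
  | 0, l, φ => by simp [EP]
  | k + 1, l, φ => by
    rw [show k + 1 + l = (k + l) + 1 by omega, EP, EP]
    refine sum_congr rfl fun a _ => ?_
    rw [split k l]
    rfl

theorem mono (h0 : ∀ x ∈ Ω, 0 ≤ μ x) : ∀ (k : ℕ) (φ ψ : List X → ℝ),
    (∀ l : List X, l.length = k → (∀ x ∈ l, x ∈ Ω) → φ l ≤ ψ l) → EP Ω μ k φ ≤ EP Ω μ k ψ
  | 0, φ, ψ, h => h [] rfl (by simp)
  | k + 1, φ, ψ, h => by
    rw [EP, EP]
    refine sum_le_sum fun a ha => mul_le_mul_of_nonneg_left ?_ (h0 a ha)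
    refine mono h0 k _ _ fun l hl hm => h (a :: l) (by simp [hl]) ?_
    intro x hx
    rcases List.mem_cons.1 hx with rfl | hx
    · exact ha
    · exact hm x hx

theorem add : ∀ (k : ℕ) (φ ψ : List X → ℝ),
    EP Ω μ k (fun l => φ l + ψ l) = EP Ω μ k φ + EP Ω μ k ψ
  | 0, φ, ψ => rfl
  | k + 1, φ, ψ => by
    rw [EP, EP, EP, ← sum_add_distrib]
    refine sum_congr rfl fun a _ => ?_
    rw [add k]
    ring

theorem smul (c : ℝ) : ∀ (k : ℕ) (φ : List X → ℝ),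
    EP Ω μ k (fun l => c * φ l) = c * EP Ω μ k φ
  | 0, φ => rfl
  | k + 1, φ => by
    rw [EP, EP, mul_sum]
    refine sum_congr rfl fun a _ => ?_
    rw [smul c k]
    ring

theorem const (h1 : ∑ x ∈ Ω, μ x = 1) (c : ℝ) : ∀ k : ℕ, EP Ω μ k (fun _ => c) = c
  | 0 => rfl
  | k + 1 => by
    rw [EP]
    simp only [const h1 c k]
    rw [← sum_mul, h1, one_mul]

theorem one_step (h0 : ∀ x ∈ Ω, 0 ≤ μ x) (h1 : ∑ x ∈ Ω, μ x = 1) (f : X → ℝ)
    (hf : ∀ x ∈ Ω, |f x| ≤ 1) (t : ℝ) (ht : |t| ≤ 1 / 2) :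
    ∑ x ∈ Ω, μ x * Real.exp (t * (f x - ∑ y ∈ Ω, μ y * f y)) ≤ Real.exp (t ^ 2) := by
  set m := ∑ y ∈ Ω, μ y * f y with hm
  have hm1 : |m| ≤ 1 := by
    rw [hm, ← h1]
    refine (abs_sum_le_sum_abs _ _).trans (sum_le_sum fun x hx => ?_)
    rw [abs_mul, abs_of_nonneg (h0 x hx)]
    exact mul_le_of_le_one_right (h0 x hx) (hf x hx)
  have h2 : ∑ x ∈ Ω, μ x * Real.exp (t * (f x - m)) ≤
      ∑ x ∈ Ω, (μ x * (1 + t ^ 2 + t ^ 2 * m ^ 2 - t * m) + (t - 2 * t ^ 2 * m) * (μ x * f x)) := by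
    refine sum_le_sum fun x hx => ?_
    have hy : |f x - m| ≤ 2 := by
      have := abs_sub (f x) m
      have := hf x hx
      linarith
    have hty : |t * (f x - m)| ≤ 1 := by
      rw [abs_mul]
      have := mul_le_mul ht hy (abs_nonneg _) (by norm_num)
      linarith
    have h3 := (abs_le.1 (Real.abs_exp_sub_one_sub_id_le hty)).2
    have h4 : f x ^ 2 ≤ 1 := by
      rw [← sq_abs]
      exact pow_le_one₀ (abs_nonneg _) (hf x hx)
    have h5 : t ^ 2 * f x ^ 2 ≤ t ^ 2 := mul_le_of_le_one_right (sq_nonneg t) h4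
    have h6 : Real.exp (t * (f x - m)) ≤
        (1 + t ^ 2 + t ^ 2 * m ^ 2 - t * m) + (t - 2 * t ^ 2 * m) * f x := by nlinarith
    have := mul_le_mul_of_nonneg_left h6 (h0 x hx)
    linarith
  rw [sum_add_distrib, ← sum_mul, ← mul_sum, h1, ← hm] at h2
  have h7 := Real.add_one_le_exp (t ^ 2)
  have h8 : 0 ≤ t ^ 2 * m ^ 2 := by positivity
  nlinarith

theorem moment (h0 : ∀ x ∈ Ω, 0 ≤ μ x) (h1 : ∑ x ∈ Ω, μ x = 1) (f : X → ℝ)
    (hf : ∀ x ∈ Ω, |f x| ≤ 1) (d : X) (t : ℝ) (ht : |t| ≤ 1 / 2) : ∀ k : ℕ,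
    EP Ω μ k (fun l => Real.exp (t * (∑ j ∈ range k, f (l.getD j d) - k * ∑ y ∈ Ω, μ y * f y))) ≤
      Real.exp (k * t ^ 2)
  | 0 => by simp [EP]
  | k + 1 => by
    have ih := moment h0 h1 f hf d t ht k
    have os := one_step Ω μ h0 h1 f hf t ht
    set m := ∑ y ∈ Ω, μ y * f y with hm
    rw [EP]
    have e : ∀ x, EP Ω μ k (fun l => Real.exp (t * (∑ j ∈ range (k + 1), f ((x :: l).getD j d) -
        ((k + 1 : ℕ) : ℝ) * m))) = Real.exp (t * (f x - m)) *
          EP Ω μ k (fun l => Real.exp (t * (∑ j ∈ range k, f (l.getD j d) - k * m))) := by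
      intro x
      rw [← smul]
      congr 1
      funext l
      rw [← Real.exp_add, sum_range_succ']
      congr 1
      simp only [List.getD_cons_succ, List.getD_cons_zero]
      push_cast
      ring
    simp only [e]
    calc ∑ x ∈ Ω, μ x * (Real.exp (t * (f x - m)) *
          EP Ω μ k (fun l => Real.exp (t * (∑ j ∈ range k, f (l.getD j d) - k * m))))
        ≤ ∑ x ∈ Ω, μ x * Real.exp (t * (f x - m)) * Real.exp (k * t ^ 2) := by
          refine sum_le_sum fun x hx => ?_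
          rw [mul_assoc]
          exact mul_le_mul_of_nonneg_left (mul_le_mul_of_nonneg_left ih (Real.exp_pos _).le) (h0 x hx)
      _ ≤ Real.exp (t ^ 2) * Real.exp (k * t ^ 2) := by
          rw [← sum_mul]
          exact mul_le_mul_of_nonneg_right os (Real.exp_pos _).le
      _ = _ := by
          rw [← Real.exp_add]
          congr 1
          push_cast
          ring

theorem hoeff (h0 : ∀ x ∈ Ω, 0 ≤ μ x) (h1 : ∑ x ∈ Ω, μ x = 1) (k : ℕ) (f : X → ℝ) (d : X) (ξ : ℝ)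
    (hf : ∀ x ∈ Ω, |f x| ≤ 1) (hξ : 0 < ξ) (hξ1 : ξ ≤ 1) :
    EP Ω μ k (fun l => if k * ξ < |∑ j ∈ range k, f (l.getD j d) - k * ∑ x ∈ Ω, μ x * f x|
        then 1 else 0) ≤ 2 * Real.exp (-(k * ξ ^ 2 / 4)) := by
  have m1 := moment Ω μ h0 h1 f hf d (ξ / 2) (by rw [abs_le]; constructor <;> linarith) k
  have m2 := moment Ω μ h0 h1 f hf d (-(ξ / 2)) (by rw [abs_le]; constructor <;> linarith) k
  set m := ∑ y ∈ Ω, μ y * f y with hm
  have h2 := mono Ω μ h0 k
    (fun l => if k * ξ < |∑ j ∈ range k, f (l.getD j d) - k * m| then 1 else 0)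
    (fun l => Real.exp (-(k * ξ ^ 2 / 2)) *
      (Real.exp (ξ / 2 * (∑ j ∈ range k, f (l.getD j d) - k * m)) +
        Real.exp (-(ξ / 2) * (∑ j ∈ range k, f (l.getD j d) - k * m)))) (by
      intro l _ _
      set S := ∑ j ∈ range k, f (l.getD j d) - k * m
      split_ifs with h
      · rw [mul_add, ← Real.exp_add, ← Real.exp_add]
        have h3 := mul_le_mul_of_nonneg_left h.le (by linarith : (0 : ℝ) ≤ ξ / 2)
        rcases abs_cases S with ⟨e, _⟩ | ⟨e, _⟩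
        · rw [e] at h3
          have := Real.one_le_exp (x := -(k * ξ ^ 2 / 2) + ξ / 2 * S) (by linarith)
          have := Real.exp_pos (-(k * ξ ^ 2 / 2) + -(ξ / 2) * S)
          linarith
        · rw [e] at h3
          have := Real.one_le_exp (x := -(k * ξ ^ 2 / 2) + -(ξ / 2) * S) (by linarith)
          have := Real.exp_pos (-(k * ξ ^ 2 / 2) + ξ / 2 * S)
          linarith
      · positivity)
  refine h2.trans ?_
  rw [smul, add]
  refine (mul_le_mul_of_nonneg_left (add_le_add m1 m2) (Real.exp_pos _).le).trans (le_of_eq ?_)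
  rw [neg_sq, ← two_mul, mul_left_comm, ← Real.exp_add]
  congr 2
  ring

end EPL

theorem EPL_proof : EplStmt := by
  intro X _ Ω μ h0 h1
  exact ⟨EPL.prod_form Ω μ, EPL.split Ω μ, EPL.mono Ω μ h0,
    fun k φ ψ c => ⟨EPL.add Ω μ k φ ψ, EPL.smul Ω μ c k φ, EPL.const Ω μ h1 c k⟩,
    fun k f d ξ hf hξ hξ1 => EPL.hoeff Ω μ h0 h1 k f d ξ hf hξ hξ1⟩

end Crest.Agent.R304
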