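import Crest.Agent.R304.DefsE
import Crest.Agent.R309.PT2

/-! Row 304, task EPT: the population annealing engine is polynomial-time. -/

set_option autoImplicit false

namespace Crest.Agent.R304

open Finset Crest.Agent.PT Crest.Agent.QC Crest.Agent.R317 Crest.Agent.R300U Crest.Agent.R309

namespace EPT

variable {α : Type} [Enc α]

@[fun_prop] theorem pt_rL {n : α → ℕ} (hn : PT n) : PT (fun a => rL (n a)) := by
  unfold rL; fun_prop

@[fun_prop] theorem pt_rK {n : α → ℕ} (hn : PT n) : PT (fun a => rK (n a)) := by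
  unfold rK; fun_prop

@[fun_prop] theorem pt_rB {n : α → ℕ} (hn : PT n) : PT (fun a => rB (n a)) := by
  unfold rB; fun_prop

@[fun_prop] theorem pt_rD {n : α → ℕ} (hn : PT n) : PT (fun a => rD (n a)) := by
  unfold rD; fun_prop

@[fun_prop] theorem pt_rT {n : α → ℕ} (hn : PT n) : PT (fun a => rT (n a)) := by
  unfold rT; fun_prop

@[fun_prop] theorem pt_rh {n : α → ℕ} (hn : PT n) : PT (fun a => rh (n a)) := by
  unfold rh; fun_prop

@[fun_prop] theorem pt_sub {l : α → List X} {s k : α → ℕ} (hl : PT l) (hs : PT s) (hk : PT k) :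
    PT (fun a => sub (l a) (s a) (k a)) := by
  unfold sub; fun_prop

theorem pt_avg {m : α → ℕ} {f : α → X → ℚ} {B : α → List X} (hm : PT m)
    (hf : PT (fun q : α × X => f q.1 q.2)) (hB : PT B) : PT (fun a => avg (m a) (f a) (B a)) := by
  unfold avg
  have h1 : PT (fun q : α × ℕ => f q.1 ((B q.1).getD q.2 [])) :=
    hf.comp (f := fun q : α × ℕ => (q.1, (B q.1).getD q.2 [])) (by fun_prop)
  have h2 : BT (fun a => ∑ j ∈ range (rB (m a)),
      min (2 * 2 ^ m a) ⌊(2 : ℚ) ^ m a * f a ((B a).getD j [])⌋₊) :=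
    BT.sum (f := fun a j => min (2 * 2 ^ m a) ⌊(2 : ℚ) ^ m a * f a ((B a).getD j [])⌋₊) (by fun_prop)
      (BT.min (BT.mul (BT.const _) (BT.pow (BT.const _) (by fun_prop)))
        (bt_qfloor (pt_qmul (pt_qpow (PT.const _) (by fun_prop)) h1)))
  exact pt_qdiv (pt_qnat h2) (pt_qmul (pt_qnat (by fun_prop)) (pt_qpow (PT.const _) hm))

theorem avg_nonneg (m : ℕ) (f : X → ℚ) (B : List X) : 0 ≤ avg m f B := by
  unfold avg; positivity

theorem ht_avg (m : ℕ) (f : X → ℚ) (B : List X) : Ht (rB m + m + 1) (avg m f B : GQ) := by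
  have h2 : rB m < 2 ^ rB m := Nat.lt_two_pow_self
  have h1 : ∑ j ∈ range (rB m), min (2 * 2 ^ m) ⌊(2 : ℚ) ^ m * f (B.getD j [])⌋₊ ≤
      rB m * (2 * 2 ^ m) :=
    (sum_le_card_nsmul _ _ (2 * 2 ^ m) (fun i _ => min_le_left _ _)).trans (by simp)
  have h3 : rB m * (2 * 2 ^ m) ≤ 2 ^ (rB m + m + 1) := by
    rw [show 2 ^ (rB m + m + 1) = 2 ^ rB m * (2 * 2 ^ m) by ring]
    exact Nat.mul_le_mul_right _ h2.le
  refine ht_of_parts
    (x := ((∑ j ∈ range (rB m), min (2 * 2 ^ m) ⌊(2 : ℚ) ^ m * f (B.getD j [])⌋₊ : ℕ) : ℤ))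
    (d := rB m * 2 ^ m) ?_ ?_ ?_
  · unfold avg
    rw [Int.cast_natCast, Nat.cast_mul, Nat.cast_pow, Nat.cast_ofNat]
  · rw [Int.natAbs_natCast]; exact h1.trans h3
  · exact le_trans (Nat.mul_le_mul_left _ (by omega)) h3

theorem sz_mem {β : Type} [Enc β] {l : List β} {x : β} (h : x ∈ l) : sz x ≤ sz l := by
  induction l with
  | nil => simp at h
  | cons y l ih =>
    rw [sz_cons]
    rcases List.mem_cons.1 h with rfl | h
    · omega
    · have := ih h; omega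

/-- populations of bounded size -/
def Pop (n b : ℕ) (l : List X) : Prop := l.length ≤ n ∧ ∀ x ∈ l, sz x ≤ b

theorem Pop.getD {n b : ℕ} {l : List X} (h : Pop n b l) (j : ℕ) : sz (l.getD j []) ≤ b := by
  rw [List.getD_eq_getElem?_getD]
  cases e : l[j]? with
  | none => simp
  | some z => exact h.2 z (List.mem_of_getElem? e)

theorem Pop.sz_le {n b : ℕ} {l : List X} (h : Pop n b l) : sz l ≤ n * (2 * b + 1) :=
  (sz_list_le l b h.2).trans (Nat.mul_le_mul_right _ h.1)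

theorem Pop.sub {n b : ℕ} {l : List X} (h : Pop n b l) (s : ℕ) {k : ℕ} (hk : k ≤ n) :
    Pop n b (sub l s k) := by
  refine ⟨by simpa [R304.sub] using hk, fun x hx => ?_⟩
  obtain ⟨j, -, rfl⟩ := mem_mkL.1 hx
  exact h.getD _

theorem pop_pstep {M : Mdl} {n b : ℕ} {p : List ℤ} (hb : ∀ y, M.W p y ≠ 0 → sz y ≤ b) {l : List X}
    (h : Pop n b l) (a a' i σ c : ℕ) : Pop n b (M.pstep p l a a' i σ c) := by
  unfold Mdl.pstep
  split_ifs with h1
  · have h0 : M.W p (M.mv i σ (l.getD a [], l.getD a' [])).1 *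
        M.W p (M.mv i σ (l.getD a [], l.getD a' [])).2 ≠ 0 := by
      intro h0
      rw [h0] at h1
      simp [accN, crs] at h1
    refine ⟨by simpa using h.1, fun x hx => ?_⟩
    obtain ⟨j, -, rfl⟩ := mem_mkL.1 hx
    split_ifs
    · exact hb _ (left_ne_zero_of_mul h0)
    · exact hb _ (right_ne_zero_of_mul h0)
    · exact h.getD _
  · exact h

theorem pop_cstep {M : Mdl} {n b : ℕ} {p : List ℤ} (hb : ∀ y, M.W p y ≠ 0 → sz y ≤ b) {l : List X}
    (h : Pop n b l) (u : ℕ) : Pop n b (M.cstep p l u) := by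
  unfold Mdl.cstep
  split_ifs
  · exact pop_pstep hb h _ _ _ _ _
  · exact h

theorem pop_iter {M : Mdl} {n b : ℕ} {p : List ℤ} (hb : ∀ y, M.W p y ≠ 0 → sz y ≤ b) {l : List X}
    (h : Pop n b l) (c u T : ℕ) : Pop n b (iterN c (M.cstep p) l u T) := by
  induction T with
  | zero => exact h
  | succ T ih => exact pop_cstep hb ih _

theorem pop_run {M : Mdl} {n b : ℕ} {p : List ℤ} (hb : ∀ y, M.W p y ≠ 0 → sz y ≤ b) {l : List X}
    (h : Pop n b l) (u : ℕ) : Pop n b (M.run p l u) :=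
  (pop_iter hb h _ _ _).sub _ ((Nat.sub_le _ _).trans h.1)

/-- invariant of the stages -/
def Inv (M : Mdl) (b k i : ℕ) (s : St) : Prop :=
  sz s.1 ≤ b ∧ Ht (k + i * (rB M.m + M.m + 1)) (s.2.1 : GQ) ∧ Pop (rK M.m) b s.2.2

theorem inv_stage {M : Mdl} {b k i : ℕ} (hb : ∀ p y, M.W p y ≠ 0 → sz y ≤ b)
    (hu : ∀ p l, sz (M.upd p l) ≤ b) {s : St} (h : Inv M b k i s) (u : ℕ) :
    Inv M b k (i + 1) (M.stage s u) := by
  refine ⟨hu _ _, ?_, pop_run (hb _) (h.2.2.sub _ ((Nat.sub_le _ _).trans h.2.2.1)) _⟩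
  simp only [Mdl.stage]
  rw [Rat.cast_mul, Nat.succ_mul, ← add_assoc]
  exact h.2.1.mul (ht_avg _ _ _)

theorem sz_inv {M : Mdl} {b k i T : ℕ} {s : St} (h : Inv M b k i s) (hi : i ≤ T) :
    sz s ≤ 2 * b + 40 * (k + T * (rB M.m + M.m + 1) + 1) + rK M.m * (2 * b + 1) + 2 := by
  obtain ⟨p, z, l⟩ := s
  obtain ⟨h1, h2, h3⟩ := h
  have h6 := (h2.mono (Nat.add_le_add_left (Nat.mul_le_mul_right _ hi) k)).sz_rat_le
  have h7 := h3.sz_le
  simp only [sz_pair] at *
  omega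

/-- the hypotheses -/
structure Hyp (M : α → Mdl) (B : α → ℕ) : Prop where
  hB : PB B
  hm : PT (fun x => (M x).m)
  hnm : PT (fun x => (M x).nm)
  hbI : PT (fun x => (M x).bI)
  hz : PT (fun x => (M x).z0)
  hW : PT (fun q : α × List ℤ × X => (M q.1).W q.2.1 q.2.2)
  hmv : PT (fun q : α × ℕ × ℕ × X × X => (M q.1).mv q.2.1 q.2.2.1 q.2.2.2)
  hupd : PT (fun q : α × List ℤ × List X => (M q.1).upd q.2.1 q.2.2)
  hfin : PT (fun q : α × List ℤ × X => (M q.1).fin q.2.1 q.2.2)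
  hini : PT (fun q : α × Bin => (M q.1).ini q.2.val)
  s1 : ∀ x p y, (M x).W p y ≠ 0 → sz y ≤ B x
  s2 : ∀ x p l, sz ((M x).upd p l) ≤ B x
  s3 : ∀ x u, sz ((M x).ini u) ≤ B x

variable {M : α → Mdl} {B : α → ℕ} {γ : Type} [Enc γ]

theorem Hyp.m (H : Hyp M B) {f : γ → α} (hf : PT f) : PT (fun c => (M (f c)).m) := H.hm.comp hf

theorem Hyp.aK (H : Hyp M B) {f : γ → α} (hf : PT f) : PT (fun c => (M (f c)).aK) :=
  BT.size (BT.ofPT (pt_rK (H.m hf)))

theorem Hyp.aB (H : Hyp M B) {f : γ → α} (hf : PT f) : PT (fun c => (M (f c)).aB) :=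
  BT.size (BT.ofPT (H.hnm.comp hf))

theorem Hyp.b0 (H : Hyp M B) {f : γ → α} (hf : PT f) : PT (fun c => (M (f c)).b0) :=
  (((PT.const 2).mul (H.aK hf)).add (H.aB hf)).add (PT.const 2)

theorem Hyp.b1 (H : Hyp M B) {f : γ → α} (hf : PT f) : PT (fun c => (M (f c)).b1) :=
  (H.b0 hf).add ((PT.const 4).mul (pt_rh (H.m hf)))

theorem Hyp.bS (H : Hyp M B) {f : γ → α} (hf : PT f) : PT (fun c => (M (f c)).bS) :=
  (pt_rT (H.m hf)).mul (H.b1 hf)

theorem Hyp.bT (H : Hyp M B) : PT (fun c => (M c).bT) :=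
  ((pt_rK H.hm).mul H.hbI).add ((pt_rL H.hm).mul (H.bS PT.id'))

theorem Hyp.W (H : Hyp M B) {f : γ → α} {p : γ → List ℤ} {x : γ → X} (hf : PT f) (hp : PT p)
    (hx : PT x) : PT (fun c => (M (f c)).W (p c) (x c)) :=
  H.hW.comp (f := fun c => (f c, p c, x c)) (hf.pair (hp.pair hx))

theorem Hyp.upd (H : Hyp M B) {f : γ → α} {p : γ → List ℤ} {l : γ → List X} (hf : PT f) (hp : PT p)
    (hl : PT l) : PT (fun c => (M (f c)).upd (p c) (l c)) :=
  H.hupd.comp (f := fun c => (f c, p c, l c)) (hf.pair (hp.pair hl))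

theorem Hyp.pstep (H : Hyp M B) {f : γ → α} {p : γ → List ℤ} {l : γ → List X}
    {a a' i σ c : γ → ℕ} (hf : PT f) (hp : PT p) (hl : PT l) (ha : PT a) (ha' : PT a') (hi : PT i)
    (hσ : PT σ) (hc : BT c) :
    PT (fun q => (M (f q)).pstep (p q) (l q) (a q) (a' q) (i q) (σ q) (c q)) := by
  have h1 : PT (fun q => (l q).getD (a q) []) := pt_getD hl ha (PT.const _)
  have h2 : PT (fun q => (l q).getD (a' q) []) := pt_getD hl ha' (PT.const _)
  have h3 : PT (fun q => (M (f q)).mv (i q) (σ q) ((l q).getD (a q) [], (l q).getD (a' q) [])) :=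
    H.hmv.comp (f := fun q => (f q, i q, σ q, (l q).getD (a q) [], (l q).getD (a' q) []))
      (hf.pair (hi.pair (hσ.pair (h1.pair h2))))
  have hs : PT (fun r : γ × ℕ => r.1) := PT.fst PT.id'
  have ht : PT (fun r : γ × ℕ => r.2) := PT.snd PT.id'
  unfold Mdl.pstep
  exact PT.iteD (DT.lt hc (bt_accN ((PT.const 4).mul (pt_rh (H.m hf)))
      (pt_qmul (H.W hf hp h1) (H.W hf hp h2)) (pt_qmul (H.W hf hp h3.fst) (H.W hf hp h3.snd))))
    (pt_mkL (f := fun q j => if j = a q then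
        ((M (f q)).mv (i q) (σ q) ((l q).getD (a q) [], (l q).getD (a' q) [])).1
      else if j = a' q then
        ((M (f q)).mv (i q) (σ q) ((l q).getD (a q) [], (l q).getD (a' q) [])).2
      else (l q).getD j []) (pt_length hl)
      (PT.iteD (DT.eq (BT.ofPT ht) (BT.ofPT (ha.comp hs))) (h3.fst.comp hs)
        (PT.iteD (DT.eq (BT.ofPT ht) (BT.ofPT (ha'.comp hs))) (h3.snd.comp hs)
          (pt_getD (hl.comp hs) ht (PT.const _))))) hl

theorem Hyp.cstep (H : Hyp M B) {f : γ → α} {p : γ → List ℤ} {l : γ → List X} {u : γ → ℕ}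
    (hf : PT f) (hp : PT p) (hl : PT l) (hu : BT u) :
    PT (fun q => (M (f q)).cstep (p q) (l q) (u q)) := by
  have hK := H.aK hf
  have hB := H.aB hf
  have hn := H.hnm.comp hf
  have hL := pt_length hl
  have h1 := BT.fld hu (PT.const 0) hK
  have h2 := BT.fld hu hK hK
  have h3 := BT.fld hu ((PT.const 2).mul hK) hB
  have h4 := BT.fld hu (((PT.const 2).mul hK).add hB) (PT.const 1)
  have h5 := BT.fld hu ((((PT.const 2).mul hK).add hB).add (PT.const 1)) (PT.const 1)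
  have h6 := BT.fld hu (H.b0 hf) ((PT.const 4).mul (pt_rh (H.m hf)))
  unfold Mdl.cstep
  exact PT.iteD ((DT.lt h1 (BT.ofPT hL)).and ((DT.lt h2 (BT.ofPT hL)).and ((DT.ne h1 h2).and
      ((DT.lt h3 (BT.ofPT hn)).and (DT.eq h4 (BT.const 1))))))
    (H.pstep hf hp hl (pt_un hL h1) (pt_un hL h2) (pt_un hn h3) (pt_un (PT.const 1) h5) h6) hl

theorem Hyp.run (H : Hyp M B) {f : γ → α} {p : γ → List ℤ} {l : γ → List X} {u : γ → ℕ}
    (hf : PT f) (hp : PT p) (hl : PT l) (hu : BT u) :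
    PT (fun q => (M (f q)).run (p q) (l q) (u q)) := by
  have hs : PT (fun r : γ × List X × Bin => r.1) := PT.fst PT.id'
  have h1 : PT (fun q => iterN (M (f q)).b1 ((M (f q)).cstep (p q)) (l q) (u q) (rT (M (f q)).m)) :=
    pt_iterN (σ := fun q => (M (f q)).cstep (p q)) (H.b1 hf)
      (H.cstep (hf.comp hs) (hp.comp hs) (PT.fst (PT.snd PT.id')) (BT.val (PT.snd (PT.snd PT.id'))))
      hl hu (pt_rT (H.m hf))
      (B := fun q => (l q).length * (2 * (B (f q) + sz (l q)) + 1))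
      ((pt_length hl).pbNat.mul
        (((PB.const 2).mul ((H.hB.comp hf.pb).add hl.pb)).add (PB.const 1)))
      (fun q i _ => (pop_iter (n := (l q).length) (b := B (f q) + sz (l q))
        (fun y hy => (H.s1 _ _ _ hy).trans (Nat.le_add_right _ _))
        ⟨le_rfl, fun x hx => (sz_mem hx).trans (Nat.le_add_left _ _)⟩ _ _ _).sz_le)
  exact pt_sub h1 (PT.const 0) ((pt_length hl).sub ((pt_rD (H.m hf)).add (PT.const 1)))

theorem Hyp.stage (H : Hyp M B) {f : γ → α} {s : γ → St} {u : γ → ℕ}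
    (hf : PT f) (hs : PT s) (hu : BT u) : PT (fun q => (M (f q)).stage (s q) (u q)) := by
  have hB := pt_rB (H.m hf)
  have hl := hs.snd.snd
  have h1 := H.upd hf hs.fst (pt_sub hl (PT.const 0) hB)
  have ha : PT (fun r : γ × X => r.1) := PT.fst PT.id'
  have hb : PT (fun r : γ × X => r.2) := PT.snd PT.id'
  have h2 := pt_avg (f := fun q x => (M (f q)).W ((M (f q)).upd (s q).1
      (sub (s q).2.2 0 (rB (M (f q)).m))) x / (M (f q)).W (s q).1 x) (H.m hf)
    (pt_qdiv (H.W (hf.comp ha) (h1.comp ha) hb) (H.W (hf.comp ha) (hs.fst.comp ha) hb))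
    (pt_sub hl hB hB)
  have h3 := H.run hf h1 (pt_sub hl ((PT.const 2).mul hB)
    ((pt_length hl).sub ((PT.const 2).mul hB))) hu
  exact h1.pair ((pt_qmul hs.snd.fst h2).pair h3)

theorem Hyp.start (H : Hyp M B) {f : γ → α} {u : γ → ℕ} (hf : PT f) (hu : BT u) :
    PT (fun q => (M (f q)).start (u q)) := by
  have ha : PT (fun r : γ × ℕ => r.1) := PT.fst PT.id'
  have hb : PT (fun r : γ × ℕ => r.2) := PT.snd PT.id'
  have hI := (H.hbI.comp hf).comp ha
  exact (PT.const _).pair ((H.hz.comp hf).pair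
    (pt_mkL (f := fun q j => (M (f q)).ini (fld (u q) (j * (M (f q)).bI) (M (f q)).bI))
      (pt_rK (H.m hf))
      (H.hini.comp (f := fun r : γ × ℕ =>
          (f r.1, (⟨fld (u r.1) (r.2 * (M (f r.1)).bI) (M (f r.1)).bI⟩ : Bin)))
        ((hf.comp ha).pair (BT.mk (BT.fld (hu.comp ha) (hb.mul hI) hI))))))

theorem Hyp.last (H : Hyp M B) : PT (fun q : α × Bin => (M q.1).last q.2.val) := by
  have hf : PT (fun q : α × Bin => q.1) := PT.fst PT.id'
  have hu : BT (fun q : α × Bin => q.2.val) := BT.val (PT.snd PT.id')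
  have hm := H.m hf
  have h0 := (pt_rK hm).mul (H.hbI.comp hf)
  have hs : PT (fun r : (α × Bin) × St × Bin => r.1) := PT.fst PT.id'
  have hBq : PB (fun q : α × Bin => B q.1) := H.hB.comp hf.pb
  refine pt_iterN (σ := fun q : α × Bin => (M q.1).stage) (H.bS hf)
    (H.stage (hf.comp hs) (PT.fst (PT.snd PT.id')) (BT.val (PT.snd (PT.snd PT.id'))))
    (H.start hf (BT.fld hu (PT.const 0) h0)) (BT.fld hu h0 ((pt_rL hm).mul (H.bS hf))) (pt_rL hm)
    (B := fun q => 2 * B q.1 + 40 * (sz (M q.1).z0 +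
      rL (M q.1).m * (rB (M q.1).m + (M q.1).m + 1) + 1) + rK (M q.1).m * (2 * B q.1 + 1) + 2)
    (((((PB.const 2).mul hBq).add ((PB.const 40).mul (((H.hz.comp hf).pb.add
      ((pt_rL hm).mul (((pt_rB hm).add hm).add (PT.const 1))).pbNat).add (PB.const 1)))).add
      ((pt_rK hm).pbNat.mul (((PB.const 2).mul hBq).add (PB.const 1)))).add (PB.const 2))
    (fun q i hi => sz_inv ?_ hi)
  clear hi
  induction i with
  | zero =>
    refine ⟨by simp [iterN, Mdl.start], (ht_ratCast_sz _).mono (Nat.le_add_right _ _),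
      by simp [iterN, Mdl.start], fun x hx => ?_⟩
    obtain ⟨j, -, rfl⟩ := mem_mkL.1 hx
    exact H.s3 _ _
  | succ i ih => exact inv_stage (H.s1 _) (H.s2 _) ih _

theorem Hyp.out (H : Hyp M B) : PT (fun q : α × Bin => (M q.1).out q.2.val) := by
  have hf : PT (fun q : α × Bin => q.1) := PT.fst PT.id'
  have hl := H.last
  have ha : PT (fun r : (α × Bin) × X => r.1) := PT.fst PT.id'
  have hb : PT (fun r : (α × Bin) × X => r.2) := PT.snd PT.id'
  exact pt_qmul hl.snd.fst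
    (pt_avg (f := fun q : α × Bin => (M q.1).fin ((M q.1).last q.2.val).1) (H.m hf)
      (H.hfin.comp (f := fun r : (α × Bin) × X => (r.1.1, ((M r.1.1).last r.1.2.val).1, r.2))
        ((hf.comp ha).pair ((hl.fst.comp ha).pair hb)))
      (pt_sub hl.snd.snd (PT.const 0) (pt_rB (H.m hf))))

theorem iter_nonneg (M : Mdl) (s : St) (h : 0 ≤ s.2.1) (b u T : ℕ) :
    0 ≤ (iterN b M.stage s u T).2.1 := by
  induction T with
  | zero => exact h
  | succ T ih => exact mul_nonneg ih (avg_nonneg _ _ _)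

end EPT

open EPT in
theorem EPT_proof : EptStmt := by
  refine ⟨fun α _ M B h1 h2 h3 h4 h5 h6 h7 h8 h9 h10 h11 h12 h13 => ?_, fun M => ⟨fun h u => ?_,
    fun h u => ?_⟩⟩
  · have H : Hyp M B := ⟨h1, h2, h3, h4, h5, h6, h7, h8, h9, h10, h11, h12, h13⟩
    exact ⟨H.out, H.bT⟩
  · exact mul_nonneg (iter_nonneg M _ h _ _ _) (avg_nonneg _ _ _)
  · simp [Mdl.out, avg, h]

end Crest.Agent.R304
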