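import Crest.Agent.R304.DefsE
import Crest.Agent.R309.AV

/-! Row 304, task ESG: one stage of the population annealing. -/

set_option autoImplicit false

namespace Crest.Agent.R304

open Finset Crest.Agent.PT Crest.Agent.QC Crest.Agent.R317 Crest.Agent.R300U Crest.Agent.R309

namespace ESG

theorem pow_le_two_pow {m : ℕ} (hm : 2000 ≤ m) : m ^ 150 ≤ 2 ^ m := by
  induction m, hm using Nat.le_induction with
  | base =>
    calc 2000 ^ 150 ≤ (2 ^ 11) ^ 150 := Nat.pow_le_pow_left (by norm_num) _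
      _ = 2 ^ (11 * 150) := (pow_mul _ _ _).symm
      _ ≤ 2 ^ 2000 := Nat.pow_le_pow_right two_pos (by omega)
  | succ m hm ih =>
    have h1 : ((m + 1) * 2000) ^ 150 ≤ (m * 2001) ^ 150 := Nat.pow_le_pow_left (by omega) _
    rw [mul_pow, mul_pow] at h1
    have h2 : 2001 ^ 150 ≤ 2 * 2000 ^ 150 := by norm_num
    have h3 : (m + 1) ^ 150 * 2000 ^ 150 ≤ (2 * m ^ 150) * 2000 ^ 150 := by
      calc _ ≤ m ^ 150 * 2001 ^ 150 := h1
        _ ≤ m ^ 150 * (2 * 2000 ^ 150) := Nat.mul_le_mul_left _ h2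
        _ = _ := by ring
    have h4 := Nat.le_of_mul_le_mul_right h3 (by positivity)
    rw [pow_succ 2 m]; omega

theorem sub_mid (A B C : List X) (s k : ℕ) (hs : A.length = s) (hk : B.length = k) :
    sub (A ++ (B ++ C)) s k = B := by
  subst hs hk
  apply List.ext_getElem
  · simp [sub]
  · intro i h1 h2
    simp only [sub, mkL, List.getElem_map, List.getElem_range]
    rw [List.getD_eq_getElem _ _ (by simp; omega), List.getElem_append_right (by omega)]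
    simp only [Nat.add_sub_cancel_left]
    rw [List.getElem_append_left h2]

theorem sub_fst (A B : List X) (k : ℕ) (hk : A.length = k) : sub (A ++ B) 0 k = A := by
  have := sub_mid [] A B 0 k rfl hk
  simpa using this

theorem sub_last (A B C : List X) (b : ℕ) (hA : A.length = b) (hB : B.length = b) :
    sub (A ++ (B ++ C)) (2 * b) ((A ++ (B ++ C)).length - 2 * b) = C := by
  have := sub_mid (A ++ B) C [] (2 * b) ((A ++ (B ++ C)).length - 2 * b) (by simp; omega)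
    (by simp; omega)
  simpa using this

theorem sizes {m s : ℕ} (hm : 2000 ≤ m) (hs : s < rL m) :
    (s + 1) * rR m + 2 * m ^ 209 ≤ rK m := by
  have h1 : rR m ≤ 2 * m ^ 94 := by
    have h2 : 2000 * m ^ 25 ≤ m ^ 94 := by
      calc _ ≤ m * m ^ 25 := Nat.mul_le_mul_right _ hm
        _ = m ^ 26 := by ring
        _ ≤ _ := Nat.pow_le_pow_right (by omega) (by norm_num)
    have h3 : 0 < m ^ 25 := pow_pos (by omega) _
    simp only [rR, rB, rD]; omega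
  have h2 : (s + 1) * rR m ≤ m ^ 115 * (2 * m ^ 94) := Nat.mul_le_mul hs h1
  have h3 : m ^ 115 * (2 * m ^ 94) = 2 * m ^ 209 := by ring
  simp only [rK]; omega

theorem small {m : ℕ} (hm : 2000 ≤ m) :
    1 / ((rH m : ℕ) : ℝ) / (32 * (m : ℝ) ^ 11) + (2 : ℝ)⁻¹ ^ m ≤ 1 / 2 * (1 / (4 * (m : ℝ) ^ 116)) := by
  have hm0 : (0 : ℝ) < m := by exact_mod_cast (by omega : 0 < m)
  have h1 : 32 * m ^ 116 ≤ 2 ^ m := by
    calc 32 * m ^ 116 ≤ m * m ^ 116 := Nat.mul_le_mul_right _ (by omega)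
      _ = m ^ 117 := by ring
      _ ≤ m ^ 150 := Nat.pow_le_pow_right (by omega) (by norm_num)
      _ ≤ _ := pow_le_two_pow hm
  have h2 : (32 : ℝ) * (m : ℝ) ^ 116 ≤ 2 ^ m := by exact_mod_cast h1
  have h3 : (2 : ℝ)⁻¹ ^ m ≤ 1 / (32 * (m : ℝ) ^ 116) := by
    rw [inv_pow, ← one_div]
    exact one_div_le_one_div_of_le (by positivity) h2
  have h4 : 1 / ((rH m : ℕ) : ℝ) / (32 * (m : ℝ) ^ 11) = 1 / (32 * (m : ℝ) ^ 116) := by
    simp only [rH]; push_cast; field_simp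
  have h5 : 1 / 2 * (1 / (4 * (m : ℝ) ^ 116)) = 4 * (1 / (32 * (m : ℝ) ^ 116)) := by
    field_simp; norm_num
  have h6 : 0 ≤ 1 / (32 * (m : ℝ) ^ 116) := by positivity
  rw [h4, h5]; linarith

theorem prod_err {z Z a ρ δ Q : ℝ} (hZ : 0 < Z) (hρ : 0 < ρ) (_hδ : 0 ≤ δ) (hQ : 1 ≤ Q)
    (hz : |z - Z| ≤ (Q - 1) * Z) (ha : |a - ρ| ≤ ρ * δ) :
    |z * a - ρ * Z| ≤ (Q * (1 + δ) - 1) * (ρ * Z) := by
  have h1 : z * a - ρ * Z = (z - Z) * (a - ρ) + (z - Z) * ρ + Z * (a - ρ) := by ring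
  have h2 : |(z - Z) * (a - ρ)| ≤ ((Q - 1) * Z) * (ρ * δ) := by
    rw [abs_mul]; exact mul_le_mul hz ha (abs_nonneg _) (by nlinarith)
  have h3 : |(z - Z) * ρ| ≤ ((Q - 1) * Z) * ρ := by
    rw [abs_mul, abs_of_pos hρ]; exact mul_le_mul_of_nonneg_right hz hρ.le
  have h4 : |Z * (a - ρ)| ≤ Z * (ρ * δ) := by
    rw [abs_mul, abs_of_pos hZ]; exact mul_le_mul_of_nonneg_left ha hZ.le
  rw [h1]
  calc _ ≤ |(z - Z) * (a - ρ)| + |(z - Z) * ρ| + |Z * (a - ρ)| := abs_add_three _ _ _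
    _ ≤ ((Q - 1) * Z) * (ρ * δ) + ((Q - 1) * Z) * ρ + Z * (ρ * δ) := by linarith
    _ = _ := by ring

variable {M : Mdl} {Ω : Finset X} {I : ℕ → List ℤ → Prop} {A : ℝ}

theorem W_pos (h : M.Good Ω I A) (p : List ℤ) {x : X} (hx : x ∈ Ω) : (0 : ℝ) < M.W p x := by
  exact_mod_cast (h.ht p x hx).1

theorem Z_pos (h : M.Good Ω I A) (p : List ℤ) : 0 < M.Z Ω p :=
  sum_pos (fun _ hx => W_pos h p hx) h.ne

theorem mu_nn (h : M.Good Ω I A) (p : List ℤ) : ∀ x ∈ Ω, 0 ≤ M.μ Ω p x :=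
  fun _ hx => div_nonneg (W_pos h p hx).le (Z_pos h p).le

theorem mu_sum (h : M.Good Ω I A) (p : List ℤ) : ∑ x ∈ Ω, M.μ Ω p x = 1 := by
  simp only [Mdl.μ]
  rw [← sum_div]
  exact div_self (Z_pos h p).ne'

theorem rH_ge (h : M.Good Ω I A) : (2 : ℝ) ≤ (rH M.m : ℕ) := by
  have := h.big
  have h1 : M.m ^ 1 ≤ M.m ^ 105 := Nat.pow_le_pow_right (by omega) (by norm_num)
  have h2 : 2 ≤ rH M.m := by simp only [rH]; rw [pow_one] at h1; omega
  exact_mod_cast h2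

theorem ratio (h : M.Good Ω I A) {p p' : List ℤ}
    (hr : ∀ x ∈ Ω, |(M.W p' x : ℝ) - M.W p x| ≤ M.W p x / rH M.m) :
    ∀ x ∈ Ω, 0 ≤ M.W p' x / M.W p x ∧ M.W p' x / M.W p x ≤ 2 ∧
      |((M.W p' x / M.W p x : ℚ) : ℝ) - 1| ≤ 1 / ((rH M.m : ℕ) : ℝ) := by
  intro x hx
  have h0 := W_pos h p hx
  have h2 := rH_ge h
  have h3 : |((M.W p' x / M.W p x : ℚ) : ℝ) - 1| ≤ 1 / ((rH M.m : ℕ) : ℝ) := by
    push_cast
    rw [div_sub_one h0.ne', abs_div, abs_of_pos h0, div_le_iff₀ h0]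
    refine (hr x hx).trans (le_of_eq ?_)
    ring
  refine ⟨div_nonneg (h.ht p' x hx).1.le (h.ht p x hx).1.le, ?_, h3⟩
  have h4 : 1 / ((rH M.m : ℕ) : ℝ) ≤ 1 := by
    rw [div_le_one (by linarith)]; linarith
  have h5 : ((M.W p' x / M.W p x : ℚ) : ℝ) ≤ 2 := by linarith [(abs_le.1 h3).2]
  exact_mod_cast h5

theorem mean_ratio (h : M.Good Ω I A) (p p' : List ℤ) :
    ∑ x ∈ Ω, M.μ Ω p x * ((M.W p' x / M.W p x : ℚ) : ℝ) = M.Z Ω p' / M.Z Ω p := by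
  simp only [Mdl.μ]
  rw [Mdl.Z.eq_1 M Ω p', sum_div]
  refine sum_congr rfl fun x hx => ?_
  have := (W_pos h p hx).ne'
  push_cast; field_simp

theorem inv_step (h : M.Good Ω I A) {s : ℕ} {p p' : List ℤ} {z a : ℚ} (hI : M.Inv Ω I s p z)
    (hI' : I (s + 1) p') (hr : ∀ x ∈ Ω, |(M.W p' x : ℝ) - M.W p x| ≤ M.W p x / rH M.m)
    (ha : |(a : ℝ) - ∑ x ∈ Ω, M.μ Ω p x * ((M.W p' x / M.W p x : ℚ) : ℝ)| ≤
      1 / ((rH M.m : ℕ) : ℝ) / (32 * (M.m : ℝ) ^ 11) + (2 : ℝ)⁻¹ ^ M.m) :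
    M.Inv Ω I (s + 1) p' (z * a) := by
  refine ⟨hI', ?_⟩
  have hZ := Z_pos h p
  have hρ : 1 / 2 ≤ ∑ x ∈ Ω, M.μ Ω p x * ((M.W p' x / M.W p x : ℚ) : ℝ) := by
    calc (1 / 2 : ℝ) = ∑ x ∈ Ω, M.μ Ω p x * (1 / 2) := by rw [← sum_mul, mu_sum h p, one_mul]
      _ ≤ _ := by
        refine sum_le_sum fun x hx => mul_le_mul_of_nonneg_left ?_ (mu_nn h p x hx)
        have h1 := (abs_le.1 (ratio h hr x hx).2.2).1
        have h2 := rH_ge h
        have h4 : 1 / ((rH M.m : ℕ) : ℝ) ≤ 1 / 2 := one_div_le_one_div_of_le (by norm_num) h2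
        linarith
  rw [mean_ratio h] at hρ ha
  have hδ : (0 : ℝ) ≤ 1 / (4 * (M.m : ℝ) ^ 116) := by positivity
  have hQ : 1 ≤ (1 + 1 / (4 * (M.m : ℝ) ^ 116)) ^ s := one_le_pow₀ (by linarith)
  have := prod_err (a := a) hZ (by linarith : 0 < M.Z Ω p' / M.Z Ω p) hδ hQ hI.2
    (ha.trans ((small h.big).trans (mul_le_mul_of_nonneg_right hρ hδ)))
  rw [div_mul_cancel₀ _ hZ.ne'] at this
  rw [pow_succ]; push_cast
  exact this

end ESG

open ESG in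
theorem ESG_proof (hEch : EchStmt) (hEav : EavStmt) (hEpl : EplStmt) : EsgStmt := by
  intro M Ω I A h s hs ψ γ hψ hγ p z hI
  obtain ⟨-, hsplit, hmono, hlin, -⟩ := hEpl X Ω (M.μ Ω p) (mu_nn h p) (mu_sum h p)
  have hsz := sizes h.big hs
  set ε : ℝ := (2 : ℝ)⁻¹ ^ (2 * M.m) with hε
  have hε0 : 0 ≤ ε := by positivity
  have hε1 : ε < 1 := pow_lt_one₀ (by norm_num) (by norm_num) (by have := h.big; omega)
  have hstep := h.step s hs p hI.1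
  have hγ0 : 0 ≤ γ := by
    have hex : ∃ B, I (s + 1) (M.upd p B) := by
      by_contra hne
      push Not at hne
      simp only [hne, if_false] at hstep
      rw [(hlin _ (fun _ => 0) (fun _ => 0) 1).2.2] at hstep
      linarith
    obtain ⟨B, hB⟩ := hex
    have hI' : M.Inv Ω I (s + 1) (M.upd p B) (∑ x ∈ Ω, M.W (M.upd p B) x) := by
      refine ⟨hB, ?_⟩
      have h1 : ((∑ x ∈ Ω, M.W (M.upd p B) x : ℚ) : ℝ) = M.Z Ω (M.upd p B) := by
        simp only [Mdl.Z]; push_cast; rfl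
      rw [h1, sub_self, abs_zero]
      have hδ : (0 : ℝ) ≤ 1 / (4 * (M.m : ℝ) ^ 116) := by positivity
      have hQ : 1 ≤ (1 + 1 / (4 * (M.m : ℝ) ^ 116)) ^ (s + 1) := one_le_pow₀ (by linarith)
      exact mul_nonneg (by linarith) (Z_pos h _).le
    refine le_trans ?_ (hγ _ _ hI')
    obtain ⟨-, -, hmono', hlin', -⟩ :=
      hEpl X Ω (M.μ Ω (M.upd p B)) (mu_nn h _) (mu_sum h _)
    rw [← (hlin' (rK M.m - (s + 1) * rR M.m) (fun _ => 0) (fun _ => 0) 0).2.2]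
    exact hmono' _ _ _ fun l _ _ => (hψ _).1
  obtain ⟨K, hK⟩ : ∃ K, rK M.m - s * rR M.m = rB M.m + (rB M.m + K) :=
    ⟨rK M.m - s * rR M.m - 2 * rB M.m, by
      rw [add_mul, one_mul] at hsz; simp only [rR] at hsz ⊢; omega⟩
  have hK' : K - (rD M.m + 1) = rK M.m - (s + 1) * rR M.m := by
    rw [add_mul, one_mul] at hsz ⊢; simp only [rR] at hsz hK ⊢; omega
  have hKle : K ≤ rK M.m := by omega
  rw [hK, hsplit]
  -- the two bad events
  set bad1 : List X → ℝ := fun B => @ite _ (I (s + 1) (M.upd p B)) (Classical.dec _) 0 1 with hbad1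
  set bad2 : List X → List X → ℝ := fun B₁ B => if 1 / ((rH M.m : ℕ) : ℝ) / (32 * (M.m : ℝ) ^ 11) +
      (2 : ℝ)⁻¹ ^ M.m < |(avg M.m (fun x => M.W (M.upd p B₁) x / M.W p x) B : ℝ) -
        ∑ x ∈ Ω, M.μ Ω p x * ((M.W (M.upd p B₁) x / M.W p x : ℚ) : ℝ)| then 1 else 0 with hbad2
  have hb1 : ∀ B, 0 ≤ bad1 B := fun B => by simp only [hbad1]; split_ifs <;> norm_num
  have hb2 : ∀ B₁ B, 0 ≤ bad2 B₁ B := fun B₁ B => by simp only [hbad2]; split_ifs <;> norm_num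
  have hrH : (0 : ℝ) < 1 / ((rH M.m : ℕ) : ℝ) := by have := rH_ge h; positivity
  have hE2 : ∀ B₁, EP Ω (M.μ Ω p) (rB M.m) (bad2 B₁) ≤ ε := fun B₁ =>
    hEav M.m Ω (M.μ Ω p) (fun x => M.W (M.upd p B₁) x / M.W p x) 1 _ h.big (mu_nn h p) (mu_sum h p)
      hrH (ratio h (h.rat s hs p hI.1 B₁))
  have key : ∀ B₁ B₂ : List X, B₁.length = rB M.m → B₂.length = rB M.m →
      EP Ω (M.μ Ω p) K (fun R => Kt M.bS M.stage ψ (p, z, B₁ ++ (B₂ ++ R))) ≤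
        bad2 B₁ B₂ + (bad1 B₁ + (γ + ε)) := by
    intro B₁ B₂ h1 h2
    have hΦ : (fun R => Kt M.bS M.stage ψ (p, z, B₁ ++ (B₂ ++ R))) = fun R => Av M.bS (fun u =>
        ψ (M.upd p B₁, z * avg M.m (fun x => M.W (M.upd p B₁) x / M.W p x) B₂,
          M.run (M.upd p B₁) R u)) := by
      funext R
      simp only [Kt, Mdl.stage]
      rw [sub_fst _ _ _ h1, sub_mid _ _ _ _ _ h1 h2, sub_last _ _ _ _ h1 h2]
    rw [hΦ]
    have hle : EP Ω (M.μ Ω p) K (fun R => Av M.bS (fun u =>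
        ψ (M.upd p B₁, z * avg M.m (fun x => M.W (M.upd p B₁) x / M.W p x) B₂,
          M.run (M.upd p B₁) R u))) ≤ 1 := by
      rw [← (hlin K (fun _ => 0) (fun _ => 0) 1).2.2]
      exact hmono _ _ _ fun l _ _ => Av_le_const fun u _ => (hψ _).2
    by_cases hg1 : I (s + 1) (M.upd p B₁)
    swap
    · have : bad1 B₁ = 1 := by simp only [hbad1, hg1, if_false]
      linarith [hb2 B₁ B₂]
    by_cases hg2 : 1 / ((rH M.m : ℕ) : ℝ) / (32 * (M.m : ℝ) ^ 11) +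
      (2 : ℝ)⁻¹ ^ M.m < |(avg M.m (fun x => M.W (M.upd p B₁) x / M.W p x) B₂ : ℝ) -
        ∑ x ∈ Ω, M.μ Ω p x * ((M.W (M.upd p B₁) x / M.W p x : ℚ) : ℝ)|
    · have : bad2 B₁ B₂ = 1 := by simp only [hbad2, hg2, if_true]
      linarith [hb1 B₁]
    have hI' := inv_step h hI hg1 (h.rat s hs p hI.1 B₁) (not_lt.1 hg2)
    have h3 := hEch M Ω I A h (s + 1) p (M.upd p B₁) hg1 (h.rat s hs p hI.1 B₁) K hKle
      (by omega) (fun l => ψ (M.upd p B₁,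
        z * avg M.m (fun x => M.W (M.upd p B₁) x / M.W p x) B₂, l))
      (fun l => abs_le.2 ⟨by linarith [(hψ (M.upd p B₁,
        z * avg M.m (fun x => M.W (M.upd p B₁) x / M.W p x) B₂, l)).1], (hψ _).2⟩)
    have h4 := hγ _ _ hI'
    rw [← hK'] at h4
    linarith [(abs_le.1 h3).2, hb1 B₁, hb2 B₁ B₂]
  calc _ ≤ EP Ω (M.μ Ω p) (rB M.m) (fun B₁ => bad1 B₁ + (γ + 2 * ε)) := by
        refine hmono _ _ _ fun B₁ h1 _ => ?_
        rw [hsplit]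
        calc _ ≤ EP Ω (M.μ Ω p) (rB M.m) (fun B₂ => bad2 B₁ B₂ + (bad1 B₁ + (γ + ε))) :=
              hmono _ _ _ fun B₂ h2 _ => key B₁ B₂ h1 h2
          _ = EP Ω (M.μ Ω p) (rB M.m) (bad2 B₁) + (bad1 B₁ + (γ + ε)) := by
              rw [(hlin _ _ _ 0).1, (hlin _ (fun _ => 0) (fun _ => 0) _).2.2]
          _ ≤ _ := by linarith [hE2 B₁]
    _ = EP Ω (M.μ Ω p) (rB M.m) bad1 + (γ + 2 * ε) := by
        rw [(hlin _ _ _ 0).1, (hlin _ (fun _ => 0) (fun _ => 0) _).2.2]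
    _ ≤ _ := by linarith

end Crest.Agent.R304
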