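import Crest.Agent.R304.DefsM

set_option autoImplicit false

namespace Crest.Agent.R304

open Finset

namespace FOUR

theorem sq3 (a b c : ℝ) : (a + b + c) ^ 2 ≤ 3 * (a ^ 2 + b ^ 2 + c ^ 2) := by
  nlinarith [sq_nonneg (a - b), sq_nonneg (b - c), sq_nonneg (a - c)]

variable {α : Type}

theorem case1 (A B : Finset α) (p q f₁ f₂ f₃ : α → ℝ) (hp : ∀ x ∈ A, 0 < p x)
    (hq : ∀ y ∈ B, 0 < q y) :
    (∑ x ∈ A, p x) * ∑ x ∈ A, ∑ y ∈ B, p x * q y * (f₁ x - f₂ x) ^ 2 ≤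
      3 * ((∑ y ∈ B, q y) * ∑ x ∈ A, ∑ x' ∈ A, p x * p x' * (f₁ x - f₂ x') ^ 2 +
        2 * ((∑ x ∈ A, p x) * ∑ x ∈ A, ∑ y ∈ B, p x * q y * (f₂ x - f₃ y) ^ 2)) := by
  have h1 : (∑ x ∈ A, p x) * ∑ x ∈ A, ∑ y ∈ B, p x * q y * (f₁ x - f₂ x) ^ 2 =
      ∑ x' ∈ A, ∑ x ∈ A, ∑ y ∈ B, p x' * (p x * q y * (f₁ x - f₂ x) ^ 2) := by
    rw [Finset.sum_mul]
    refine Finset.sum_congr rfl fun x' _ => ?_
    rw [Finset.mul_sum]
    refine Finset.sum_congr rfl fun x _ => ?_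
    rw [Finset.mul_sum]
  have h2 : (∑ y ∈ B, q y) * ∑ x ∈ A, ∑ x' ∈ A, p x * p x' * (f₁ x - f₂ x') ^ 2 =
      ∑ x' ∈ A, ∑ x ∈ A, ∑ y ∈ B, q y * (p x * p x' * (f₁ x - f₂ x') ^ 2) := by
    rw [Finset.sum_comm (s := A) (t := A), Finset.mul_sum]
    refine Finset.sum_congr rfl fun x' _ => ?_
    rw [Finset.mul_sum]
    refine Finset.sum_congr rfl fun x _ => ?_
    rw [Finset.sum_mul]
  have h3 : (∑ x ∈ A, p x) * ∑ x ∈ A, ∑ y ∈ B, p x * q y * (f₂ x - f₃ y) ^ 2 =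
      ∑ x' ∈ A, ∑ x ∈ A, ∑ y ∈ B, p x' * (p x * q y * (f₂ x - f₃ y) ^ 2) := by
    rw [Finset.sum_mul]
    refine Finset.sum_congr rfl fun x' _ => ?_
    rw [Finset.mul_sum]
    refine Finset.sum_congr rfl fun x _ => ?_
    rw [Finset.mul_sum]
  have h4 : (∑ x ∈ A, p x) * ∑ x ∈ A, ∑ y ∈ B, p x * q y * (f₂ x - f₃ y) ^ 2 =
      ∑ x' ∈ A, ∑ x ∈ A, ∑ y ∈ B, p x * (p x' * q y * (f₂ x' - f₃ y) ^ 2) := by
    rw [h3, Finset.sum_comm]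
  rw [two_mul]
  nth_rewrite 2 [h4]
  rw [h1, h2, h3, ← Finset.sum_add_distrib, ← Finset.sum_add_distrib, Finset.mul_sum]
  refine Finset.sum_le_sum fun x' hx' => ?_
  rw [← Finset.sum_add_distrib, ← Finset.sum_add_distrib, Finset.mul_sum]
  refine Finset.sum_le_sum fun x hx => ?_
  rw [← Finset.sum_add_distrib, ← Finset.sum_add_distrib, Finset.mul_sum]
  refine Finset.sum_le_sum fun y hy => ?_
  have h5 := sq3 (f₁ x - f₂ x') (f₂ x' - f₃ y) (f₃ y - f₂ x)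
  have h6 : 0 ≤ p x' * p x * q y := by
    have := hp x hx; have := hp x' hx'; have := hq y hy
    positivity
  have h7 := mul_le_mul_of_nonneg_left h5 h6
  calc p x' * (p x * q y * (f₁ x - f₂ x) ^ 2)
      = p x' * p x * q y * (f₁ x - f₂ x' + (f₂ x' - f₃ y) + (f₃ y - f₂ x)) ^ 2 := by ring
    _ ≤ _ := h7
    _ = _ := by ring

theorem case2 (A B : Finset α) (p q f₁ f₂ f₃ f₄ : α → ℝ) (hp : ∀ x ∈ A, 0 < p x)
    (hq : ∀ y ∈ B, 0 < q y) :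
    (∑ y ∈ B, q y) * ∑ x ∈ A, ∑ y ∈ B, p x * q y * (f₁ x - f₂ x) ^ 2 ≤
      3 * ((∑ y ∈ B, q y) * ∑ x ∈ A, ∑ y ∈ B, p x * q y * (f₁ x - f₄ y) ^ 2 +
        (∑ x ∈ A, p x) * ∑ y ∈ B, ∑ y' ∈ B, q y * q y' * (f₄ y - f₃ y') ^ 2 +
        (∑ y ∈ B, q y) * ∑ x ∈ A, ∑ y ∈ B, p x * q y * (f₂ x - f₃ y) ^ 2) := by
  have h0 : ∀ F : α → α → ℝ, (∑ y ∈ B, q y) * ∑ x ∈ A, ∑ y ∈ B, F x y =
      ∑ x ∈ A, ∑ y ∈ B, ∑ y' ∈ B, q y' * F x y := by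
    intro F
    rw [Finset.mul_sum]
    refine Finset.sum_congr rfl fun x _ => ?_
    rw [Finset.mul_sum]
    refine Finset.sum_congr rfl fun y _ => ?_
    rw [Finset.sum_mul]
  have h2 : (∑ x ∈ A, p x) * ∑ y ∈ B, ∑ y' ∈ B, q y * q y' * (f₄ y - f₃ y') ^ 2 =
      ∑ x ∈ A, ∑ y ∈ B, ∑ y' ∈ B, p x * (q y * q y' * (f₄ y - f₃ y') ^ 2) := by
    rw [Finset.sum_mul]
    refine Finset.sum_congr rfl fun x _ => ?_
    rw [Finset.mul_sum]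
    refine Finset.sum_congr rfl fun y _ => ?_
    rw [Finset.mul_sum]
  have h3 : (∑ y ∈ B, q y) * ∑ x ∈ A, ∑ y ∈ B, p x * q y * (f₂ x - f₃ y) ^ 2 =
      ∑ x ∈ A, ∑ y ∈ B, ∑ y' ∈ B, q y * (p x * q y' * (f₂ x - f₃ y') ^ 2) := by
    rw [h0]
    refine Finset.sum_congr rfl fun x _ => ?_
    exact Finset.sum_comm
  rw [h3, h2, h0, h0, ← Finset.sum_add_distrib, ← Finset.sum_add_distrib, Finset.mul_sum]
  refine Finset.sum_le_sum fun x hx => ?_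
  rw [← Finset.sum_add_distrib, ← Finset.sum_add_distrib, Finset.mul_sum]
  refine Finset.sum_le_sum fun y hy => ?_
  rw [← Finset.sum_add_distrib, ← Finset.sum_add_distrib, Finset.mul_sum]
  refine Finset.sum_le_sum fun y' hy' => ?_
  have h5 := sq3 (f₁ x - f₄ y) (f₄ y - f₃ y') (f₃ y' - f₂ x)
  have h6 : 0 ≤ q y' * p x * q y := by
    have := hp x hx; have := hq y' hy'; have := hq y hy
    positivity
  have h7 := mul_le_mul_of_nonneg_left h5 h6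
  calc q y' * (p x * q y * (f₁ x - f₂ x) ^ 2)
      = q y' * p x * q y * (f₁ x - f₄ y + (f₄ y - f₃ y') + (f₃ y' - f₂ x)) ^ 2 := by ring
    _ ≤ _ := h7
    _ = _ := by ring

theorem nn (A B : Finset α) (p q : α → ℝ) (d : α → α → ℝ) (hp : ∀ x ∈ A, 0 < p x)
    (hq : ∀ y ∈ B, 0 < q y) : 0 ≤ ∑ x ∈ A, ∑ y ∈ B, p x * q y * d x y ^ 2 :=
  Finset.sum_nonneg fun x hx => Finset.sum_nonneg fun y hy => by
    have := hp x hx; have := hq y hy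
    positivity

end FOUR

theorem FOUR_proof : FourStmt := by
  intro α A B p q f₁ f₂ f₃ f₄ κ c₁ c₂ hp hq hκ hc₁ hc₂ hκc
  have n14 := FOUR.nn A B p q (fun x y => f₁ x - f₄ y) hp hq
  have n23 := FOUR.nn A B p q (fun x y => f₂ x - f₃ y) hp hq
  have n12 := FOUR.nn A A p p (fun x y => f₁ x - f₂ y) hp hp
  have n43 := FOUR.nn B B q q (fun x y => f₄ x - f₃ y) hq hq
  have c1 := FOUR.case1 A B p q f₁ f₂ f₃ hp hq
  have c2 := FOUR.case2 A B p q f₁ f₂ f₃ f₄ hp hq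
  rcases A.eq_empty_or_nonempty with rfl | hA
  · simp only [Finset.sum_empty, mul_zero, add_zero, zero_add]
    positivity
  rcases B.eq_empty_or_nonempty with rfl | hB
  · simp only [Finset.sum_empty, Finset.sum_const_zero, mul_zero, add_zero, zero_add]
    positivity
  have hP : 0 < ∑ x ∈ A, p x := Finset.sum_pos hp hA
  have hQ : 0 < ∑ y ∈ B, q y := Finset.sum_pos hq hB
  generalize (∑ x ∈ A, p x) = P at c1 c2 hP
  generalize (∑ y ∈ B, q y) = Q at c1 c2 hQ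
  generalize (∑ x ∈ A, ∑ y ∈ B, p x * q y * (f₁ x - f₂ x) ^ 2) = S at c1 c2 ⊢
  generalize (∑ x ∈ A, ∑ y ∈ B, p x * q y * (f₁ x - f₄ y) ^ 2) = S14 at c2 n14 ⊢
  generalize (∑ x ∈ A, ∑ y ∈ B, p x * q y * (f₂ x - f₃ y) ^ 2) = S23 at c1 c2 n23 ⊢
  generalize (∑ x ∈ A, ∑ x' ∈ A, p x * p x' * (f₁ x - f₂ x') ^ 2) = S12 at c1 n12 ⊢
  generalize (∑ y ∈ B, ∑ y' ∈ B, q y * q y' * (f₄ y - f₃ y') ^ 2) = S43 at c2 n43 ⊢
  by_cases h1 : κ * Q ≤ c₁ * P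
  · apply le_of_mul_le_mul_left _ hP
    have h2 := mul_le_mul_of_nonneg_left c1 hκ
    have h3 := mul_le_mul_of_nonneg_right h1 n12
    have h4 : 0 ≤ P * (κ * S14) := by positivity
    have h5 : 0 ≤ P * (c₂ * S43) := by positivity
    nlinarith
  · have h1' : κ * P ≤ c₂ * Q := by
      by_contra h2
      push Not at h1 h2
      have h3 : c₁ * P * (c₂ * Q) < κ * Q * (κ * P) :=
        mul_lt_mul'' h1 h2 (by positivity) (by positivity)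
      have h4 := mul_le_mul_of_nonneg_right hκc (mul_pos hP hQ).le
      nlinarith
    apply le_of_mul_le_mul_left _ hQ
    have h2 := mul_le_mul_of_nonneg_left c2 hκ
    have h3 := mul_le_mul_of_nonneg_right h1' n43
    have h4 : 0 ≤ Q * (κ * S23) := by positivity
    have h5 : 0 ≤ Q * (c₁ * S12) := by positivity
    nlinarith

end Crest.Agent.R304
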