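import Crest.Agent.R304.DefsM

set_option autoImplicit false

namespace Crest.Agent.R304

open Finset Crest.Agent.R309

namespace LI

variable {N : ℕ}

theorem w_scale (a : Fin N → Fin N → ℝ) (b : Fin N → ℝ) (σ : Mp N) (hσ : σ ∈ MM ∅) :
    w (fun p q => a p q * b p * b q) σ = (∏ v, b v) ^ 2 * w a σ := by
  obtain ⟨h1, h2⟩ := (Finset.mem_filter.1 hσ).2
  have h3 : ∀ v, σ v ≠ v := fun v h => by simpa using (h2 v).1 h
  have h4 : ∏ v, b (σ v) = ∏ v, b v :=
    Equiv.prod_comp (Function.Involutive.toPerm σ h1) b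
  unfold w
  simp only [h3, if_false]
  rw [Finset.prod_mul_distrib, Finset.prod_mul_distrib, h4]
  ring

theorem wP_scale (a : Fin N → Fin N → ℝ) (b : Fin N → ℝ) (σ : Mp N) :
    wP (fun p q => a p q * b p * b q) σ = (∏ v, b v) ^ 2 * wP a σ := by
  unfold wP
  split_ifs with h
  · exact w_scale a b σ h
  · simp

theorem En_scale (a : Fin N → Fin N → ℝ) (b : Fin N → ℝ) (g : Mp N → ℝ) :
    En (fun p q => a p q * b p * b q) g = ((∏ v, b v) ^ 2) ^ 2 * En a g := by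
  unfold En
  rw [Finset.mul_sum]
  refine Finset.sum_congr rfl (fun i _ => ?_)
  rw [Finset.mul_sum]
  refine Finset.sum_congr rfl (fun X hX => ?_)
  rw [Finset.mul_sum]
  refine Finset.sum_congr rfl (fun Y hY => ?_)
  rw [w_scale a b X hX, w_scale a b Y hY, wP_scale, wP_scale,
    ← mul_assoc (((∏ v, b v) ^ 2) ^ 2), mul_min_of_nonneg _ _ (by positivity)]
  congr 2 <;> ring

theorem var_eq {X : Type} (Ω : Finset X) (π f : X → ℝ) (h : ∑ x ∈ Ω, π x ≠ 0) :
    2 * (Var Ω π f * ∑ x ∈ Ω, π x) = ∑ x ∈ Ω, ∑ y ∈ Ω, π x * π y * (f x - f y) ^ 2 := by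
  have h1 : ∀ x y, π x * π y * (f x - f y) ^ 2 =
      (π x * f x ^ 2) * π y + π x * (π y * f y ^ 2) - 2 * ((π x * f x) * (π y * f y)) := by
    intro x y; ring
  simp only [h1, Finset.sum_sub_distrib, Finset.sum_add_distrib, ← Finset.mul_sum,
    ← Finset.sum_mul]
  unfold Var
  field_simp
  ring

end LI

open LI in
theorem LI_proof (hUlt : UltStmt) (hRoot : RootStmt) (hTop : TopStmt) : LiStmt := by
  intro N a g ε ha hε hε1 hNF
  have hZ : ∑ σ ∈ MM (∅ : Finset (Fin N)), w a σ ≠ 0 := hNF.1.ne'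
  have hv := var_eq (MM ∅) (w a) g hZ
  have hroot : ∀ r : Fin N,
      ∑ I ∈ MM ∅, ∑ F ∈ MM ∅, w a I * w a F * (g (sw r (I, F)).1 - g I) ^ 2 ≤
        60 * (N : ℝ) ^ 54 / ε ^ 2 * En a g := by
    intro r
    have hN : (1 : ℝ) ≤ N := by exact_mod_cast r.pos
    set C := Real.sqrt (2 * N / ε) with hC
    have hC2 : C ^ 2 = 2 * N / ε := Real.sq_sqrt (by positivity)
    have hC1 : 1 ≤ C := by
      apply Real.le_sqrt_of_sq_le
      rw [le_div_iff₀ hε]; linarith
    obtain ⟨b, hb, hU⟩ := hUlt N a ε C r ha hε hNF (by linarith) (by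
      rw [hC2]; field_simp; exact le_refl _)
    have ha' : Wt (fun p q => a p q * b p * b q) := by
      intro p q
      refine ⟨mul_pos (mul_pos (ha p q).1 (hb p)) (hb q), ?_⟩
      simp only [(ha p q).2]; ring
    have h := hRoot N _ g C r ha' hC1 hU
    rw [En_scale] at h
    set β := ((∏ v, b v) ^ 2) ^ 2 with hβ
    have hβ0 : 0 < β := by
      have : 0 < ∏ v, b v := Finset.prod_pos (fun v _ => hb v)
      positivity
    have hl : ∑ I ∈ MM ∅, ∑ F ∈ MM ∅, w (fun p q => a p q * b p * b q) I *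
        w (fun p q => a p q * b p * b q) F * (g (sw r (I, F)).1 - g I) ^ 2 =
        β * ∑ I ∈ MM ∅, ∑ F ∈ MM ∅, w a I * w a F * (g (sw r (I, F)).1 - g I) ^ 2 := by
      rw [Finset.mul_sum]
      refine Finset.sum_congr rfl (fun I hI => ?_)
      rw [Finset.mul_sum]
      refine Finset.sum_congr rfl (fun F hF => ?_)
      rw [w_scale a b I hI, w_scale a b F hF, hβ]; ring
    rw [hl] at h
    have hC4 : C ^ 4 = 4 * (N : ℝ) ^ 2 / ε ^ 2 := by
      rw [show C ^ 4 = (C ^ 2) ^ 2 by ring, hC2]; field_simp; norm_num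
    rw [hC4] at h
    refine le_of_mul_le_mul_left (h.trans (le_of_eq ?_)) hβ0
    field_simp; ring
  have ht := hTop N a g ha
  have hs : ∑ r : Fin N, ∑ I ∈ MM ∅, ∑ F ∈ MM ∅,
      w a I * w a F * (g (sw r (I, F)).1 - g I) ^ 2 ≤
        N * (60 * (N : ℝ) ^ 54 / ε ^ 2 * En a g) := by
    refine le_trans (Finset.sum_le_sum (fun r _ => hroot r)) (le_of_eq ?_)
    simp
  have hN0 : (0 : ℝ) ≤ N := by positivity
  have h2 := le_trans ht (mul_le_mul_of_nonneg_left hs hN0)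
  rw [← hv] at h2
  have h3 : (N : ℝ) * (N * (60 * (N : ℝ) ^ 54 / ε ^ 2 * En a g)) =
      2 * (30 * (N : ℝ) ^ 56 / ε ^ 2 * En a g) := by ring
  rw [h3] at h2
  unfold Z
  linarith

end Crest.Agent.R304
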