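import Crest.Agent.R304.DefsM

set_option autoImplicit false

namespace Crest.Agent.R304

open Finset

namespace LOW

variable {N : ℕ}

theorem mem_iff (σ : Mp N) (h : σ ∈ MM (∅ : Finset (Fin N))) (v : Fin N) : σ v ≠ v := by
  simp only [MM, mem_filter, mem_univ, true_and] at h
  intro hv
  simpa using (h.2 v).1 hv

theorem w_pos (H : ℝ) (hH : 0 < H) (k : Fin N → Fin N → ℤ) (σ : Mp N) : 0 < w (ak H k) σ := by
  unfold w
  refine prod_pos fun v _ => ?_
  split_ifs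
  · exact one_pos
  · exact zpow_pos (by positivity) _

theorem log_w (H : ℝ) (hH : 0 < H) (k : Fin N → Fin N → ℤ) (σ : Mp N)
    (h : σ ∈ MM (∅ : Finset (Fin N))) :
    Real.log (w (ak H k) σ) = Real.log (1 + 1 / H) * ∑ v, (k v (σ v) : ℝ) := by
  unfold w
  rw [Real.log_prod, mul_sum]
  · refine sum_congr rfl fun v _ => ?_
    rw [if_neg (mem_iff σ h v), ak, Real.log_zpow, mul_comm]
  · intro v _
    rw [if_neg (mem_iff σ h v)]
    exact (zpow_pos (by positivity) _).ne'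

theorem le_logZ (H : ℝ) (hH : 0 < H) (k : Fin N → Fin N → ℤ) (σ : Mp N)
    (h : σ ∈ MM (∅ : Finset (Fin N))) :
    Real.log (1 + 1 / H) * ∑ v, (k v (σ v) : ℝ) ≤ Real.log (Z (ak H k) ∅) := by
  rw [← log_w H hH k σ h]
  refine Real.log_le_log (w_pos H hH k σ) ?_
  exact single_le_sum (f := w (ak H k)) (fun τ _ => (w_pos H hH k τ).le) h

theorem sum_S (hCnt : CntStmt) (hN : N % 2 = 0) (k : Fin N → Fin N → ℤ) :
    (∑ σ ∈ MM (∅ : Finset (Fin N)), ∑ v, (k v (σ v) : ℝ)) * ((N - 1 : ℕ) : ℝ) =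
      ((MM (∅ : Finset (Fin N))).card : ℝ) * ∑ p, ∑ q, if p = q then 0 else (k p q : ℝ) := by
  rw [sum_comm, sum_mul, mul_sum]
  refine sum_congr rfl fun p _ => ?_
  have h1 : ∑ σ ∈ MM (∅ : Finset (Fin N)), (k p (σ p) : ℝ) =
      ∑ q, (((MM (∅ : Finset (Fin N))).filter (fun σ : Mp N => σ p = q)).card : ℝ) * (k p q : ℝ) := by
    rw [← sum_fiberwise (s := MM (∅ : Finset (Fin N))) (g := fun σ : Mp N => σ p)]
    refine sum_congr rfl fun q _ => ?_
    rw [sum_congr rfl (g := fun _ => (k p q : ℝ))]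
    · simp
    · intro σ hσ
      rw [(mem_filter.1 hσ).2]
  rw [h1, sum_mul, mul_sum]
  refine sum_congr rfl fun q _ => ?_
  split_ifs with hpq
  · subst hpq
    have : (MM (∅ : Finset (Fin N))).filter (fun σ : Mp N => σ p = p) = ∅ :=
      filter_eq_empty_iff.2 fun σ hσ => mem_iff σ hσ p
    simp [this]
  · have h2 := ((hCnt N).2.1 p q hpq hN)
    rw [← h2]
    push_cast
    ring

end LOW

theorem LOW_proof (hCnt : CntStmt) : LowStmt := by
  intro N H ε k σ₀ hH hε hεN hN h₀ hk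
  have hτ : 0 ≤ Real.log (1 + 1 / H) := Real.log_nonneg (by have := one_div_pos.2 hH; linarith)
  have hL : 0 ≤ Real.log (Z (ak H k) ∅) := by
    refine le_trans (mul_nonneg hτ (sum_nonneg fun v _ => ?_)) (LOW.le_logZ H hH k σ₀ h₀)
    exact_mod_cast hk v
  have hM : (0 : ℝ) < ((MM (∅ : Finset (Fin N))).card : ℝ) := by
    exact_mod_cast card_pos.2 ⟨σ₀, h₀⟩
  have hS := LOW.sum_S hCnt hN k
  have hsum : Real.log (1 + 1 / H) * ∑ σ ∈ MM (∅ : Finset (Fin N)), ∑ v, (k v (σ v) : ℝ) ≤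
      ((MM (∅ : Finset (Fin N))).card : ℝ) * Real.log (Z (ak H k) ∅) := by
    rw [mul_sum]
    refine (sum_le_sum fun σ hσ => LOW.le_logZ H hH k σ hσ).trans_eq ?_
    simp
  have hn : ((N - 1 : ℕ) : ℝ) ≤ N := by exact_mod_cast Nat.sub_le N 1
  have hn0 : (0 : ℝ) ≤ ((N - 1 : ℕ) : ℝ) := Nat.cast_nonneg _
  unfold pot
  set τ := Real.log (1 + 1 / H)
  set L := Real.log (Z (ak H k) ∅)
  set M := ((MM (∅ : Finset (Fin N))).card : ℝ)
  set K := ∑ p, ∑ q, if p = q then 0 else (k p q : ℝ)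
  set S := ∑ σ ∈ MM (∅ : Finset (Fin N)), ∑ v, (k v (σ v) : ℝ)
  set n := ((N - 1 : ℕ) : ℝ)
  have h1 : τ * K ≤ n * L := by
    have : M * (τ * K) ≤ M * (n * L) := by
      have e : M * (τ * K) = (τ * S) * n := by rw [mul_assoc, hS]; ring
      rw [e]
      nlinarith [mul_le_mul_of_nonneg_right hsum hn0]
    exact le_of_mul_le_mul_left this hM
  have h2 : ε * n ≤ 1 := le_trans (mul_le_mul_of_nonneg_left hn hε) hεN
  have h3 := mul_le_mul_of_nonneg_left h1 hε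
  nlinarith [mul_le_mul_of_nonneg_right h2 hL]

end Crest.Agent.R304
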