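import Crest.Agent.R304.DefsM

set_option autoImplicit false

namespace Crest.Agent.R304

open Finset Crest.Agent.R309

namespace NODE

variable {N : ℕ}

theorem st_ttt (X Y : Mp N) (u s : Fin N) : st X Y u s true true true = X := by
  funext v; simp [st]

theorem st_fff (X Y : Mp N) (u s : Fin N) : st X Y u s false false false = Y := by
  funext v; simp [st]

theorem w_split (hBas : BasStmt) (a : Fin N → Fin N → ℝ) (I e : Mp N) (he : ∀ v, e (e v) = v)
    (hX : I ∘ e ∈ MM (supp e)) : w a I = w a (I ∘ e) * w a e := by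
  have h := (hBas N).2.2.2.2.2.1 (I ∘ e) e
  simp only [MM, supp, mem_filter, mem_univ, true_and] at hX
  have h2 := (h hX.1 he (fun v => by
    by_cases hv : e v = v
    · exact Or.inr hv
    · exact Or.inl ((hX.2 v).2 hv))).2.2 a
  have h3 : (I ∘ e) ∘ e = I := by funext v; simp [he]
  rwa [h3] at h2

theorem EE_nonneg (hBas : BasStmt) (a : Fin N → Fin N → ℝ) (ha : Wt a) (s : Fin N)
    (T₁ T₂ T₃ T₄ : Finset (Fin N)) (g₁ g₂ g₃ g₄ : Mp N → ℝ) :
    0 ≤ EE a s T₁ T₂ T₃ T₄ g₁ g₂ g₃ g₄ := by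
  have hw := fun σ => (hBas N).2.2.2.2.2.2.2 a σ ha
  unfold EE
  refine sum_nonneg fun X _ => sum_nonneg fun Y _ => ?_
  split_ifs
  · exact mul_nonneg (mul_pos (hw X) (hw Y)).le (sq_nonneg _)
  · exact le_rfl

/-- precomposition with an involution as an equivalence -/
def pre (e : Mp N) (he : ∀ v, e (e v) = v) : Mp N ≃ Mp N where
  toFun X := X ∘ e
  invFun X := X ∘ e
  left_inv X := by funext v; simp [he]
  right_inv X := by funext v; simp [he]

theorem sum_pre_le (e e' : Mp N) (he : ∀ v, e (e v) = v) (he' : ∀ v, e' (e' v) = v)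
    (A B A' B' : Finset (Mp N)) (h : Mp N → Mp N → ℝ) (h0 : ∀ X Y, 0 ≤ h X Y)
    (hA : ∀ X Y, h X Y ≠ 0 → X ∈ A' ∧ Y ∈ B') :
    ∑ I ∈ A, ∑ F ∈ B, h (I ∘ e) (F ∘ e') ≤ ∑ X ∈ A', ∑ Y ∈ B', h X Y := by
  have h1 : ∑ I ∈ A, ∑ F ∈ B, h (I ∘ e) (F ∘ e') ≤ ∑ I, ∑ F, h (I ∘ e) (F ∘ e') := by
    refine (sum_le_sum fun I _ => sum_le_sum_of_subset_of_nonneg (subset_univ B)
      (fun F _ _ => h0 _ _)).trans ?_
    exact sum_le_sum_of_subset_of_nonneg (subset_univ A)
      (fun I _ _ => sum_nonneg fun F _ => h0 _ _)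
  have h2 : ∑ I, ∑ F, h (I ∘ e) (F ∘ e') = ∑ X, ∑ Y, h X Y := by
    rw [← Equiv.sum_comp (pre e he) (fun X => ∑ Y, h X Y)]
    refine sum_congr rfl fun I _ => ?_
    exact Equiv.sum_comp (pre e' he') (fun Y => h (I ∘ e) Y)
  have h3 : ∑ X, ∑ Y, h X Y = ∑ X ∈ A', ∑ Y ∈ B', h X Y := by
    symm
    rw [sum_subset (subset_univ A')]
    · refine sum_congr rfl fun X _ => sum_subset (subset_univ B') fun Y _ hY => ?_
      by_contra hne
      exact hY (hA X Y hne).2
    · intro X _ hX
      refine sum_eq_zero fun Y _ => ?_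
      by_contra hne
      exact hX (hA X Y hne).1
  exact h1.trans (h2.trans h3).le

end NODE

open NODE in
theorem NODE_proof (hBas : BasStmt) (hSec : SecStmt) (hCls : ClsStmt) : NodeStmt := by
  intro N a g C D ha hC hD
  obtain ⟨hinv, hc1, hc2⟩ := hD
  have hw := fun σ => (hBas N).2.2.2.2.2.2.2 a σ ha
  set T : Bool → Bool → Bool → Finset (Fin N) := fun τ₀ τ₁ τ₂ => supp (ce D τ₀ τ₁ τ₂) with hT
  set G : Bool → Bool → Bool → Mp N → ℝ := fun τ₀ τ₁ τ₂ σ => g (σ ∘ ce D τ₀ τ₁ τ₂) with hG
  set ω : Bool → Bool → Bool → ℝ := fun τ₀ τ₁ τ₂ => w a (ce D τ₀ τ₁ τ₂) with hω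
  have hωp : ∀ τ₀ τ₁ τ₂, 0 < ω τ₀ τ₁ τ₂ := fun _ _ _ => hw _
  set h : Mp N → Mp N → ℝ := fun X Y =>
    @ite _ (InS T D.1 D.2.1 X Y) (Classical.dec _) (w a X * w a Y * sd G D.1 D.2.1 X Y ^ 2) 0 with hh
  have hCp : 0 < C := by linarith
  -- step 1
  have s1 : ∑ I ∈ MM ∅, ∑ F ∈ MM ∅,
      @ite _ (Real_ D I F) (Classical.dec _) (w a I * w a F * dfc g D I F ^ 2) 0 =
      (ω true true true * ω false false false) * ∑ I ∈ MM ∅, ∑ F ∈ MM ∅,
        h (I ∘ ce D true true true) (F ∘ ce D false false false) := by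
    rw [mul_sum]
    refine sum_congr rfl fun I _ => ?_
    rw [mul_sum]
    refine sum_congr rfl fun F _ => ?_
    by_cases hR : Real_ D I F
    · have hR' : InS T D.1 D.2.1 (I ∘ ce D true true true) (F ∘ ce D false false false) := hR
      have hX := hR'.2 true true true
      have hY := hR'.2 false false false
      rw [st_ttt] at hX
      rw [st_fff] at hY
      have e1 := w_split hBas a I _ (hinv true true true) hX
      have e2 := w_split hBas a F _ (hinv false false false) hY
      simp only [hh, if_pos hR, if_pos hR']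
      rw [e1, e2]
      simp only [hω, dfc, hG]
      ring
    · have hR' : ¬ InS T D.1 D.2.1 (I ∘ ce D true true true) (F ∘ ce D false false false) := hR
      simp only [hh, if_neg hR, if_neg hR', mul_zero]
  have s2 : ∑ I ∈ MM ∅, ∑ F ∈ MM ∅, h (I ∘ ce D true true true) (F ∘ ce D false false false) ≤
      ∑ X ∈ MM (T true true true), ∑ Y ∈ MM (T false false false), h X Y := by
    refine sum_pre_le _ _ (hinv true true true) (hinv false false false) _ _ _ _ h ?_ ?_
    · intro X Y
      simp only [hh]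
      split_ifs
      · exact mul_nonneg (mul_pos (hw X) (hw Y)).le (sq_nonneg _)
      · exact le_rfl
    · intro X Y hne
      by_cases hI : InS T D.1 D.2.1 X Y
      · have hX := hI.2 true true true
        have hY := hI.2 false false false
        rw [st_ttt] at hX
        rw [st_fff] at hY
        exact ⟨hX, hY⟩
      · exact absurd (by simp only [hh, if_neg hI]) hne
  -- step 2
  set κ : ℝ := ω true true true * ω false false false / C with hκ
  set c₁ : ℝ := min (ω true false true * ω true true false) (ω true false false * ω true true true)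
    with hc₁
  set c₂ : ℝ := min (ω false true true * ω false false false)
    (ω false true false * ω false false true) with hc₂
  have hκ0 : 0 ≤ κ := div_nonneg (mul_pos (hωp _ _ _) (hωp _ _ _)).le hCp.le
  have hc10 : 0 ≤ c₁ := le_min (mul_pos (hωp _ _ _) (hωp _ _ _)).le
    (mul_pos (hωp _ _ _) (hωp _ _ _)).le
  have hc20 : 0 ≤ c₂ := le_min (mul_pos (hωp _ _ _) (hωp _ _ _)).le
    (mul_pos (hωp _ _ _) (hωp _ _ _)).le
  have hκ2 : κ ^ 2 ≤ c₁ * c₂ := by
    rw [hκ, div_pow, div_le_iff₀ (by positivity)]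
    have := hc2
    rw [mul_comm (c₁ * c₂)]
    exact this
  have hκle : ∀ τ₁ τ₂, κ ≤ ω true τ₁ τ₂ * ω false (!τ₁) (!τ₂) := by
    intro τ₁ τ₂
    rw [hκ, div_le_iff₀ hCp, mul_comm _ C]
    exact hc1 τ₁ τ₂
  have s3 := hSec N a T D.1 D.2.1 G κ c₁ c₂ ha hκ0 hc10 hc20 hκ2
  -- step 3
  have cls4 : ∀ (τ : Fin 4 → Bool × Bool × Bool),
      min (ω (τ 0).1 (τ 0).2.1 (τ 0).2.2 * ω (τ 1).1 (τ 1).2.1 (τ 1).2.2)
        (ω (τ 2).1 (τ 2).2.1 (τ 2).2.2 * ω (τ 3).1 (τ 3).2.1 (τ 3).2.2) *
      EE a D.2.1 (T (τ 0).1 (τ 0).2.1 (τ 0).2.2) (T (τ 1).1 (τ 1).2.1 (τ 1).2.2)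
        (T (τ 2).1 (τ 2).2.1 (τ 2).2.2) (T (τ 3).1 (τ 3).2.1 (τ 3).2.2)
        (G (τ 0).1 (τ 0).2.1 (τ 0).2.2) (G (τ 1).1 (τ 1).2.1 (τ 1).2.2)
        (G (τ 2).1 (τ 2).2.1 (τ 2).2.2) (G (τ 3).1 (τ 3).2.1 (τ 3).2.2) ≤ En a g := by
    intro τ
    exact hCls N a g (fun k => D.2.2 (τ k).1 (τ k).2.1 (τ k).2.2) D.2.1 ha
      (fun k v => hinv (τ k).1 (τ k).2.1 (τ k).2.2 v)
  have t1 := cls4 ![(true, false, true), (false, true, false), (true, false, false), (false, true, true)]
  have t2 := cls4 ![(true, true, true), (false, false, false), (true, true, false), (false, false, true)]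
  have t3 := cls4 ![(true, false, true), (true, true, false), (true, false, false), (true, true, true)]
  have t4 := cls4 ![(false, true, true), (false, false, false), (false, true, false), (false, false, true)]
  simp only [Matrix.cons_val_zero, Matrix.cons_val_one, Matrix.cons_val] at t1 t2 t3 t4
  have n1 := EE_nonneg hBas a ha D.2.1 (T true false true) (T false true false) (T true false false)
    (T false true true) (G true false true) (G false true false) (G true false false)
    (G false true true)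
  have n2 := EE_nonneg hBas a ha D.2.1 (T true true true) (T false false false) (T true true false)
    (T false false true) (G true true true) (G false false false) (G true true false)
    (G false false true)
  have u1 := mul_le_mul_of_nonneg_right
    (le_min (hκle false true) (hκle false false)) n1
  have u2 := mul_le_mul_of_nonneg_right
    (le_min (hκle true true) (hκle true false)) n2
  simp only [Bool.not_true, Bool.not_false] at u1 u2
  have s4 : κ * ∑ X ∈ MM (T true true true), ∑ Y ∈ MM (T false false false), h X Y ≤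
      15 * En a g := by
    refine s3.trans ?_
    linarith
  rw [s1]
  have hprod : ω true true true * ω false false false = C * κ := by
    rw [hκ]; field_simp
  rw [hprod, mul_assoc]
  have s5 := mul_le_mul_of_nonneg_left s2 hκ0
  calc C * (κ * ∑ I ∈ MM ∅, ∑ F ∈ MM ∅,
        h (I ∘ ce D true true true) (F ∘ ce D false false false))
      ≤ C * (15 * En a g) := mul_le_mul_of_nonneg_left (s5.trans s4) hCp.le
    _ = 15 * C * En a g := by ring

end Crest.Agent.R304
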