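import Crest.Agent.R304.DefsM

/-!
Row 304, task NPM: perfect matchings of a graph as involutions without fixed points.
-/

set_option autoImplicit false

namespace Crest.Agent.R304

open Finset Crest.Agent.R309

theorem NPM_proof : NpmStmt := by
  intro N G _
  unfold Crest.Matchings.numPerfectMatchings
  symm
  refine card_bij (fun σ _ => univ.image fun v => s(v, σ v)) ?_ ?_ ?_
  · intro σ hσ
    simp only [MM, mem_filter, mem_univ, true_and] at hσ
    obtain ⟨⟨h1, _⟩, h3⟩ := hσ
    rw [mem_filter, mem_powerset]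
    refine ⟨fun e he => ?_, fun v => ?_⟩
    · obtain ⟨v, _, rfl⟩ := mem_image.1 he
      simpa using h3 v
    · rw [card_eq_one]
      refine ⟨s(v, σ v), ?_⟩
      ext e
      simp only [mem_filter, mem_image, mem_univ, true_and, mem_singleton]
      constructor
      · rintro ⟨⟨u, rfl⟩, hu⟩
        rcases Sym2.mem_iff.1 hu with h | h
        · rw [h]
        · rw [h, h1, Sym2.eq_swap]
      · rintro rfl
        exact ⟨⟨v, rfl⟩, Sym2.mem_mk_left _ _⟩
  · intro σ _ σ' hσ' h
    simp only [MM, mem_filter, mem_univ, true_and] at hσ'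
    obtain ⟨⟨h1, _⟩, _⟩ := hσ'
    funext v
    have hv : s(v, σ v) ∈ univ.image fun v => s(v, σ' v) := by
      rw [← h]; exact mem_image.2 ⟨v, mem_univ _, rfl⟩
    obtain ⟨u, _, hu⟩ := mem_image.1 hv
    rcases Sym2.eq_iff.1 hu with ⟨h2, h3⟩ | ⟨h2, h3⟩
    · rw [← h3, h2]
    · rw [← h2, ← h3, h1]
  · intro M hM
    rw [mem_filter, mem_powerset] at hM
    obtain ⟨hsub, hone⟩ := hM
    have hex : ∀ v, ∃ x, s(v, x) ∈ M ∧ ∀ e ∈ M, v ∈ e → e = s(v, x) := by
      intro v
      obtain ⟨e, he⟩ := card_eq_one.1 (hone v)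
      have h1 : e ∈ M.filter fun e => v ∈ e := by rw [he]; exact mem_singleton_self e
      rw [mem_filter] at h1
      obtain ⟨x, hx⟩ := Sym2.mem_iff_exists.1 h1.2
      refine ⟨x, hx ▸ h1.1, fun e' he' hv => ?_⟩
      have h2 : e' ∈ M.filter fun e => v ∈ e := mem_filter.2 ⟨he', hv⟩
      rw [he, mem_singleton] at h2
      rw [h2, hx]
    choose σ hσ1 hσ2 using hex
    have hadj : ∀ v, G.Adj v (σ v) := fun v => by simpa using hsub (hσ1 v)
    refine ⟨σ, ?_, ?_⟩
    · simp only [MM, mem_filter, mem_univ, true_and]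
      refine ⟨⟨fun v => ?_, fun v => ?_⟩, hadj⟩
      · have h := hσ2 (σ v) _ (hσ1 v) (Sym2.mem_mk_right _ _)
        rcases Sym2.eq_iff.1 h with ⟨h2, _⟩ | ⟨h2, _⟩
        · exact absurd h2 (hadj v).ne
        · exact h2.symm
      · simpa using (hadj v).ne.symm
    · ext e
      simp only [mem_image, mem_univ, true_and]
      constructor
      · rintro ⟨v, rfl⟩; exact hσ1 v
      · induction e using Sym2.ind with
        | _ a b =>
          intro he
          exact ⟨a, (hσ2 a _ he (Sym2.mem_mk_left _ _)).symm⟩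

end Crest.Agent.R304
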