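import Crest.Agent.R304.DefsP

/-!
Row 304, task PEA: calculus of conditional expectations on a finite product space.
-/

set_option autoImplicit false

namespace Crest.Agent.R304

open Finset

namespace PEA

variable {α : Type} [Fintype α] [DecidableEq α] {K : ℕ} {μ : α → ℝ}

/-- `x` on `A`, `y` elsewhere -/
def mx (A : Finset (Fin K)) (x y : Fin K → α) : Fin K → α := fun i => if i ∈ A then x i else y i

omit [Fintype α] [DecidableEq α] in
theorem mx_mx (A : Finset (Fin K)) (x y : Fin K → α) : mx A (mx A x y) (mx A y x) = x := by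
  funext i
  by_cases h : i ∈ A <;> simp [mx, h]

omit [Fintype α] [DecidableEq α] in
theorem pm_mx (A : Finset (Fin K)) (x y : Fin K → α) :
    pm μ (mx A x y) * pm μ (mx A y x) = pm μ x * pm μ y := by
  unfold pm
  rw [← prod_mul_distrib, ← prod_mul_distrib]
  refine prod_congr rfl fun i _ => ?_
  by_cases h : i ∈ A
  · simp only [mx, h, if_true]
  · simp only [mx, h, if_false]; ring

omit [DecidableEq α] in
theorem EA_eq (A : Finset (Fin K)) (F : (Fin K → α) → ℝ) (x : Fin K → α) :
    EA μ A F x = ∑ y, pm μ y * F (mx A x y) := rfl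

omit [DecidableEq α] in
theorem sum_pm (h : Prob μ) : ∑ x : Fin K → α, pm μ x = 1 := by
  classical
  unfold pm
  have := Finset.prod_univ_sum (fun _ : Fin K => (univ : Finset α)) (fun _ j => μ j)
  rw [Fintype.piFinset_univ] at this
  rw [← this]
  simp [h.2]

omit [DecidableEq α] in
theorem pm_pos (h : Prob μ) (x : Fin K → α) : 0 < pm μ x := prod_pos fun _ _ => h.1 _

omit [DecidableEq α] in
theorem key (A : Finset (Fin K)) (Φ : (Fin K → α) → (Fin K → α) → ℝ) :
    ∑ x, ∑ y, pm μ x * pm μ y * Φ x y = ∑ x, ∑ y, pm μ x * pm μ y * Φ (mx A x y) (mx A y x) := by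
  rw [← Fintype.sum_prod_type', ← Fintype.sum_prod_type']
  have hinv : Function.Involutive
      (fun p : (Fin K → α) × (Fin K → α) => (mx A p.1 p.2, mx A p.2 p.1)) := by
    intro p
    simp only [mx_mx]
  symm
  refine Fintype.sum_equiv hinv.toPerm _ _ fun p => ?_
  simp only [Function.Involutive.coe_toPerm, pm_mx]

omit [DecidableEq α] in
theorem key1 (h : Prob μ) (A : Finset (Fin K)) (F : (Fin K → α) → ℝ) :
    ∑ x, ∑ y, pm μ x * pm μ y * F (mx A x y) = ∑ x, pm μ x * F x := by
  rw [← key A (fun x _ => F x)]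
  refine sum_congr rfl fun x _ => ?_
  have : ∀ y : Fin K → α, pm μ x * pm μ y * F x = pm μ x * F x * pm μ y := fun y => by ring
  simp only [this]
  rw [← mul_sum, sum_pm h, mul_one]

omit [DecidableEq α] in
theorem tower (h : Prob μ) (A B : Finset (Fin K)) (F : (Fin K → α) → ℝ) :
    EA μ A (EA μ B F) = EA μ (A ∩ B) F := by
  funext x
  rw [EA_eq, EA_eq, ← key1 h B (fun u => F (mx (A ∩ B) x u))]
  refine sum_congr rfl fun y _ => ?_
  rw [EA_eq, mul_sum]
  refine sum_congr rfl fun z _ => ?_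
  have : mx B (mx A x y) z = mx (A ∩ B) x (mx B y z) := by
    funext i
    by_cases h1 : i ∈ A <;> by_cases h2 : i ∈ B <;> simp [mx, h1, h2]
  rw [this]; ring

omit [DecidableEq α] in
theorem adj (A : Finset (Fin K)) (F G : (Fin K → α) → ℝ) :
    ∑ x, pm μ x * (EA μ A F x * G x) = ∑ x, pm μ x * (F x * EA μ A G x) := by
  have h1 : ∑ x, pm μ x * (EA μ A F x * G x) =
      ∑ x, ∑ y, pm μ x * pm μ y * (F (mx A x y) * G x) := by
    refine sum_congr rfl fun x _ => ?_
    rw [EA_eq, sum_mul, mul_sum]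
    exact sum_congr rfl fun y _ => by ring
  rw [h1, key A (fun x y => F (mx A x y) * G x)]
  refine sum_congr rfl fun x _ => ?_
  rw [EA_eq, mul_sum, mul_sum]
  refine sum_congr rfl fun y _ => ?_
  rw [mx_mx]; ring

omit [DecidableEq α] in
theorem sum_perm (π : Equiv.Perm (Fin K)) (Φ : (Fin K → α) → ℝ) :
    ∑ x, pm μ x * Φ x = ∑ x, pm μ x * Φ (x ∘ π) := by
  symm
  refine Fintype.sum_equiv (Equiv.arrowCongr π.symm (Equiv.refl α)) _ _ fun x => ?_
  have e : (Equiv.arrowCongr π.symm (Equiv.refl α)) x = x ∘ π := by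
    funext i; simp
  rw [e]
  congr 1
  unfold pm
  exact (Equiv.prod_comp π (fun i => μ (x i))).symm

omit [DecidableEq α] in
theorem nr_sym (A B : Finset (Fin K)) (F : (Fin K → α) → ℝ) (hF : Sym F) (hc : A.card = B.card) :
    nr μ (EA μ A F) = nr μ (EA μ B F) := by
  obtain ⟨π, hπ⟩ := Equiv.Perm.exists_map_finset_eq A B hc
  have hm : ∀ i, i ∈ A ↔ π i ∈ B := by
    intro i
    rw [← hπ]
    simp
  unfold nr
  rw [sum_perm π]
  refine sum_congr rfl fun x _ => ?_
  congr 2
  rw [EA_eq, EA_eq, sum_perm π]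
  refine sum_congr rfl fun y _ => ?_
  have : mx A (x ∘ π) (y ∘ π) = mx B x y ∘ π := by
    funext i
    by_cases h1 : i ∈ A
    · simp [mx, h1, (hm i).1 h1]
    · have h2 : π i ∉ B := fun h' => h1 ((hm i).2 h')
      simp [mx, h1, h2]
  rw [this, hF]

omit [DecidableEq α] in
theorem EA_of_dep (h : Prob μ) (A : Finset (Fin K)) (F : (Fin K → α) → ℝ)
    (hF : ∀ x y, (∀ i ∈ A, x i = y i) → F x = F y) : EA μ A F = F := by
  funext x
  rw [EA_eq]
  have : ∀ y, F (mx A x y) = F x := fun y => hF _ _ fun i hi => by simp [mx, hi]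
  simp only [this]
  rw [← sum_mul, sum_pm h, one_mul]

omit [DecidableEq α] in
theorem EA_dep (A : Finset (Fin K)) (F : (Fin K → α) → ℝ) (x y : Fin K → α)
    (hxy : ∀ i ∈ A, x i = y i) : EA μ A F x = EA μ A F y := by
  rw [EA_eq, EA_eq]
  refine sum_congr rfl fun u _ => ?_
  have : mx A x u = mx A y u := by
    funext i
    by_cases h1 : i ∈ A
    · simp [mx, h1, hxy i h1]
    · simp [mx, h1]
  rw [this]

omit [DecidableEq α] in
theorem ip (h : Prob μ) (A B : Finset (Fin K)) (F : (Fin K → α) → ℝ) :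
    ∑ x, pm μ x * (EA μ A F x * EA μ B F x) = nr μ (EA μ (A ∩ B) F) := by
  have h1 : nr μ (EA μ (A ∩ B) F) =
      ∑ x, pm μ x * (EA μ (A ∩ B) F x * EA μ (A ∩ B) F x) := by
    unfold nr
    exact sum_congr rfl fun x _ => by ring
  rw [h1, adj, adj, tower h, tower h, inter_self]

omit [DecidableEq α] in
theorem nr_nonneg (h : Prob μ) (F : (Fin K → α) → ℝ) : 0 ≤ nr μ F :=
  sum_nonneg fun x _ => mul_nonneg (pm_pos h x).le (sq_nonneg _)

omit [DecidableEq α] in
theorem nr_sub (h : Prob μ) (A B : Finset (Fin K)) (F : (Fin K → α) → ℝ) (hAB : A ⊆ B) :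
    nr μ (fun x => EA μ B F x - EA μ A F x) = nr μ (EA μ B F) - nr μ (EA μ A F) := by
  have h1 := ip h A B F
  rw [inter_eq_left.2 hAB] at h1
  have h2 : nr μ (fun x => EA μ B F x - EA μ A F x) =
      nr μ (EA μ B F) - 2 * ∑ x, pm μ x * (EA μ A F x * EA μ B F x) + nr μ (EA μ A F) := by
    unfold nr
    rw [mul_sum, ← sum_sub_distrib, ← sum_add_distrib]
    exact sum_congr rfl fun x _ => by ring
  rw [h2, h1]; ring

omit [DecidableEq α] in
theorem nr_four (h : Prob μ) (A : Finset (Fin K)) (F : (Fin K → α) → ℝ) (a b : Fin K) :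
    nr μ (fun x => EA μ A F x - EA μ (A.erase a) F x - EA μ (A.erase b) F x +
        EA μ ((A.erase a).erase b) F x) =
      nr μ (EA μ A F) - nr μ (EA μ (A.erase a) F) - nr μ (EA μ (A.erase b) F) +
        nr μ (EA μ ((A.erase a).erase b) F) := by
  have h1 := ip h A (A.erase a) F
  have h2 := ip h A (A.erase b) F
  have h3 := ip h A ((A.erase a).erase b) F
  have h4 := ip h (A.erase a) (A.erase b) F
  have h5 := ip h (A.erase a) ((A.erase a).erase b) F
  have h6 := ip h (A.erase b) ((A.erase a).erase b) F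
  rw [inter_eq_right.2 (erase_subset _ _)] at h1 h2 h5
  rw [inter_eq_right.2 ((erase_subset _ _).trans (erase_subset _ _))] at h3
  have e4 : A.erase a ∩ A.erase b = (A.erase a).erase b := by
    ext i; simp only [mem_inter, mem_erase]; tauto
  have e6 : A.erase b ∩ (A.erase a).erase b = (A.erase a).erase b := by
    ext i; simp only [mem_inter, mem_erase]; tauto
  rw [e4] at h4
  rw [e6] at h6
  have h7 : nr μ (fun x => EA μ A F x - EA μ (A.erase a) F x - EA μ (A.erase b) F x +
        EA μ ((A.erase a).erase b) F x) =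
      nr μ (EA μ A F) + nr μ (EA μ (A.erase a) F) + nr μ (EA μ (A.erase b) F) +
        nr μ (EA μ ((A.erase a).erase b) F) -
        2 * ∑ x, pm μ x * (EA μ A F x * EA μ (A.erase a) F x) -
        2 * ∑ x, pm μ x * (EA μ A F x * EA μ (A.erase b) F x) +
        2 * ∑ x, pm μ x * (EA μ A F x * EA μ ((A.erase a).erase b) F x) +
        2 * ∑ x, pm μ x * (EA μ (A.erase a) F x * EA μ (A.erase b) F x) -
        2 * ∑ x, pm μ x * (EA μ (A.erase a) F x * EA μ ((A.erase a).erase b) F x) -
        2 * ∑ x, pm μ x * (EA μ (A.erase b) F x * EA μ ((A.erase a).erase b) F x) := by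
    unfold nr
    simp only [mul_sum, ← sum_sub_distrib, ← sum_add_distrib]
    exact sum_congr rfl fun x _ => by ring
  rw [h7, h1, h2, h3, h4, h5, h6]; ring

omit [Fintype α] [DecidableEq α] in
theorem pm_update (x : Fin K → α) (a : Fin K) (t : α) :
    pm μ (Function.update x a t) * μ (x a) = pm μ x * μ t := by
  unfold pm
  rw [← mul_prod_erase univ _ (mem_univ a), ← mul_prod_erase univ (fun i => μ (x i)) (mem_univ a)]
  have : ∏ i ∈ univ.erase a, μ (Function.update x a t i) = ∏ i ∈ univ.erase a, μ (x i) :=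
    prod_congr rfl fun i hi => by rw [Function.update_of_ne (ne_of_mem_erase hi)]
  rw [this, Function.update_self]; ring

omit [DecidableEq α] in
theorem resample (h : Prob μ) (a : Fin K) (Φ : (Fin K → α) → ℝ) :
    ∑ x, pm μ x * Φ x = ∑ x, pm μ x * ∑ t, μ t * Φ (Function.update x a t) := by
  have h1 : ∑ x, pm μ x * Φ x = ∑ x, ∑ t, pm μ x * μ t * Φ x := by
    refine sum_congr rfl fun x _ => ?_
    have : ∀ t, pm μ x * μ t * Φ x = pm μ x * Φ x * μ t := fun t => by ring
    simp only [this]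
    rw [← mul_sum, h.2, mul_one]
  have h2 : ∑ x, pm μ x * ∑ t, μ t * Φ (Function.update x a t) =
      ∑ x, ∑ t, pm μ x * μ t * Φ (Function.update x a t) := by
    refine sum_congr rfl fun x _ => ?_
    rw [mul_sum]
    exact sum_congr rfl fun t _ => by ring
  rw [h1, h2, ← Fintype.sum_prod_type', ← Fintype.sum_prod_type']
  have hinv : Function.Involutive
      (fun p : (Fin K → α) × α => (Function.update p.1 a p.2, p.1 a)) := by
    intro p
    simp
  symm
  refine Fintype.sum_equiv hinv.toPerm _ _ fun p => ?_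
  simp only [Function.Involutive.coe_toPerm, pm_update]

omit [DecidableEq α] in
theorem resample2 (h : Prob μ) (a b : Fin K) (Φ : (Fin K → α) → ℝ) :
    ∑ x, pm μ x * Φ x = ∑ x, pm μ x * ∑ z : α × α, μ z.1 * μ z.2 * Φ (up2 x a b z) := by
  rw [resample h b, resample h a]
  refine sum_congr rfl fun x _ => ?_
  congr 1
  rw [Fintype.sum_prod_type]
  refine sum_congr rfl fun t _ => ?_
  rw [mul_sum]
  exact sum_congr rfl fun s _ => by unfold up2; ring

end PEA

theorem PEA_proof : PeaStmt := by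
  intro α _ _ K μ h
  refine ⟨⟨PEA.sum_pm h, PEA.pm_pos h⟩, PEA.tower h, PEA.adj, PEA.nr_sym, fun F => ⟨?_, fun x => ?_⟩,
    fun A F => ⟨PEA.EA_dep A F, PEA.EA_of_dep h A F⟩, fun A B F hAB => ⟨?_, PEA.nr_sub h A B F hAB⟩,
    PEA.nr_four h, fun a b Φ _ => PEA.resample2 h a b Φ⟩
  · apply PEA.EA_of_dep h
    intro x y hxy
    rw [funext fun i => hxy i (mem_univ i)]
  · simp [EA]
  · have h1 := PEA.nr_sub h A B F hAB
    have h2 := PEA.nr_nonneg h (fun x => EA μ B F x - EA μ A F x)
    linarith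

end Crest.Agent.R304
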