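import Crest.Agent.R304.DefsP

set_option autoImplicit false

namespace Crest.Agent.R304

open Finset

namespace PEN

variable {α : Type} [Fintype α] [DecidableEq α] {K : ℕ}

theorem up2_a (x : Fin K → α) {a b : Fin K} (hab : a ≠ b) (z : α × α) : up2 x a b z a = z.1 := by
  simp [up2, Function.update_of_ne hab]

theorem up2_b (x : Fin K → α) (a b : Fin K) (z : α × α) : up2 x a b z b = z.2 := by
  simp [up2]

theorem up2_o (x : Fin K → α) {a b i : Fin K} (ha : i ≠ a) (hb : i ≠ b) (z : α × α) :
    up2 x a b z i = x i := by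
  simp [up2, Function.update_of_ne ha, Function.update_of_ne hb]

theorem up2_up2 (x : Fin K → α) {a b : Fin K} (hab : a ≠ b) (z z' : α × α) :
    up2 (up2 x a b z) a b z' = up2 x a b z' := by
  funext i
  by_cases hb : i = b
  · subst hb; rw [up2_b, up2_b]
  · by_cases ha : i = a
    · subst ha; rw [up2_a _ hab, up2_a _ hab]
    · rw [up2_o _ ha hb, up2_o _ ha hb, up2_o _ ha hb]

theorem sum_pair {μ : α → ℝ} (h1 : ∑ x, μ x = 1) (ψ : α → ℝ) :
    ∑ z : α × α, μ z.1 * μ z.2 * ψ z.1 = ∑ t, μ t * ψ t := by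
  rw [Fintype.sum_prod_type]
  refine sum_congr rfl fun t _ => ?_
  have : ∑ y, μ t * μ y * ψ t = (μ t * ψ t) * ∑ y, μ y := by
    rw [mul_sum]; exact sum_congr rfl fun y _ => by ring
  simp only [this, h1, mul_one]

theorem EA_swap (μ : α → ℝ) (A : Finset (Fin K)) {F : (Fin K → α) → ℝ} (hF : Sym F) {a b : Fin K}
    (ha : a ∈ A) (hb : b ∈ A) (y : Fin K → α) :
    EA μ (A.erase a) F y = EA μ (A.erase b) F (y ∘ Equiv.swap a b) := by
  unfold EA
  refine Fintype.sum_equiv (Equiv.arrowCongr (Equiv.swap a b) (Equiv.refl α)) _ _ fun u => ?_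
  have e : (Equiv.arrowCongr (Equiv.swap a b) (Equiv.refl α)) u = u ∘ Equiv.swap a b := by
    funext i; simp [Equiv.arrowCongr_apply]
  rw [e]
  congr 1
  · unfold pm
    exact (Equiv.prod_comp (Equiv.swap a b) (fun i => μ (u i))).symm
  · rw [← hF (Equiv.swap a b)]
    congr 1
    funext i
    have : Equiv.swap a b i ∈ A.erase a ↔ i ∈ A.erase b := by
      by_cases h1 : i = a
      · subst h1
        by_cases h2 : i = b
        · subst h2; simp
        · simp [ha, hb, h2, Ne.symm h2]
      · by_cases h2 : i = b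
        · subst h2; simp
        · simp [Equiv.swap_apply_of_ne_of_ne h1 h2, h1, h2]
    simp only [Function.comp, this]

end PEN

open PEN in
theorem PEN_proof (hPea : PeaStmt) (hPab : PabStmt) : PenStmt := by
  intro α _ _ K μ P Γ hK hΓ A F a b hF hab ha hb
  obtain ⟨⟨s1, hpos⟩, e2, -, -, -, e6, -, e8, e9⟩ := hPea α K μ hK.prob
  obtain ⟨-, p2, -, -⟩ := hPab α K μ P Γ hK a b hab
  have h1 := hK.prob.2
  set G := EA μ A F with hG
  set Ga := EA μ (A.erase a) F with hGa
  set Gb := EA μ (A.erase b) F with hGb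
  set Gc := EA μ ((A.erase a).erase b) F with hGc
  set h : (Fin K → α) → ℝ := fun x => G x - Ga x - Gb x + Gc x with hh
  set S : (Fin K → α) → ℝ := fun x => Ga x + Gb x - Gc x with hS
  let g : (Fin K → α) → α → ℝ := fun x t => Gb (Function.update x a t)
  have gb : ∀ x z, Gb (up2 x a b z) = g x z.1 := by
    intro x z
    refine (e6 (A.erase b) F).1 _ _ fun i hi => ?_
    have hib := (mem_erase.1 hi).1
    by_cases hia : i = a
    · subst hia; rw [up2_a _ hab, Function.update_self]
    · rw [up2_o _ hia hib, Function.update_of_ne hia]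
  have ga : ∀ x z, Ga (up2 x a b z) = g x z.2 := by
    intro x z
    rw [hGa, EA_swap μ A hF ha hb]
    refine (e6 (A.erase b) F).1 _ _ fun i hi => ?_
    have hib := (mem_erase.1 hi).1
    by_cases hia : i = a
    · subst hia
      rw [Function.comp_apply, Equiv.swap_apply_left, up2_b, Function.update_self]
    · rw [Function.comp_apply, Equiv.swap_apply_of_ne_of_ne hia hib, up2_o _ hia hib,
        Function.update_of_ne hia]
  have gc : ∀ x z, Gc (up2 x a b z) = Gc x := by
    intro x z
    refine (e6 ((A.erase a).erase b) F).1 _ _ fun i hi => ?_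
    exact up2_o _ (mem_erase.1 (mem_erase.1 hi).2).1 (mem_erase.1 hi).1 z
  have one : ∀ ψ : α → ℝ, ∑ y : Fin K → α, pm μ y * ψ (y a) = ∑ t, μ t * ψ t := by
    intro ψ
    rw [e9 a b (fun y => ψ (y a)) hab]
    simp only [up2_a _ hab, sum_pair h1, ← sum_mul, s1, one_mul]
  have mean : ∀ x, ∑ t, μ t * g x t = Gc x := by
    intro x
    have e : (univ.erase a) ∩ (A.erase b) = (A.erase a).erase b := by
      ext i; simp only [mem_inter, mem_erase, mem_univ]; tauto
    rw [hGc, ← e, ← e2, ← one (g x)]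
    refine sum_congr rfl fun y _ => ?_
    congr 1
    show Gb (Function.update x a (y a)) = Gb _
    congr 1
    funext i
    by_cases hia : i = a
    · subst hia; simp
    · simp [hia]
  have nb : nr μ Gb = ∑ x, pm μ x * ∑ t, μ t * g x t ^ 2 := by
    unfold nr
    rw [e9 a b (fun y => Gb y ^ 2) hab]
    refine sum_congr rfl fun x _ => ?_
    simp only [gb]
    rw [sum_pair h1 (fun t => g x t ^ 2)]
  have dS : Dab μ P a b S = ∑ x, pm μ x * ∑ z : α × α, ∑ z' : α × α,
      μ z.1 * μ z.2 * P z z' * (g x z.1 + g x z.2 - g x z'.1 - g x z'.2) ^ 2 := by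
    unfold Dab
    rw [e9 a b _ hab]
    refine sum_congr rfl fun x _ => ?_
    congr 1
    refine sum_congr rfl fun z _ => ?_
    rw [mul_sum]
    refine sum_congr rfl fun z' _ => ?_
    simp only [hS, up2_a _ hab, up2_b, up2_up2 _ hab, ga, gb, gc]
    ring
  have k1 : nr μ Gb - nr μ Gc ≤ Γ * Dab μ P a b S := by
    rw [nb, dS, mul_sum]
    unfold nr
    rw [← sum_sub_distrib]
    refine sum_le_sum fun x _ => ?_
    have := mul_le_mul_of_nonneg_left (hK.li (g x)) (hpos x).le
    rw [mean] at this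
    linarith
  have k2 : Dab μ P a b S ≤ 2 * Dab μ P a b G + 2 * Dab μ P a b h := by
    unfold Dab
    rw [mul_sum, mul_sum, ← sum_add_distrib]
    refine sum_le_sum fun x _ => ?_
    have : ∑ z, P (x a, x b) z * (S x - S (up2 x a b z)) ^ 2 ≤
        2 * ∑ z, P (x a, x b) z * (G x - G (up2 x a b z)) ^ 2 +
          2 * ∑ z, P (x a, x b) z * (h x - h (up2 x a b z)) ^ 2 := by
      rw [mul_sum, mul_sum, ← sum_add_distrib]
      refine sum_le_sum fun z _ => ?_
      have e : S x - S (up2 x a b z) = (G x - G (up2 x a b z)) - (h x - h (up2 x a b z)) := by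
        simp only [hS, hh]; ring
      rw [e]
      have := mul_nonneg (hK.nn (x a, x b) z)
        (sq_nonneg ((G x - G (up2 x a b z)) + (h x - h (up2 x a b z))))
      nlinarith
    have := mul_le_mul_of_nonneg_left this (hpos x).le
    linarith
  have k3 := (p2 h).2.2
  have k4 : nr μ h = nr μ G - nr μ Ga - nr μ Gb + nr μ Gc := e8 A F a b
  rw [← k4]
  have := mul_le_mul_of_nonneg_left (k2.trans (by linarith :
    2 * Dab μ P a b G + 2 * Dab μ P a b h ≤ 2 * Dab μ P a b G + 4 * nr μ h)) hΓ
  linarith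

end Crest.Agent.R304
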