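import Crest.Agent.R304.DefsP

set_option autoImplicit false

namespace Crest.Agent.R304

open Finset

namespace PNUM

/-- shifting a geometric sum -/
theorem shift (f : ℕ → ℝ) (q : ℝ) (hq : 0 < q) (d : ℕ) (h0 : 0 ≤ f 0) :
    ∑ i ∈ range (d + 1), q⁻¹ ^ i * f (i + 1) ≤
      q * ∑ i ∈ range (d + 1), q⁻¹ ^ i * f i + q⁻¹ ^ d * f (d + 1) := by
  have h : ∀ n : ℕ, ∑ i ∈ range (n + 1), q⁻¹ ^ i * f (i + 1) =
      q * ∑ i ∈ range (n + 1), q⁻¹ ^ i * f i + q⁻¹ ^ n * f (n + 1) - q * f 0 := by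
    intro n
    induction n with
    | zero => simp
    | succ n ih =>
      rw [Finset.sum_range_succ, ih, Finset.sum_range_succ _ (n + 1)]
      have : q * (q⁻¹ ^ (n + 1) * f (n + 1)) = q⁻¹ ^ n * f (n + 1) := by
        rw [pow_succ]; field_simp
      rw [mul_add, this]; ring
  rw [h]
  have := mul_nonneg hq.le h0
  linarith

theorem tele (m n : ℕ) : ∑ i ∈ range n, (1 : ℝ) / (((m + i : ℕ) + 2) * ((m + i : ℕ) + 1)) ≤
    1 / (m + 1) - 1 / (m + n + 1) := by
  induction n with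
  | zero => simp
  | succ n ih =>
    rw [Finset.sum_range_succ]
    have : (1 : ℝ) / (((m + n : ℕ) + 2) * ((m + n : ℕ) + 1)) =
        1 / (m + n + 1) - 1 / (m + (n + 1 : ℕ) + 1) := by
      push_cast; field_simp; ring
    rw [this]; linarith

noncomputable def U (q : ℝ) (m d : ℕ) (v : ℕ → ℝ) : ℝ :=
  ∑ i ∈ range (d + 1), q⁻¹ ^ i * ((v (m + i + 2) - 1) / (((m + i : ℕ) + 2) * ((m + i : ℕ) + 1)))

theorem mono (v : ℕ → ℝ) (h : ∀ j, v j ≤ v (j + 1)) : Monotone v := monotone_nat_of_le_succ h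

theorem conv (v : ℕ → ℝ) (K : ℕ)
    (hc : ∀ j, j + 2 ≤ K → v (j + 1) - v j ≤ v (j + 2) - v (j + 1)) (j : ℕ) (hj : j + 1 ≤ K) :
    v (j + 1) - v 0 ≤ (j + 1) * (v (j + 1) - v j) := by
  induction j with
  | zero => simp
  | succ j ih =>
    have h1 := ih (by omega)
    have h2 := hc j hj
    have h3 : ((j : ℝ) + 1) * (v (j + 1) - v j) ≤ (j + 1) * (v (j + 2) - v (j + 1)) :=
      mul_le_mul_of_nonneg_left h2 (by positivity)
    push_cast
    have h4 : v (j + 1 + 1) = v (j + 2) := rfl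
    rw [h4]
    nlinarith

theorem step (v v' : ℕ → ℝ) (K m d : ℕ) (p Γ V : ℝ) (hΓ : 1 ≤ Γ) (hp : 0 < p)
    (hK : m + 2 + d + 1 ≤ K) (h64 : 64 * Γ * (K - (m + 2 : ℕ)) ≤ (m + 2 : ℕ) - 1)
    (h0 : v 0 = 1) (hV : v K ≤ V) (hm : ∀ j, v j ≤ v (j + 1))
    (hc : ∀ j, j + 2 ≤ K → v (j + 1) - v j ≤ v (j + 2) - v (j + 1)) (hR : Rec K p Γ v v') :
    U (1 + 1 / (16 * Γ)) m d v' ≤ (1 - p * (m + 2 : ℕ) / (24 * Γ)) * U (1 + 1 / (16 * Γ)) m d v +
      3 * p * ((1 + 1 / (16 * Γ))⁻¹ ^ d * V) := by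
  set α : ℝ := 1 / (4 * Γ) with hα
  have hΓ0 : 0 < Γ := by linarith
  have hα0 : 0 < α := by positivity
  have hα1 : α ≤ 1 / 4 := by
    rw [hα]; apply one_div_le_one_div_of_le (by norm_num); linarith
  have hq' : 1 + 1 / (16 * Γ) = 1 + α / 4 := by rw [hα]; field_simp; ring
  have hl' : p * (m + 2 : ℕ) / (24 * Γ) = p * α * (m + 2 : ℕ) / 6 := by rw [hα]; field_simp; ring
  rw [hq', hl']
  set q : ℝ := 1 + α / 4 with hq
  have hq0 : 0 < q := by positivity
  have hmono := mono v hm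
  set Δ : ℕ → ℝ := fun j => v (j + 1) - v j with hΔ
  have hΔ0 : ∀ j, 0 ≤ Δ j := fun j => by simp only [hΔ]; linarith [hm j]
  have hΔV : ∀ j, j + 1 ≤ K → Δ j ≤ V := by
    intro j hj
    have h1 := hmono hj
    have h2 := hmono (Nat.zero_le j)
    simp only [hΔ]; linarith
  have hV0 : 0 ≤ V := by
    have := hmono (Nat.zero_le K); linarith
  set c : ℝ := q⁻¹ ^ d with hcdef
  have hc0 : 0 < c := by positivity
  set S : ℝ := ∑ i ∈ range (d + 1), q⁻¹ ^ i * Δ (m + i) with hS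
  set S₁ : ℝ := ∑ i ∈ range (d + 1), q⁻¹ ^ i * Δ (m + i + 1) with hS₁
  set S₂ : ℝ := ∑ i ∈ range (d + 1), q⁻¹ ^ i * Δ (m + i + 2) with hS₂
  have hS0 : 0 ≤ S := Finset.sum_nonneg (fun i _ => mul_nonneg (by positivity) (hΔ0 _))
  have h1 : S₁ ≤ q * S + c * V := by
    have h := shift (fun i => Δ (m + i)) q hq0 d (hΔ0 _)
    have h' : c * Δ (m + (d + 1)) ≤ c * V := mul_le_mul_of_nonneg_left (hΔV _ (by omega)) hc0.le
    exact h.trans (by linarith)
  have h2 : S₂ ≤ q * S₁ + c * V := by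
    have h := shift (fun i => Δ (m + i + 1)) q hq0 d (hΔ0 _)
    have h' : c * Δ (m + (d + 1) + 1) ≤ c * V :=
      mul_le_mul_of_nonneg_left (hΔV _ (by omega)) hc0.le
    exact h.trans (by linarith)
  have hA : U q m d v' ≤ U q m d v - p * ((1 + α) * S - S₁) + p * (α / 8) * S₂ := by
    unfold U
    rw [hS, hS₁, hS₂, Finset.mul_sum, ← Finset.sum_sub_distrib, Finset.mul_sum, Finset.mul_sum,
      ← Finset.sum_sub_distrib, ← Finset.sum_add_distrib]
    refine Finset.sum_le_sum (fun i hi => ?_)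
    have hi' : i ≤ d := Nat.lt_succ_iff.1 (Finset.mem_range.1 hi)
    have hr := hR (m + i) (by omega)
    set j : ℕ := m + i with hj
    have hj0 : (0 : ℝ) ≤ j := by positivity
    have hD : (0 : ℝ) < ((j : ℝ) + 2) * (j + 1) := by positivity
    have hb : 2 * ((K : ℝ) - (j + 2)) ≤ α / 8 * (j + 1) := by
      have h3 : (m : ℝ) ≤ j := by rw [hj]; push_cast; linarith [Nat.cast_nonneg (α := ℝ) i]
      have h4 : α / 8 = 1 / (32 * Γ) := by rw [hα]; field_simp; ring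
      rw [h4, one_div, ← div_eq_inv_mul, le_div_iff₀ (by positivity)]
      push_cast at h64
      nlinarith
    have hb' : 2 * p * (j + 2) * (K - (j + 2)) * Δ (j + 2) ≤
        p * (α / 8) * Δ (j + 2) * (((j : ℝ) + 2) * (j + 1)) := by
      have h5 : 0 ≤ p * (j + 2) * Δ (j + 2) := mul_nonneg (by positivity) (hΔ0 _)
      have := mul_le_mul_of_nonneg_left hb h5
      nlinarith
    have hkey : (v' (j + 2) - 1) / (((j : ℝ) + 2) * (j + 1)) ≤
        (v (j + 2) - 1) / (((j : ℝ) + 2) * (j + 1)) - p * ((1 + α) * Δ j - Δ (j + 1)) +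
          p * (α / 8) * Δ (j + 2) := by
      rw [div_le_iff₀ hD]
      have h6 : ((v (j + 2) - 1) / (((j : ℝ) + 2) * (j + 1)) - p * ((1 + α) * Δ j - Δ (j + 1)) +
          p * (α / 8) * Δ (j + 2)) * (((j : ℝ) + 2) * (j + 1)) =
          (v (j + 2) - 1) - p * (((j : ℝ) + 2) * (j + 1)) * ((1 + α) * Δ j - Δ (j + 1)) +
            p * (α / 8) * Δ (j + 2) * (((j : ℝ) + 2) * (j + 1)) := by
        field_simp
      rw [h6]
      simp only [hΔ] at hb' ⊢
      linarith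
    have := mul_le_mul_of_nonneg_left hkey (show (0 : ℝ) ≤ q⁻¹ ^ i by positivity)
    refine this.trans (le_of_eq ?_)
    ring
  have hB : ((m + 2 : ℕ) : ℝ) * U q m d v ≤ S + S₁ := by
    unfold U
    rw [hS, hS₁, Finset.mul_sum, ← Finset.sum_add_distrib]
    refine Finset.sum_le_sum (fun i hi => ?_)
    have hi' : i ≤ d := Nat.lt_succ_iff.1 (Finset.mem_range.1 hi)
    have hcv := conv v K hc (m + i) (by omega)
    set j : ℕ := m + i with hj
    have hj0 : (0 : ℝ) ≤ j := by positivity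
    have hD : (0 : ℝ) < ((j : ℝ) + 2) * (j + 1) := by positivity
    have h3 : (m : ℝ) ≤ j := by rw [hj]; push_cast; linarith [Nat.cast_nonneg (α := ℝ) i]
    have hd0 := hΔ0 j
    have hd1 := hΔ0 (j + 1)
    have h7 : v (j + 2) - 1 ≤ (j + 1) * Δ j + Δ (j + 1) := by
      simp only [hΔ]; rw [h0] at hcv; linarith
    have h8 : 0 ≤ v (j + 2) - 1 := by
      have := hmono (Nat.zero_le (j + 2)); linarith
    have hkey : ((m + 2 : ℕ) : ℝ) * ((v (j + 2) - 1) / (((j : ℝ) + 2) * (j + 1))) ≤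
        Δ j + Δ (j + 1) := by
      rw [← mul_div_assoc, div_le_iff₀ hD]
      push_cast
      have h9 : ((m : ℝ) + 2) * (v (j + 2) - 1) ≤ (j + 2) * ((j + 1) * Δ j + Δ (j + 1)) :=
        mul_le_mul (by linarith) h7 h8 (by positivity)
      have h10 : 0 ≤ ((j : ℝ) + 2) * j * Δ (j + 1) := by positivity
      nlinarith
    have := mul_le_mul_of_nonneg_left hkey (show (0 : ℝ) ≤ q⁻¹ ^ i by positivity)
    refine le_trans (le_of_eq ?_) (this.trans (le_of_eq ?_)) <;> ring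
  set W := c * V with hW
  have hW0 : 0 ≤ W := by positivity
  set u := U q m d v
  set k₀ : ℝ := ((m + 2 : ℕ) : ℝ)
  have hq1 : q ≤ 17 / 16 := by rw [hq]; linarith
  have h3 : S₂ ≤ q * (q * S + W) + W := h2.trans (by
    have := mul_le_mul_of_nonneg_left h1 hq0.le
    linarith)
  have hqq : q * q ≤ 2 := by nlinarith
  have h4 : S₂ ≤ 2 * S + 3 * W := by
    have h5 : q * q * S ≤ 2 * S := mul_le_mul_of_nonneg_right hqq hS0
    have h6 : q * W ≤ 2 * W := mul_le_mul_of_nonneg_right (by linarith) hW0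
    nlinarith
  have h5 : k₀ * u ≤ 3 * S + W := by
    have h6 : q * S ≤ 2 * S := mul_le_mul_of_nonneg_right (by linarith) hS0
    linarith
  have h6 : -((1 + α) * S - S₁) + α / 8 * S₂ ≤ -(α * (k₀ * u) / 6) + 3 * W := by
    have h7 : α / 8 * S₂ ≤ α / 8 * (2 * S + 3 * W) := mul_le_mul_of_nonneg_left h4 (by positivity)
    have h8 : α * (k₀ * u) ≤ α * (3 * S + W) := mul_le_mul_of_nonneg_left h5 hα0.le
    have h9 : α * W ≤ 1 / 4 * W := mul_le_mul_of_nonneg_right hα1 hW0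
    rw [hq] at h1
    nlinarith
  have h7 := mul_le_mul_of_nonneg_left h6 hp.le
  nlinarith

end PNUM

open PNUM in
theorem PNUM_proof : PnumStmt := by
  intro v K k₀ d T p Γ V hΓ hp hpK hk₀ hK h64 h0 hm hc hR
  obtain ⟨m, rfl⟩ : ∃ m, k₀ = m + 2 := ⟨k₀ - 2, by omega⟩
  have hΓ0 : 0 < Γ := by linarith
  set q : ℝ := 1 + 1 / (16 * Γ) with hq
  have hq1 : 1 ≤ q := by rw [hq]; linarith [show (0 : ℝ) < 1 / (16 * Γ) by positivity]
  have hq0 : 0 < q := by linarith
  set l : ℝ := p * (m + 2 : ℕ) / (24 * Γ) with hl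
  have hl0 : 0 < l := by positivity
  have hkK : ((m + 2 : ℕ) : ℝ) ≤ K := by exact_mod_cast (by omega : m + 2 ≤ K)
  have hk2 : (2 : ℝ) ≤ ((m + 2 : ℕ) : ℝ) := by exact_mod_cast hk₀
  have hl1 : l ≤ 1 := by
    rw [hl, div_le_one (by positivity)]
    have : p * ((m + 2 : ℕ) : ℝ) ≤ p * (K : ℝ) ^ 2 :=
      mul_le_mul_of_nonneg_left (by nlinarith) hp.le
    linarith
  have hV1 : 1 ≤ V := by
    have := mono (v 0) (hm 0) (Nat.zero_le K)
    linarith [(h0 0).1, (h0 0).2]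
  set W : ℝ := q⁻¹ ^ d * V with hW
  have hW0 : 0 ≤ W := by positivity
  have hU0 : U q m d (v 0) ≤ V := by
    have h1 : U q m d (v 0) ≤
        ∑ i ∈ range (d + 1), V * ((1 : ℝ) / (((m + i : ℕ) + 2) * ((m + i : ℕ) + 1))) := by
      unfold U
      refine Finset.sum_le_sum (fun i hi => ?_)
      have hi' : i ≤ d := Nat.lt_succ_iff.1 (Finset.mem_range.1 hi)
      have h2 := mono (v 0) (hm 0) (show m + i + 2 ≤ K by omega)
      have h3 := mono (v 0) (hm 0) (Nat.zero_le (m + i + 2))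
      have h4 : q⁻¹ ^ i ≤ 1 := pow_le_one₀ (by positivity) (inv_le_one_of_one_le₀ hq1)
      have h5 : 0 ≤ v 0 (m + i + 2) - 1 := by linarith [(h0 0).1]
      calc _ ≤ 1 * ((v 0 (m + i + 2) - 1) / (((m + i : ℕ) + 2) * ((m + i : ℕ) + 1))) :=
            mul_le_mul_of_nonneg_right h4 (by positivity)
        _ ≤ _ := by
            rw [one_mul, mul_one_div]
            apply div_le_div_of_nonneg_right _ (by positivity)
            linarith [(h0 0).2]
    rw [← Finset.mul_sum] at h1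
    have h2 := tele m (d + 1)
    have h3 : (1 : ℝ) / (m + 1) ≤ 1 := by
      rw [div_le_one (by positivity)]; linarith [Nat.cast_nonneg (α := ℝ) m]
    have h4 : (0 : ℝ) ≤ 1 / (m + (d + 1 : ℕ) + 1) := by positivity
    have h5 := mul_le_mul_of_nonneg_left (h2.trans (show _ ≤ (1 : ℝ) by linarith))
      (show 0 ≤ V by linarith)
    linarith
  have hind : ∀ t : ℕ, U q m d (v t) ≤ (1 - l) ^ t * V + 36 * Γ * W := by
    intro t
    induction t with
    | zero =>
      have : 0 ≤ 36 * Γ * W := by positivity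
      simp only [pow_zero, one_mul]; linarith
    | succ t ih =>
      have h1 := step (v t) (v (t + 1)) K m d p Γ V hΓ hp hK h64 (h0 t).1 (h0 t).2 (hm t) (hc t)
        (hR t)
      have h2 := mul_le_mul_of_nonneg_left ih (show 0 ≤ 1 - l by linarith)
      have h3 : 3 * p * W ≤ l * (36 * Γ * W) := by
        have h4 : l * (36 * Γ * W) = 3 / 2 * ((m + 2 : ℕ) : ℝ) * (p * W) := by
          rw [hl]; field_simp; ring
        have h5 : 0 ≤ p * W := by positivity
        rw [h4]; nlinarith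
      rw [pow_succ]
      nlinarith
  have hT := hind T
  have hlow : v T (m + 2) - 1 ≤ (K : ℝ) ^ 2 * U q m d (v T) := by
    have hnn : ∀ i ∈ range (d + 1), 0 ≤ q⁻¹ ^ i *
        ((v T (m + i + 2) - 1) / (((m + i : ℕ) + 2) * ((m + i : ℕ) + 1))) := by
      intro i _
      have h3 := mono (v T) (hm T) (Nat.zero_le (m + i + 2))
      have h5 : 0 ≤ v T (m + i + 2) - 1 := by linarith [(h0 T).1]
      positivity
    have h1 := Finset.single_le_sum hnn (Finset.mem_range.2 (Nat.succ_pos d))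
    simp only [pow_zero, one_mul, add_zero] at h1
    have hD : (0 : ℝ) < ((m : ℝ) + 2) * (m + 1) := by positivity
    rw [div_le_iff₀ hD] at h1
    have hU : 0 ≤ U q m d (v T) := Finset.sum_nonneg hnn
    have h2 : ((m : ℝ) + 2) * (m + 1) ≤ (K : ℝ) ^ 2 := by
      push_cast at hkK
      nlinarith [Nat.cast_nonneg (α := ℝ) m]
    calc _ ≤ U q m d (v T) * (((m : ℝ) + 2) * (m + 1)) := h1
      _ ≤ U q m d (v T) * (K : ℝ) ^ 2 := mul_le_mul_of_nonneg_left h2 hU
      _ = _ := by ring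
  have he1 : (1 - l) ^ T ≤ Real.exp (-(p * (m + 2 : ℕ) * T / (24 * Γ))) := by
    have h1 : 1 - l ≤ Real.exp (-l) := by linarith [Real.add_one_le_exp (-l)]
    calc (1 - l) ^ T ≤ Real.exp (-l) ^ T := pow_le_pow_left₀ (by linarith) h1 T
      _ = _ := by rw [← Real.exp_nat_mul, hl]; congr 1; ring
  have he2 : q⁻¹ ^ d ≤ Real.exp (-(d / (32 * Γ))) := by
    set x : ℝ := 1 / (32 * Γ) with hx
    have hx0 : 0 < x := by positivity
    have hx1 : x ≤ 1 / 32 := by
      rw [hx]; apply one_div_le_one_div_of_le (by norm_num); linarith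
    have hqx : q = 1 + 2 * x := by rw [hq, hx]; field_simp; ring
    have h1 : q⁻¹ ≤ Real.exp (-x) := by
      have h2 : q⁻¹ ≤ 1 - x := by
        rw [inv_le_iff_one_le_mul₀ hq0, hqx]; nlinarith
      linarith [Real.add_one_le_exp (-x)]
    calc q⁻¹ ^ d ≤ Real.exp (-x) ^ d := pow_le_pow_left₀ (by positivity) h1 d
      _ = _ := by rw [← Real.exp_nat_mul, hx]; congr 1; ring
  have hfin : U q m d (v T) ≤ V * (Real.exp (-(p * (m + 2 : ℕ) * T / (24 * Γ))) +
      72 * Γ * Real.exp (-(d / (32 * Γ)))) := by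
    have h1 := mul_le_mul_of_nonneg_right he1 (show 0 ≤ V by linarith)
    have h2 := mul_le_mul_of_nonneg_right he2 (show 0 ≤ V by linarith)
    have h3 : Γ * W ≤ Γ * (Real.exp (-(d / (32 * Γ))) * V) := mul_le_mul_of_nonneg_left h2 hΓ0.le
    have h4 : 0 ≤ Γ * W := by positivity
    nlinarith
  calc _ ≤ (K : ℝ) ^ 2 * U q m d (v T) := hlow
    _ ≤ (K : ℝ) ^ 2 * (V * (Real.exp (-(p * (m + 2 : ℕ) * T / (24 * Γ))) +
      72 * Γ * Real.exp (-(d / (32 * Γ))))) := mul_le_mul_of_nonneg_left hfin (by positivity)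
    _ = _ := by ring

end Crest.Agent.R304
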