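import Crest.Agent.R304.DefsP

set_option autoImplicit false

namespace Crest.Agent.R304

open Finset

namespace POP

lemma pm_sum {α : Type} [Fintype α] [DecidableEq α] (K : ℕ) (f : α → ℝ) :
    ∑ x : Fin K → α, pm f x = (∑ a, f a) ^ K := by
  unfold pm
  have := Finset.prod_univ_sum (fun _ : Fin K => (univ : Finset α)) (fun _ a => f a)
  rw [Fintype.piFinset_univ] at this
  rw [← this]; simp

end POP

theorem POP_proof (hPea : PeaStmt) (hPst : PstStmt) (hPnum : PnumStmt) : PopStmt := by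
  intro α _ _ K k₀ d T μ ν P Γ p χ hK hΓ hp hpK hk₀ hd h64 hν hχ hχ0 hχK φ hφ hdep
  obtain ⟨⟨hs1, hpos⟩, -, hadjE, -, huniv, hfix, hsub, -, -⟩ := hPea α K μ hK.prob
  obtain ⟨hadj, hF⟩ := hPst α K μ P Γ p hK hΓ hp.le hpK
  have hμ := hK.prob.1
  set F₀ : (Fin K → α) → ℝ := fun x => ∏ i, ν (x i) / μ (x i) with hF₀
  have hmul : ∀ x, pm μ x * F₀ x = pm ν x := by
    intro x
    simp only [pm, hF₀]
    rw [← prod_mul_distrib]
    exact prod_congr rfl fun i _ => by field_simp [(hμ (x i)).ne']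
  have hsym0 : Sym F₀ := by
    intro π x
    simp only [hF₀, Function.comp]
    exact Equiv.prod_comp π (fun i => ν (x i) / μ (x i))
  have hmean0 : ∑ x, pm μ x * F₀ x = 1 := by
    simp only [hmul]; rw [POP.pm_sum, hν, one_pow]
  have hnr0 : nr μ F₀ ≤ 3 := by
    have e : nr μ F₀ = (∑ a, ν a ^ 2 / μ a) ^ K := by
      rw [← POP.pm_sum]
      unfold nr
      refine sum_congr rfl fun x _ => ?_
      simp only [pm, hF₀]
      rw [← prod_pow, ← prod_mul_distrib]
      exact prod_congr rfl fun i _ => by field_simp [(hμ (x i)).ne']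
    have h0 : 0 ≤ ∑ a, ν a ^ 2 / μ a :=
      sum_nonneg fun a _ => div_nonneg (sq_nonneg _) (hμ a).le
    rw [e]
    calc (∑ a, ν a ^ 2 / μ a) ^ K ≤ Real.exp χ ^ K :=
          pow_le_pow_left₀ h0 (by linarith [Real.add_one_le_exp χ]) K
      _ = Real.exp (χ * K) := by rw [← Real.exp_nat_mul, mul_comm]
      _ ≤ Real.exp 1 := Real.exp_le_exp.2 hχK
      _ ≤ 3 := by linarith [Real.exp_one_lt_d9]
  set F : ℕ → (Fin K → α) → ℝ := fun t => (PK P p)^[t] F₀ with hFt
  have hsucc : ∀ t, F (t + 1) = PK P p (F t) := fun t => Function.iterate_succ_apply' _ _ _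
  have hinv : ∀ t, Sym (F t) ∧ ∑ x, pm μ x * F t x = 1 ∧ nr μ (F t) ≤ 3 := by
    intro t
    induction t with
    | zero => exact ⟨hsym0, hmean0, hnr0⟩
    | succ t ih =>
      obtain ⟨h1, h2, h3, -⟩ := hF (F t) ih.1
      rw [hsucc]
      exact ⟨h1, h2.trans ih.2.1, h3.trans ih.2.2⟩
  have hnum := hPnum (fun t => vk μ (F t)) K k₀ d T p Γ 3 hΓ hp hpK hk₀ hd h64
    (fun t => by
      obtain ⟨-, -, -, h4, h5, -⟩ := hF (F t) (hinv t).1
      exact ⟨by rw [h4, (hinv t).2.1, one_pow], by rw [h5]; exact (hinv t).2.2⟩)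
    (fun t => (hF (F t) (hinv t).1).2.2.2.2.2.1)
    (fun t => (hF (F t) (hinv t).1).2.2.2.2.2.2.1)
    (fun t => by
      have := (hF (F t) (hinv t).1).2.2.2.2.2.2.2
      rw [hsucc]; exact this)
  have hiter : ∀ (t : ℕ) (G ψ : (Fin K → α) → ℝ),
      ∑ x, pm μ x * (G x * (PK P p)^[t] ψ x) = ∑ x, pm μ x * ((PK P p)^[t] G x * ψ x) := by
    intro t
    induction t with
    | zero => intro G ψ; rfl
    | succ t ih =>
      intro G ψ
      rw [Function.iterate_succ_apply', ← hadj, ih, Function.iterate_succ_apply]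
  set A : Finset (Fin K) := univ.filter (fun i : Fin K => i.val < k₀) with hA
  have hφA : EA μ A φ = φ := (hfix A φ).2 (fun x y h => hdep x y (fun i hi => h i (by simp [hA, hi])))
  have e1 : ∑ x, pm ν x * (PK P p)^[T] φ x = ∑ x, pm μ x * (EA μ A (F T) x * φ x) := by
    rw [hadjE, hφA]
    simp only [hFt]
    rw [← hiter]
    exact sum_congr rfl fun x _ => by rw [← hmul]; ring
  have hE0 : ∀ x, EA μ ∅ (F T) x = 1 := fun x => by rw [(huniv (F T)).2 x, (hinv T).2.1]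
  have e2 : ∑ x, pm μ x * (EA μ A (F T) x - 1) ^ 2 = vk μ (F T) k₀ - 1 := by
    have h := (hsub ∅ A (F T) (empty_subset _)).2
    have h1 : nr μ (EA μ ∅ (F T)) = 1 := by
      unfold nr; simp only [hE0, one_pow, mul_one]; exact hs1
    rw [h1] at h
    simp only [hE0] at h
    exact h
  have e3 : ∑ x, pm ν x * (PK P p)^[T] φ x - ∑ x, pm μ x * φ x
      = ∑ x, pm μ x * ((EA μ A (F T) x - 1) * φ x) := by
    rw [e1, ← sum_sub_distrib]
    exact sum_congr rfl fun x _ => by ring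
  have hcs : (∑ x, pm μ x * ((EA μ A (F T) x - 1) * φ x)) ^ 2
      ≤ (∑ x : Fin K → α, pm μ x) * ∑ x, pm μ x * (EA μ A (F T) x - 1) ^ 2 := by
    refine sum_sq_le_sum_mul_sum_of_sq_le_mul _ (fun x _ => (hpos x).le)
      (fun x _ => mul_nonneg (hpos x).le (sq_nonneg _)) (fun x _ => ?_)
    have h1 : φ x ^ 2 ≤ 1 := by
      have := hφ x
      rw [← sq_abs]; nlinarith [abs_nonneg (φ x)]
    have h2 : 0 ≤ pm μ x * (pm μ x * (EA μ A (F T) x - 1) ^ 2) :=
      mul_nonneg (hpos x).le (mul_nonneg (hpos x).le (sq_nonneg _))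
    calc (pm μ x * ((EA μ A (F T) x - 1) * φ x)) ^ 2
        = pm μ x * (pm μ x * (EA μ A (F T) x - 1) ^ 2) * φ x ^ 2 := by ring
      _ ≤ _ := mul_le_of_le_one_right h2 h1
  rw [e3]
  rw [hs1, one_mul, e2] at hcs
  refine hcs.trans (hnum.trans (le_of_eq ?_))
  ring

end Crest.Agent.R304
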