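import Crest.Agent.R304.DefsP

/-!
Row 304 (S0464), task PST: one step of the population kernel.
-/

set_option autoImplicit false

namespace Crest.Agent.R304

open Finset

namespace PST

theorem conv {ι : Type} (s : Finset ι) (l h : ι → ℝ) (f : ℝ) (hl : ∀ i ∈ s, 0 ≤ l i)
    (hs : ∑ i ∈ s, l i ≤ 1) :
    (f + ∑ i ∈ s, l i * (h i - f)) ^ 2 ≤ f ^ 2 + ∑ i ∈ s, l i * (h i ^ 2 - f ^ 2) := by
  set d := ∑ i ∈ s, l i * (h i - f) with hd
  have h1 : ∑ i ∈ s, (2 * (f + d) * (l i * (h i - f)) - l i * d ^ 2) ≤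
      ∑ i ∈ s, l i * (h i ^ 2 - f ^ 2) := by
    refine sum_le_sum fun i hi => ?_
    have := mul_nonneg (hl i hi) (sq_nonneg (h i - (f + d)))
    nlinarith
  rw [sum_sub_distrib, ← mul_sum, ← sum_mul, ← hd] at h1
  have := mul_le_mul_of_nonneg_right hs (sq_nonneg d)
  nlinarith

variable {α : Type} [Fintype α] [DecidableEq α] {K : ℕ}

/-- the probability of a pair -/
def lam (p : ℝ) (i : Fin K × Fin K) : ℝ := if i.1 = i.2 then 0 else p

theorem lam_nn {p : ℝ} (hp : 0 ≤ p) (i : Fin K × Fin K) : 0 ≤ lam p i := by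
  unfold lam; split_ifs
  · exact le_rfl
  · exact hp

theorem lam_sum {p : ℝ} (hp : 0 ≤ p) (hK : p * (K : ℝ) ^ 2 ≤ 1) :
    ∑ i : Fin K × Fin K, lam p i ≤ 1 := by
  refine le_trans (sum_le_sum (g := fun _ => p) fun i _ => ?_) ?_
  · unfold lam; split_ifs
    · exact hp
    · exact le_rfl
  · simp only [sum_const, card_univ, Fintype.card_prod, Fintype.card_fin, nsmul_eq_mul]
    push_cast
    nlinarith

omit [DecidableEq α] in
theorem PK_eq (P : α × α → α × α → ℝ) (p : ℝ) (F : (Fin K → α) → ℝ) :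
    PK P p F = fun x => F x + ∑ i : Fin K × Fin K, lam p i * (Pab P i.1 i.2 F x - F x) := by
  funext x
  rw [PK, Fintype.sum_prod_type, mul_sum]
  congr 1
  refine sum_congr rfl fun a _ => ?_
  rw [mul_sum]
  refine sum_congr rfl fun b _ => ?_
  unfold lam
  split_ifs <;> simp

omit [DecidableEq α] in
theorem EA_comb {ι : Type} [Fintype ι] (μ : α → ℝ) (A : Finset (Fin K)) (l : ι → ℝ)
    (F : (Fin K → α) → ℝ) (H : ι → (Fin K → α) → ℝ) :
    EA μ A (fun x => F x + ∑ i, l i * (H i x - F x)) =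
      fun x => EA μ A F x + ∑ i, l i * (EA μ A (H i) x - EA μ A F x) := by
  funext x
  simp only [EA, mul_add, sum_add_distrib, ← sum_sub_distrib, mul_sum]
  congr 1
  rw [sum_comm]
  refine sum_congr rfl fun i _ => sum_congr rfl fun y _ => ?_
  ring

omit [DecidableEq α] in
theorem nr_comb {ι : Type} [Fintype ι] (μ : α → ℝ) (hμ : ∀ x : Fin K → α, 0 < pm μ x) (l : ι → ℝ)
    (hl : ∀ i, 0 ≤ l i) (hs : ∑ i, l i ≤ 1) (F : (Fin K → α) → ℝ) (H : ι → (Fin K → α) → ℝ) :
    nr μ (fun x => F x + ∑ i, l i * (H i x - F x)) ≤ nr μ F + ∑ i, l i * (nr μ (H i) - nr μ F) := by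
  have e : nr μ F + ∑ i, l i * (nr μ (H i) - nr μ F) =
      ∑ x, pm μ x * (F x ^ 2 + ∑ i, l i * (H i x ^ 2 - F x ^ 2)) := by
    simp only [nr, mul_add, sum_add_distrib, ← sum_sub_distrib, mul_sum]
    congr 1
    rw [sum_comm]
    refine sum_congr rfl fun i _ => sum_congr rfl fun y _ => ?_
    ring
  rw [e, nr]
  exact sum_le_sum fun x _ => mul_le_mul_of_nonneg_left
    (conv univ l (fun i => H i x) (F x) (fun i _ => hl i) hs) (hμ x).le

omit [DecidableEq α] in
theorem inner_comb {ι : Type} [Fintype ι] (μ : α → ℝ) (l : ι → ℝ)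
    (F G : (Fin K → α) → ℝ) (H : ι → (Fin K → α) → ℝ) :
    ∑ x, pm μ x * ((F x + ∑ i, l i * (H i x - F x)) * G x) =
      ∑ x, pm μ x * (F x * G x) +
        ∑ i, l i * (∑ x, pm μ x * (H i x * G x) - ∑ x, pm μ x * (F x * G x)) := by
  simp only [add_mul, mul_add, sum_add_distrib, ← sum_sub_distrib, mul_sum, sum_mul]
  congr 1
  rw [sum_comm]
  refine sum_congr rfl fun i _ => sum_congr rfl fun y _ => ?_
  ring

omit [DecidableEq α] in
theorem Pab_perm (P : α × α → α × α → ℝ) (a b : Fin K) (F : (Fin K → α) → ℝ) (hF : Sym F)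
    (π : Equiv.Perm (Fin K)) (x : Fin K → α) :
    Pab P a b F (x ∘ π) = Pab P (π a) (π b) F x := by
  unfold Pab
  refine sum_congr rfl fun z _ => ?_
  have e : up2 (x ∘ π) a b z = up2 x (π a) (π b) z ∘ π := by
    unfold up2
    rw [Function.update_comp_eq_of_injective _ π.injective,
      Function.update_comp_eq_of_injective _ π.injective]
  rw [e, hF]
  rfl

omit [DecidableEq α] in
theorem PK_sym (P : α × α → α × α → ℝ) (p : ℝ) (F : (Fin K → α) → ℝ) (hF : Sym F) :
    Sym (PK P p F) := by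
  intro π x
  unfold PK
  rw [hF π x]
  congr 2
  rw [← Equiv.sum_comp π (fun a => ∑ b, if a = b then 0 else (Pab P a b F x - F x))]
  refine sum_congr rfl fun a _ => ?_
  rw [← Equiv.sum_comp π (fun b => if π a = b then 0 else (Pab P (π a) b F x - F x))]
  refine sum_congr rfl fun b _ => ?_
  rw [Pab_perm P a b F hF π x]
  simp

omit [DecidableEq α] in
theorem nr_nn (μ : α → ℝ) (hμ : ∀ x : Fin K → α, 0 < pm μ x) (F : (Fin K → α) → ℝ) :
    0 ≤ nr μ F := sum_nonneg fun x _ => mul_nonneg (hμ x).le (sq_nonneg _)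

/-- the first `k` replicas -/
def fst (K k : ℕ) : Finset (Fin K) := univ.filter (fun i : Fin K => i.val < k)

theorem card_fst {k : ℕ} (hk : k ≤ K) : (fst K k).card = k := by
  rw [fst, Fin.card_filter_val_lt, min_eq_right hk]

theorem count (A : Finset (Fin K)) (p c₁ c₂ : ℝ) :
    ∑ i : Fin K × Fin K, lam p i *
        (if i.1 ∈ A then (if i.2 ∈ A then c₁ else c₂) else (if i.2 ∈ A then c₂ else 0)) =
      p * (A.card * (A.card - 1)) * c₁ + 2 * p * A.card * (K - A.card) * c₂ := by
  have hc : ((Aᶜ).card : ℝ) = K - A.card := by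
    rw [card_compl, Fintype.card_fin, Nat.cast_sub (by simpa using card_le_univ A)]
  have one : ∀ u v : ℝ, ∑ b : Fin K, (if b ∈ A then u else v) = A.card * u + (K - A.card) * v := by
    intro u v
    have f1 : univ.filter (fun b : Fin K => b ∈ A) = A := by ext; simp
    have f2 : univ.filter (fun b : Fin K => ¬ b ∈ A) = Aᶜ := by ext; simp
    rw [sum_ite, sum_const, sum_const, nsmul_eq_mul, nsmul_eq_mul, ← hc, f1, f2]
  have e : ∀ i : Fin K × Fin K, lam p i *
      (if i.1 ∈ A then (if i.2 ∈ A then c₁ else c₂) else (if i.2 ∈ A then c₂ else 0)) =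
      p * (if i.1 ∈ A then (if i.2 ∈ A then c₁ else c₂) else (if i.2 ∈ A then c₂ else 0)) -
        if i.1 = i.2 then p * (if i.1 ∈ A then c₁ else 0) else 0 := by
    rintro ⟨a, b⟩
    unfold lam
    by_cases h : a = b
    · subst h
      by_cases ha : a ∈ A <;> simp [ha]
    · simp [h]
  simp only [e, sum_sub_distrib, Fintype.sum_prod_type, sum_ite_eq, mem_univ, if_true, ← mul_sum]
  have e2 : ∀ a : Fin K, ∑ b : Fin K,
      (if a ∈ A then (if b ∈ A then c₁ else c₂) else (if b ∈ A then c₂ else 0)) =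
      if a ∈ A then A.card * c₁ + (K - A.card) * c₂ else A.card * c₂ + (K - A.card) * 0 := by
    intro a
    by_cases ha : a ∈ A
    · simp only [ha, if_true, one]
    · simp only [ha, if_false, one]
  simp only [e2, one]
  ring

end PST

open PST in
theorem PST_proof (hPea : PeaStmt) (hPab : PabStmt) (hPen : PenStmt) : PstStmt := by
  intro α _ _ K μ P Γ p hK hΓ hp hpK
  obtain ⟨⟨hsum, hpos⟩, hEE, _, hcard, huniv, _, hmono, hfour, _⟩ := hPea α K μ hK.prob
  have hP := hPab α K μ P Γ hK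
  have hsa : ∀ F G : (Fin K → α) → ℝ,
      ∑ x, pm μ x * (PK P p F x * G x) = ∑ x, pm μ x * (F x * PK P p G x) := by
    intro F G
    have e : ∑ x, pm μ x * (F x * PK P p G x) = ∑ x, pm μ x * (PK P p G x * F x) :=
      sum_congr rfl fun x _ => by ring
    rw [e, PK_eq, PK_eq]
    simp only []
    rw [inner_comb μ (lam p) F G (fun i => Pab P i.1 i.2 F),
      inner_comb μ (lam p) G F (fun i => Pab P i.1 i.2 G)]
    have e0 : ∑ x, pm μ x * (G x * F x) = ∑ x, pm μ x * (F x * G x) :=
      sum_congr rfl fun x _ => by ring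
    rw [e0]
    congr 1
    refine sum_congr rfl fun i _ => ?_
    by_cases h : i.1 = i.2
    · simp [lam, h]
    · rw [(hP i.1 i.2 h).1 F G]
      congr 2
      exact sum_congr rfl fun x _ => by ring
  refine ⟨hsa, fun F hF => ?_⟩
  have hv : ∀ (A : Finset (Fin K)) (k : ℕ), k ≤ K → A.card = k → nr μ (EA μ A F) = vk μ F k :=
    fun A k hk hA => hcard A (fst K k) F hF (by rw [hA, card_fst hk])
  refine ⟨PK_sym P p F hF, ?_, ?_, ?_, ?_, ?_, ?_, ?_⟩
  · have h1 : ∀ x : Fin K → α, PK P p (fun _ => 1) x = 1 := by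
      intro x
      simp [PK, Pab, hK.row]
    have := hsa F (fun _ => 1)
    simpa [h1] using this
  · rw [PK_eq]
    refine (nr_comb μ hpos (lam p) (lam_nn hp) (lam_sum hp hpK) F
      (fun i => Pab P i.1 i.2 F)).trans ?_
    have : ∑ i : Fin K × Fin K, lam p i * (nr μ (Pab P i.1 i.2 F) - nr μ F) ≤ 0 := by
      refine sum_nonpos fun i _ => ?_
      by_cases h : i.1 = i.2
      · simp [lam, h]
      · have := (hP i.1 i.2 h).2.1 F
        exact mul_nonpos_of_nonneg_of_nonpos (lam_nn hp i) (by linarith [this.1, this.2.1])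
    linarith
  · have e : (univ.filter (fun i : Fin K => i.val < 0)) = ∅ := by simp
    rw [vk, e, nr]
    simp only [(huniv F).2]
    rw [← sum_mul, hsum, one_mul]
  · have e : (univ.filter (fun i : Fin K => i.val < K)) = univ := by
      ext i; simp
    rw [vk, e, (huniv F).1]
  · intro j
    refine (hmono _ _ F ?_).1
    intro i hi
    simp only [mem_filter, mem_univ, true_and] at hi ⊢
    omega
  · intro j hj
    have ha : (⟨j, by omega⟩ : Fin K) ∈ fst K (j + 2) := by simp [fst]
    have hb : (⟨j + 1, by omega⟩ : Fin K) ∈ fst K (j + 2) := by simp [fst]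
    have hab : (⟨j + 1, by omega⟩ : Fin K) ∈ (fst K (j + 2)).erase ⟨j, by omega⟩ :=
      mem_erase.2 ⟨by simp, hb⟩
    have h := hfour (fst K (j + 2)) F ⟨j, by omega⟩ ⟨j + 1, by omega⟩
    have h0 := nr_nn μ hpos (fun x => EA μ (fst K (j + 2)) F x -
      EA μ ((fst K (j + 2)).erase ⟨j, by omega⟩) F x -
      EA μ ((fst K (j + 2)).erase ⟨j + 1, by omega⟩) F x +
      EA μ (((fst K (j + 2)).erase ⟨j, by omega⟩).erase ⟨j + 1, by omega⟩) F x)
    rw [h, hv _ (j + 2) hj (card_fst hj),
      hv _ (j + 1) (by omega) (by rw [card_erase_of_mem ha, card_fst hj]; rfl),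
      hv _ (j + 1) (by omega) (by rw [card_erase_of_mem hb, card_fst hj]; rfl),
      hv _ j (by omega) (by rw [card_erase_of_mem hab, card_erase_of_mem ha, card_fst hj]; rfl)] at h0
    linarith
  · intro j hj
    have hA : (fst K (j + 2)).card = j + 2 := card_fst (by omega)
    have hvA : nr μ (EA μ (fst K (j + 2)) F) = vk μ F (j + 2) := rfl
    have h1 : vk μ (PK P p F) (j + 2) = nr μ (EA μ (fst K (j + 2)) (PK P p F)) := rfl
    set A := fst K (j + 2) with hAd
    rw [h1, PK_eq, EA_comb μ A (lam p) F (fun i => Pab P i.1 i.2 F)]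
    refine (nr_comb μ hpos (lam p) (lam_nn hp) (lam_sum hp hpK) (EA μ A F)
      (fun i => EA μ A (Pab P i.1 i.2 F))).trans ?_
    have hc := count A p
      (-((1 + 1 / (4 * Γ)) * (vk μ F (j + 1) - vk μ F j) - (vk μ F (j + 2) - vk μ F (j + 1))))
      (vk μ F (j + 3) - vk μ F (j + 2))
    have hone : ∀ (a b : Fin K) (B : Finset (Fin K)), a ≠ b → A ⊆ B → a ∈ B → b ∈ B →
        B.card = j + 3 → nr μ (EA μ A (Pab P a b F)) ≤ vk μ F (j + 3) := by
      intro a b B hab hAB ha hb hB
      refine (hmono A B _ hAB).1.trans ?_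
      rw [(hP a b hab).2.2.1 B F ha hb, ← hv B (j + 3) hj hB]
      have := (hP a b hab).2.1 (EA μ B F)
      linarith [this.1, this.2.1]
    have hle : ∑ i : Fin K × Fin K, lam p i * (nr μ (EA μ A (Pab P i.1 i.2 F)) - nr μ (EA μ A F)) ≤
        ∑ i : Fin K × Fin K, lam p i * (if i.1 ∈ A then (if i.2 ∈ A then
          (-((1 + 1 / (4 * Γ)) * (vk μ F (j + 1) - vk μ F j) - (vk μ F (j + 2) - vk μ F (j + 1))))
          else (vk μ F (j + 3) - vk μ F (j + 2)))
          else (if i.2 ∈ A then (vk μ F (j + 3) - vk μ F (j + 2)) else 0)) := by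
      refine sum_le_sum fun i _ => ?_
      obtain ⟨a, b⟩ := i
      by_cases hab : a = b
      · simp [lam, hab]
      refine mul_le_mul_of_nonneg_left ?_ (lam_nn hp _)
      by_cases ha : a ∈ A <;> by_cases hb : b ∈ A
      · simp only [ha, hb, if_true]
        rw [(hP a b hab).2.2.1 A F ha hb]
        have h2 := ((hP a b hab).2.1 (EA μ A F)).1
        have h3 := hPen α K μ P Γ hK (by linarith) A F a b hF hab ha hb
        have hab' : b ∈ A.erase a := mem_erase.2 ⟨fun h => hab h.symm, hb⟩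
        rw [hv (A.erase a) (j + 1) (by omega) (by rw [card_erase_of_mem ha, hA]; rfl),
          hv (A.erase b) (j + 1) (by omega) (by rw [card_erase_of_mem hb, hA]; rfl),
          hv ((A.erase a).erase b) j (by omega)
            (by rw [card_erase_of_mem hab', card_erase_of_mem ha, hA]; rfl), hvA] at h3
        rw [hvA] at h2 ⊢
        have h4 : 1 / (4 * Γ) * (vk μ F (j + 1) - vk μ F j) ≤ Dab μ P a b (EA μ A F) / 2 +
            (vk μ F (j + 2) - vk μ F (j + 1) - vk μ F (j + 1) + vk μ F j) := by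
          rw [one_div, inv_mul_le_iff₀ (by linarith)]
          linarith
        linarith
      · simp only [ha, hb, if_true, if_false]
        have := hone a b (insert b A) hab (subset_insert _ _) (mem_insert_of_mem ha)
          (mem_insert_self _ _) (by rw [card_insert_of_notMem hb, hA])
        linarith
      · simp only [ha, hb, if_true, if_false]
        have := hone a b (insert a A) hab (subset_insert _ _) (mem_insert_self _ _)
          (mem_insert_of_mem hb) (by rw [card_insert_of_notMem ha, hA])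
        linarith
      · simp only [ha, hb, if_false]
        rw [(hP a b hab).2.2.2 A F ha hb]
        simp
    rw [hc, hA] at hle
    rw [hvA] at hle ⊢
    push_cast at hle
    linarith

end Crest.Agent.R304
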