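import Crest.Agent.R304.DefsM

/-! Row 304, task ROOT: the exchange along the cycle through the root. -/

set_option autoImplicit false

namespace Crest.Agent.R304

open Finset

namespace ROOT

variable {N : ℕ}

theorem w_nonneg {a : Fin N → Fin N → ℝ} (ha : Wt a) (σ : Mp N) : 0 ≤ w a σ :=
  prod_nonneg fun v _ => by
    split_ifs
    · exact zero_le_one
    · exact (ha _ _).1.le

theorem wP_nonneg {a : Fin N → Fin N → ℝ} (ha : Wt a) (σ : Mp N) : 0 ≤ wP a σ := by
  unfold wP
  split_ifs
  · exact w_nonneg ha σ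
  · exact le_rfl

theorem En_nonneg {a : Fin N → Fin N → ℝ} (ha : Wt a) (g : Mp N → ℝ) : 0 ≤ En a g :=
  sum_nonneg fun _ _ => sum_nonneg fun _ _ => sum_nonneg fun _ _ =>
    mul_nonneg (le_min (mul_nonneg (w_nonneg ha _) (w_nonneg ha _))
      (mul_nonneg (wP_nonneg ha _) (wP_nonneg ha _))) (sq_nonneg _)

theorem sw_triv {I F : Mp N} {r : Fin N} (hI : I ∈ MM ∅) (hF : F ∈ MM ∅) (h : I r = F r) :
    (sw r (I, F)).1 = I := by
  have hI' := (mem_filter.1 hI).2.1
  have hF' := (mem_filter.1 hF).2.1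
  funext v
  show mix (cls I F r) I F v = I v
  unfold mix
  split_ifs with hv
  · have hv' : Relation.ReflTransGen (fun p q => q = I p ∨ q = F p) r v := by
      classical
      unfold cls at hv
      simpa using hv
    have key : v = r ∨ v = I r := by
      clear hv
      induction hv' with
      | refl => exact Or.inl rfl
      | tail _ h2 ih =>
        rcases ih with rfl | rfl
        · rcases h2 with h2 | h2
          · exact Or.inr h2
          · exact Or.inr (h2.trans h.symm)
        · rcases h2 with h2 | h2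
          · exact Or.inl (h2.trans (hI' _))
          · rw [h, hF'] at h2; exact Or.inl h2
    rcases key with rfl | rfl
    · exact h.symm
    · rw [hI', h, hF']
  · rfl

open Classical in
/-- the total defect -/
noncomputable def dS (a : Fin N → Fin N → ℝ) (C : ℝ) (g : Mp N → ℝ) (I F : Mp N) : ℝ :=
  ∑ D : Dat N, if GoodD a (C ^ 4) D ∧ Real_ D I F then dfc g D I F ^ 2 else 0

theorem dS_nonneg (a : Fin N → Fin N → ℝ) (C : ℝ) (g : Mp N → ℝ) (I F : Mp N) :
    0 ≤ dS a C g I F :=
  sum_nonneg fun _ _ => by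
    split_ifs
    · exact sq_nonneg _
    · exact le_rfl

theorem dfc_le {a : Fin N → Fin N → ℝ} {C : ℝ} (g : Mp N → ℝ) {I F : Mp N} {D : Dat N}
    (h1 : GoodD a (C ^ 4) D) (h2 : Real_ D I F) : |dfc g D I F| ≤ √(dS a C g I F) := by
  classical
  apply Real.abs_le_sqrt
  unfold dS
  refine le_trans (le_of_eq ?_) (single_le_sum (f := fun D : Dat N =>
    if GoodD a (C ^ 4) D ∧ Real_ D I F then dfc g D I F ^ 2 else 0) (fun D _ => by
      split_ifs
      · exact sq_nonneg _
      · exact le_rfl) (mem_univ D))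
  rw [if_pos ⟨h1, h2⟩]

theorem chain (hTri : TriStmt) {a : Fin N → Fin N → ℝ} {C : ℝ} (g : Mp N → ℝ) {I F : Mp N}
    {r : Fin N} {L : ℕ} (ha : Wt a) (hC : 1 ≤ C) (hU : Ult a r C) (hI : I ∈ MM ∅) (hF : F ∈ MM ∅)
    (hL : Cyc I F r L) (h1 : ∀ i, i + 1 < L → chd I F r i (i + 1) = I) :
    ∀ n i j : ℕ, j = i + n + 1 → j < L →
      (∀ k, i < k → k < j → lev a I F r i ≤ lev a I F r k ∧ lev a I F r j ≤ lev a I F r k) →
      |g (chd I F r i j) - g I| ≤ n * √(dS a C g I F) := by
  intro n
  induction n using Nat.strong_induction_on with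
  | _ n ih =>
    intro i j hj hjL hadm
    rcases Nat.eq_zero_or_pos n with rfl | hn
    · subst hj
      rw [add_zero, h1 i (by omega)]
      simp
    · obtain ⟨h, hh, hmin⟩ := exists_min_image (Ioo i j) (lev a I F r)
        ⟨i + 1, mem_Ioo.2 ⟨by omega, by omega⟩⟩
      obtain ⟨hih, hhj⟩ := mem_Ioo.1 hh
      obtain ⟨D, hD1, hD2, hD3⟩ := hTri N a C I F r L i h j ha hC hU hI hF hL hih hhj hjL
        (hadm h hih hhj).1 (hadm h hih hhj).2 (fun k h1 h2 => hmin k (mem_Ioo.2 ⟨h1, h2⟩))
      have e1 := ih (h - i - 1) (by omega) i h (by omega) (by omega) (fun k h1 h2 =>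
        ⟨(hadm k h1 (by omega)).1, hmin k (mem_Ioo.2 ⟨h1, by omega⟩)⟩)
      have e2 := ih (j - h - 1) (by omega) h j (by omega) hjL (fun k h1 h2 =>
        ⟨hmin k (mem_Ioo.2 ⟨by omega, h2⟩), (hadm k (by omega) h2).2⟩)
      have e3 := dfc_le g hD1 hD2
      rw [hD3 g] at e3
      have hn' : (n : ℝ) = ((h - i - 1 : ℕ) : ℝ) + ((j - h - 1 : ℕ) : ℝ) + 1 := by
        have : n = (h - i - 1) + (j - h - 1) + 1 := by omega
        exact_mod_cast this
      rw [hn']
      rw [abs_le] at e1 e2 e3 ⊢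
      constructor <;> nlinarith [e1.1, e1.2, e2.1, e2.2, e3.1, e3.2]

theorem point (hCyc : CycStmt) (hTri : TriStmt) {a : Fin N → Fin N → ℝ} {C : ℝ} (g : Mp N → ℝ)
    {I F : Mp N} {r : Fin N} (ha : Wt a) (hC : 1 ≤ C) (hU : Ult a r C) (hI : I ∈ MM ∅)
    (hF : F ∈ MM ∅) : (g (sw r (I, F)).1 - g I) ^ 2 ≤ (N : ℝ) ^ 2 * dS a C g I F := by
  have hd := dS_nonneg a C g I F
  by_cases h : I r = F r
  · rw [sw_triv hI hF h, sub_self, zero_pow two_ne_zero]
    exact mul_nonneg (sq_nonneg _) hd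
  · obtain ⟨L, hL, h0, h1⟩ := hCyc N I F r hI hF h
    obtain ⟨h4, hLN, -, hr, hinj, -⟩ := id hL
    have hne : ∀ k, 0 < k → k < L → wk I F r k ≠ r := fun k hk hkL he => by
      have := hinj k hkL 0 (by omega) he
      omega
    have key := chain hTri g ha hC hU hI hF hL h1 (L - 2) 0 (L - 1) (by omega) (by omega)
      (fun k hk hkL => by
        have n1 := hne k hk (by omega)
        have n2 := hne (k + 1) (by omega) (by omega)
        have n3 : wk I F r k ≠ wk I F r (k + 1) := fun he => by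
          have := hinj k (by omega) (k + 1) (by omega) he
          omega
        constructor
        · exact hU.1 _ _ _ (hne 1 (by omega) (by omega)) n1 n2 n3
        · have e : L - 1 + 1 = L := by omega
          unfold lev
          rw [e, hr, (ha _ _).2]
          exact hU.1 _ _ _ (hne (L - 1) (by omega) (by omega)) n1 n2 n3)
    rw [h0] at key
    have hle : ((L - 2 : ℕ) : ℝ) ≤ N := by exact_mod_cast (by omega : L - 2 ≤ N)
    have hs := Real.sqrt_nonneg (dS a C g I F)
    have key2 : |g (sw r (I, F)).1 - g I| ≤ N * √(dS a C g I F) :=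
      le_trans key (mul_le_mul_of_nonneg_right hle hs)
    calc (g (sw r (I, F)).1 - g I) ^ 2 = |g (sw r (I, F)).1 - g I| ^ 2 := (sq_abs _).symm
      _ ≤ (N * √(dS a C g I F)) ^ 2 := pow_le_pow_left₀ (abs_nonneg _) key2 2
      _ = (N : ℝ) ^ 2 * dS a C g I F := by rw [mul_pow, Real.sq_sqrt hd]

theorem card_dat (N : ℕ) : Fintype.card (Dat N) = N ^ 50 := by
  simp only [Fintype.card_prod, Fintype.card_fun, Fintype.card_fin, Fintype.card_bool]
  ring

end ROOT

open ROOT in
theorem ROOT_proof (hCyc : CycStmt) (hTri : TriStmt) (hNode : NodeStmt) : RootStmt := by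
  intro N a g C r ha hC hU
  classical
  have hE := En_nonneg ha g
  have hC4 : 1 ≤ C ^ 4 := one_le_pow₀ hC
  calc ∑ I ∈ MM ∅, ∑ F ∈ MM ∅, w a I * w a F * (g (sw r (I, F)).1 - g I) ^ 2
      ≤ ∑ I ∈ MM ∅, ∑ F ∈ MM ∅, w a I * w a F * ((N : ℝ) ^ 2 * dS a C g I F) :=
        sum_le_sum fun I hI => sum_le_sum fun F hF =>
          mul_le_mul_of_nonneg_left (point hCyc hTri g ha hC hU hI hF)
            (mul_nonneg (w_nonneg ha _) (w_nonneg ha _))
    _ = (N : ℝ) ^ 2 * ∑ D : Dat N, ∑ I ∈ MM ∅, ∑ F ∈ MM ∅,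
          if GoodD a (C ^ 4) D ∧ Real_ D I F then w a I * w a F * dfc g D I F ^ 2 else 0 := by
        rw [sum_comm (s := univ), mul_sum]
        refine sum_congr rfl fun I _ => ?_
        rw [sum_comm (s := univ), mul_sum]
        refine sum_congr rfl fun F _ => ?_
        unfold dS
        rw [mul_left_comm, mul_sum]
        congr 1
        refine sum_congr rfl fun D _ => ?_
        split_ifs <;> simp
    _ ≤ (N : ℝ) ^ 2 * ∑ _D : Dat N, 15 * C ^ 4 * En a g := by
        refine mul_le_mul_of_nonneg_left (sum_le_sum fun D _ => ?_) (by positivity)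
        by_cases hD : GoodD a (C ^ 4) D
        · refine le_trans (le_of_eq ?_) (hNode N a g (C ^ 4) D ha hC4 hD)
          refine sum_congr rfl fun I _ => sum_congr rfl fun F _ => ?_
          by_cases hR : Real_ D I F
          · rw [if_pos ⟨hD, hR⟩, if_pos hR]
          · rw [if_neg (fun h => hR h.2), if_neg hR]
        · rw [sum_eq_zero fun I _ => sum_eq_zero fun F _ => if_neg (fun h => hD h.1)]
          positivity
    _ = 15 * (N : ℝ) ^ 52 * C ^ 4 * En a g := by
        rw [sum_const, card_univ, card_dat, nsmul_eq_mul]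
        push_cast
        ring

end Crest.Agent.R304
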