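import Crest.Agent.R304.DefsM

/-!
Row 304 (S0464), task SEC: the second difference is controlled by four exchange energies.
-/

set_option autoImplicit false

namespace Crest.Agent.R304

open Finset Crest.Agent.R309

namespace SEC

variable {N : ℕ}

theorem sum_inj {ι β : Type} (s : Finset ι) (t : Finset β) (φ : ι → β) (F : ι → ℝ) (H : β → ℝ)
    (hinj : ∀ i ∈ s, ∀ j ∈ s, φ i = φ j → i = j) (hmap : ∀ i ∈ s, φ i ∈ t)
    (hH : ∀ j ∈ t, 0 ≤ H j) (hF : ∀ i ∈ s, F i = H (φ i)) : ∑ i ∈ s, F i ≤ ∑ j ∈ t, H j := by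
  classical
  rw [sum_congr rfl hF, ← sum_image (s := s) (g := φ) (f := H) (fun i hi j hj h => hinj i hi j hj h)]
  refine sum_le_sum_of_subset_of_nonneg ?_ (fun j hj _ => hH j hj)
  intro j hj
  obtain ⟨i, hi, rfl⟩ := mem_image.1 hj
  exact hmap i hi

theorem mem_MM {T : Finset (Fin N)} {σ : Mp N} :
    σ ∈ MM T ↔ (∀ v, σ (σ v) = v) ∧ ∀ v, σ v = v ↔ v ∈ T := by
  simp [MM]

/-- weight of a vertex -/
noncomputable def wt (a : Fin N → Fin N → ℝ) (v t : Fin N) : ℝ := if t = v then 1 else a v t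

theorem wt_pos {a : Fin N → Fin N → ℝ} (ha : Wt a) (v t : Fin N) : 0 < wt a v t := by
  unfold wt
  split_ifs
  · exact one_pos
  · exact (ha v t).1

/-- the two components -/
noncomputable def QQ (u s : Fin N) (k : Mp N × Mp N) : Finset (Fin N) :=
  cls k.1 k.2 u ∪ cls k.1 k.2 s

/-- the key of a pair -/
noncomputable def key (u s : Fin N) (z : Mp N × Mp N) : Mp N × Mp N :=
  (mix (QQ u s z) id z.1, mix (QQ u s z) id z.2)

/-- a state given by a key and an outer part -/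
noncomputable def stk (u s : Fin N) (k : Mp N × Mp N) (τ₁ τ₂ : Bool) (Z : Mp N) : Mp N := fun v =>
  if v ∈ cls k.1 k.2 u then (if τ₁ then k.1 v else k.2 v)
  else if v ∈ cls k.1 k.2 s then (if τ₂ then k.1 v else k.2 v) else Z v

/-- the factors of a fibre -/
noncomputable def AA (T : Bool → Bool → Bool → Finset (Fin N)) (u s : Fin N) (k : Mp N × Mp N)
    (σ : Bool) : Finset (Mp N) :=
  (MM (T σ σ σ)).filter (fun Z => ∀ v ∈ QQ u s k, Z v = if σ then k.1 v else k.2 v)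

/-- outer weight -/
noncomputable def PP (a : Fin N → Fin N → ℝ) (u s : Fin N) (k : Mp N × Mp N) (Z : Mp N) : ℝ :=
  ∏ v, if v ∈ QQ u s k then 1 else wt a v (Z v)

/-- inner weight -/
noncomputable def WW (a : Fin N → Fin N → ℝ) (u s : Fin N) (k : Mp N × Mp N) : ℝ :=
  ∏ v, if v ∈ QQ u s k then wt a v (k.1 v) * wt a v (k.2 v) else 1

/-- valid keys -/
def Val (T : Bool → Bool → Bool → Finset (Fin N)) (u s : Fin N) (k : Mp N × Mp N) : Prop :=
  Disjoint (cls k.1 k.2 u) (cls k.1 k.2 s) ∧ (∀ v, v ∉ QQ u s k → k.1 v = v ∧ k.2 v = v) ∧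
    ∀ σ τ₁ τ₂ Z, Z ∈ AA T u s k σ → stk u s k τ₁ τ₂ Z ∈ MM (T σ τ₁ τ₂)

open Classical in
/-- the set of valid keys -/
noncomputable def KK (T : Bool → Bool → Bool → Finset (Fin N)) (u s : Fin N) :
    Finset (Mp N × Mp N) := univ.filter (Val T u s)

theorem mem_KK {T : Bool → Bool → Bool → Finset (Fin N)} {u s : Fin N} {k : Mp N × Mp N} :
    k ∈ KK T u s ↔ Val T u s k := by
  simp [KK]

theorem PP_pos {a : Fin N → Fin N → ℝ} (ha : Wt a) (u s : Fin N) (k : Mp N × Mp N) (Z : Mp N) :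
    0 < PP a u s k Z := by
  refine prod_pos fun v _ => ?_
  split_ifs
  · exact one_pos
  · exact wt_pos ha _ _

theorem WW_pos {a : Fin N → Fin N → ℝ} (ha : Wt a) (u s : Fin N) (k : Mp N × Mp N) :
    0 < WW a u s k := by
  refine prod_pos fun v _ => ?_
  split_ifs
  · exact mul_pos (wt_pos ha _ _) (wt_pos ha _ _)
  · exact one_pos

theorem w_eq (a : Fin N → Fin N → ℝ) (σ : Mp N) : w a σ = ∏ v, wt a v (σ v) := rfl

theorem w_stk (a : Fin N → Fin N → ℝ) (u s : Fin N) (k : Mp N × Mp N) (τ₁ τ₂ : Bool)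
    (x y : Mp N) : w a (stk u s k τ₁ τ₂ x) * w a (stk u s k (!τ₁) (!τ₂) y) =
      WW a u s k * (PP a u s k x * PP a u s k y) := by
  rw [w_eq, w_eq, WW, PP, PP, ← prod_mul_distrib, ← prod_mul_distrib, ← prod_mul_distrib]
  refine prod_congr rfl fun v _ => ?_
  by_cases h1 : v ∈ cls k.1 k.2 u
  · cases τ₁ <;> simp [stk, QQ, h1, mul_comm]
  · by_cases h2 : v ∈ cls k.1 k.2 s
    · cases τ₂ <;> simp [stk, QQ, h1, h2, mul_comm]
    · simp [stk, QQ, h1, h2]

section Bas

variable (hBas : BasStmt)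
include hBas

theorem cls_key (u s : Fin N) (z : Mp N × Mp N) :
    cls (key u s z).1 (key u s z).2 u = cls z.1 z.2 u ∧
      cls (key u s z).1 (key u s z).2 s = cls z.1 z.2 s := by
  constructor
  · refine (hBas N).2.1 _ _ _ _ _ fun v hv => Or.inl ?_
    simp [key, mix, QQ, hv]
  · refine (hBas N).2.1 _ _ _ _ _ fun v hv => Or.inl ?_
    simp [key, mix, QQ, hv]

theorem QQ_key (u s : Fin N) (z : Mp N × Mp N) : QQ u s (key u s z) = QQ u s z := by
  rw [QQ, (cls_key hBas u s z).1, (cls_key hBas u s z).2, QQ]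

theorem QQ_closed (u s : Fin N) (z : Mp N × Mp N) (v : Fin N) (hv : v ∈ QQ u s z) :
    z.1 v ∈ QQ u s z ∧ z.2 v ∈ QQ u s z := by
  rcases mem_union.1 hv with h | h
  · have := ((hBas N).1 z.1 z.2 u).2.1 v h
    exact ⟨mem_union_left _ this.1, mem_union_left _ this.2⟩
  · have := ((hBas N).1 z.1 z.2 s).2.1 v h
    exact ⟨mem_union_right _ this.1, mem_union_right _ this.2⟩

theorem stk_key_in (u s : Fin N) (X Y Z : Mp N) (σ τ₁ τ₂ : Bool) (v : Fin N)
    (hv : v ∈ QQ u s (X, Y)) : stk u s (key u s (X, Y)) τ₁ τ₂ Z v = st X Y u s σ τ₁ τ₂ v := by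
  have h := cls_key hBas u s (X, Y)
  simp only [stk, h.1, h.2, st]
  have e1 : (key u s (X, Y)).1 v = X v := by simp [key, mix, hv]
  have e2 : (key u s (X, Y)).2 v = Y v := by simp [key, mix, hv]
  rw [e1, e2]
  by_cases h1 : v ∈ cls X Y u
  · simp [h1]
  · have h2 : v ∈ cls X Y s := by
      rcases mem_union.1 hv with h | h
      · exact absurd h h1
      · exact h
    simp [h1, h2]

omit hBas in
theorem stk_out (u s : Fin N) (k : Mp N × Mp N) (Z : Mp N) (τ₁ τ₂ : Bool) (v : Fin N)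
    (hv : v ∉ QQ u s k) : stk u s k τ₁ τ₂ Z v = Z v := by
  simp only [QQ, mem_union, not_or] at hv
  simp [stk, hv.1, hv.2]

omit hBas in
theorem st_out (u s : Fin N) (X Y : Mp N) (σ τ₁ τ₂ : Bool) (v : Fin N)
    (hv : v ∉ QQ u s (X, Y)) : st X Y u s σ τ₁ τ₂ v = if σ then X v else Y v := by
  simp only [QQ, mem_union, not_or] at hv
  simp [st, hv.1, hv.2]

omit hBas in
theorem st_or (u s : Fin N) (X Y : Mp N) (σ τ₁ τ₂ : Bool) (v : Fin N) :
    st X Y u s σ τ₁ τ₂ v = X v ∨ st X Y u s σ τ₁ τ₂ v = Y v := by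
  unfold st
  split_ifs <;> simp

theorem val_key (T : Bool → Bool → Bool → Finset (Fin N)) (u s : Fin N) (X Y : Mp N)
    (h : InS T u s X Y) : Val T u s (key u s (X, Y)) := by
  have hc := cls_key hBas u s (X, Y)
  have hQ := QQ_key hBas u s (X, Y)
  refine ⟨?_, ?_, ?_⟩
  · rw [hc.1, hc.2]; exact h.1
  · intro v hv
    rw [hQ] at hv
    simp [key, mix, hv]
  · intro σ τ₁ τ₂ Z hZ
    obtain ⟨hZ1, hZ2⟩ := mem_filter.1 hZ
    rw [hQ] at hZ2
    obtain ⟨hZi, hZh⟩ := mem_MM.1 hZ1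
    obtain ⟨hSi, hSh⟩ := mem_MM.1 (h.2 σ τ₁ τ₂)
    obtain ⟨_, hSh'⟩ := mem_MM.1 (h.2 σ σ σ)
    have hZQ : ∀ v ∈ QQ u s (X, Y), Z v ∈ QQ u s (X, Y) := by
      intro v hv
      have hcl := QQ_closed hBas u s (X, Y) v hv
      rw [hZ2 v hv]
      cases σ
      · simpa [key, mix, hv] using hcl.2
      · simpa [key, mix, hv] using hcl.1
    refine mem_MM.2 ⟨fun v => ?_, fun v => ?_⟩
    · by_cases hv : v ∈ QQ u s (X, Y)
      · have hcl := QQ_closed hBas u s (X, Y) v hv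
        have hS : st X Y u s σ τ₁ τ₂ v ∈ QQ u s (X, Y) := by
          rcases st_or u s X Y σ τ₁ τ₂ v with e | e
          · rw [e]; exact hcl.1
          · rw [e]; exact hcl.2
        rw [stk_key_in hBas u s X Y Z σ τ₁ τ₂ v hv, stk_key_in hBas u s X Y Z σ τ₁ τ₂ _ hS, hSi]
      · have hZv : Z v ∉ QQ u s (X, Y) := by
          intro hh
          have := hZQ _ hh
          rw [hZi] at this
          exact hv this
        rw [stk_out u s _ Z τ₁ τ₂ v (by rw [hQ]; exact hv),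
          stk_out u s _ Z τ₁ τ₂ _ (by rw [hQ]; exact hZv), hZi]
    · by_cases hv : v ∈ QQ u s (X, Y)
      · rw [stk_key_in hBas u s X Y Z σ τ₁ τ₂ v hv, hSh]
      · rw [stk_out u s _ Z τ₁ τ₂ v (by rw [hQ]; exact hv), hZh, ← hSh', ← hSh,
          st_out u s X Y σ σ σ v hv, st_out u s X Y σ τ₁ τ₂ v hv]

theorem stk_key (u s : Fin N) (X Y : Mp N) (σ τ₁ τ₂ : Bool) :
    stk u s (key u s (X, Y)) τ₁ τ₂ (if σ then X else Y) = st X Y u s σ τ₁ τ₂ := by
  funext v
  by_cases hv : v ∈ QQ u s (X, Y)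
  · exact stk_key_in hBas u s X Y _ σ τ₁ τ₂ v hv
  · rw [stk_out u s _ _ τ₁ τ₂ v (by rw [QQ_key hBas]; exact hv), st_out u s X Y σ τ₁ τ₂ v hv]
    cases σ <;> simp

omit hBas in
theorem st_same (u s : Fin N) (X Y : Mp N) (σ : Bool) :
    st X Y u s σ σ σ = if σ then X else Y := by
  funext v
  unfold st
  cases σ <;> simp

theorem mem_AA_key (T : Bool → Bool → Bool → Finset (Fin N)) (u s : Fin N) (X Y : Mp N)
    (h : InS T u s X Y) (σ : Bool) : (if σ then X else Y) ∈ AA T u s (key u s (X, Y)) σ := by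
  refine mem_filter.2 ⟨?_, fun v hv => ?_⟩
  · rw [← st_same u s X Y σ]; exact h.2 σ σ σ
  · rw [QQ_key hBas] at hv
    cases σ <;> simp [key, mix, hv]

theorem cls_stk (u s : Fin N) (k : Mp N × Mp N) (τ : Bool) (x y : Mp N) :
    cls (stk u s k τ true x) (stk u s k (!τ) false y) u = cls k.1 k.2 u ∧
      cls (stk u s k τ true x) (stk u s k (!τ) false y) s = cls k.1 k.2 s := by
  constructor
  · refine (hBas N).2.1 _ _ _ _ _ fun v hv => ?_
    cases τ <;> simp [stk, hv]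
  · refine (hBas N).2.1 _ _ _ _ _ fun v hv => ?_
    by_cases h1 : v ∈ cls k.1 k.2 u
    · cases τ <;> simp [stk, h1]
    · simp [stk, h1, hv]

theorem sw_stk (u s : Fin N) (k : Mp N × Mp N) (hk : Disjoint (cls k.1 k.2 u) (cls k.1 k.2 s))
    (τ : Bool) (x y : Mp N) :
    sw s (stk u s k τ true x, stk u s k (!τ) false y) =
      (stk u s k τ false x, stk u s k (!τ) true y) := by
  have h := (cls_stk hBas u s k τ x y).2
  simp only [sw, h]
  refine Prod.ext ?_ ?_
  · funext v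
    by_cases h2 : v ∈ cls k.1 k.2 s
    · have h1 : v ∉ cls k.1 k.2 u := fun h1 => disjoint_left.1 hk h1 h2
      simp [mix, stk, h1, h2]
    · simp [mix, stk, h2]
  · funext v
    by_cases h2 : v ∈ cls k.1 k.2 s
    · have h1 : v ∉ cls k.1 k.2 u := fun h1 => disjoint_left.1 hk h1 h2
      simp [mix, stk, h1, h2]
    · simp [mix, stk, h2]

theorem stk_inj (T : Bool → Bool → Bool → Finset (Fin N)) (u s : Fin N) (k k' : Mp N × Mp N)
    (hk : Val T u s k) (hk' : Val T u s k') (τ σ σ' : Bool) (x y x' y' : Mp N)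
    (hx : x ∈ AA T u s k σ) (hy : y ∈ AA T u s k σ') (hx' : x' ∈ AA T u s k' σ)
    (hy' : y' ∈ AA T u s k' σ') (e1 : stk u s k τ true x = stk u s k' τ true x')
    (e2 : stk u s k (!τ) false y = stk u s k' (!τ) false y') : k = k' ∧ x = x' ∧ y = y' := by
  have c := cls_stk hBas u s k τ x y
  have c' := cls_stk hBas u s k' τ x' y'
  rw [← e1, ← e2] at c'
  have cu : cls k'.1 k'.2 u = cls k.1 k.2 u := c'.1.symm.trans c.1
  have cs : cls k'.1 k'.2 s = cls k.1 k.2 s := c'.2.symm.trans c.2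
  have hQ : QQ u s k' = QQ u s k := by rw [QQ, cu, cs, QQ]
  have hkk : ∀ v, k.1 v = k'.1 v ∧ k.2 v = k'.2 v := by
    intro v
    have f1 := congrFun e1 v
    have f2 := congrFun e2 v
    simp only [stk, cu, cs] at f1 f2
    by_cases h1 : v ∈ cls k.1 k.2 u
    · cases τ
      · simp [h1] at f1 f2; exact ⟨f2, f1⟩
      · simp [h1] at f1 f2; exact ⟨f1, f2⟩
    · by_cases h2 : v ∈ cls k.1 k.2 s
      · simp [h1, h2] at f1 f2; exact ⟨f1, f2⟩
      · have hv : v ∉ QQ u s k := by simp [QQ, h1, h2]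
        have a1 := hk.2.1 v hv
        have a2 := hk'.2.1 v (by rw [hQ]; exact hv)
        exact ⟨a1.1.trans a2.1.symm, a1.2.trans a2.2.symm⟩
  have hk0 : k = k' := Prod.ext (funext fun v => (hkk v).1) (funext fun v => (hkk v).2)
  subst hk0
  refine ⟨rfl, funext fun v => ?_, funext fun v => ?_⟩
  · by_cases hv : v ∈ QQ u s k
    · rw [(mem_filter.1 hx).2 v hv, (mem_filter.1 hx').2 v hv]
    · have := congrFun e1 v
      rwa [stk_out u s k _ _ _ v hv, stk_out u s k _ _ _ v hv] at this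
  · by_cases hv : v ∈ QQ u s k
    · rw [(mem_filter.1 hy).2 v hv, (mem_filter.1 hy').2 v hv]
    · have := congrFun e2 v
      rwa [stk_out u s k _ _ _ v hv, stk_out u s k _ _ _ v hv] at this

end Bas

/-- the difference of two states -/
noncomputable def dd (G : Bool → Bool → Bool → Mp N → ℝ) (u s : Fin N) (k : Mp N × Mp N)
    (σ τ : Bool) (x : Mp N) : ℝ :=
  G σ τ false (stk u s k τ false x) - G σ τ true (stk u s k τ true x)

theorem rhs (hBas : BasStmt) (a : Fin N → Fin N → ℝ) (ha : Wt a)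
    (T : Bool → Bool → Bool → Finset (Fin N)) (u s : Fin N)
    (G : Bool → Bool → Bool → Mp N → ℝ) (σ σ' τ : Bool) :
    ∑ k ∈ KK T u s, WW a u s k * ∑ x ∈ AA T u s k σ, ∑ y ∈ AA T u s k σ',
        PP a u s k x * PP a u s k y * (dd G u s k σ τ x - dd G u s k σ' (!τ) y) ^ 2 ≤
      EE a s (T σ τ true) (T σ' (!τ) false) (T σ τ false) (T σ' (!τ) true)
        (G σ τ true) (G σ' (!τ) false) (G σ τ false) (G σ' (!τ) true) := by
  classical
  have e1 : ∑ k ∈ KK T u s, WW a u s k * ∑ x ∈ AA T u s k σ, ∑ y ∈ AA T u s k σ',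
        PP a u s k x * PP a u s k y * (dd G u s k σ τ x - dd G u s k σ' (!τ) y) ^ 2 =
      ∑ i ∈ (KK T u s).sigma (fun k => AA T u s k σ ×ˢ AA T u s k σ'),
        WW a u s i.1 * (PP a u s i.1 i.2.1 * PP a u s i.1 i.2.2 *
          (dd G u s i.1 σ τ i.2.1 - dd G u s i.1 σ' (!τ) i.2.2) ^ 2) := by
    rw [sum_sigma]
    refine sum_congr rfl fun k _ => ?_
    rw [sum_product, mul_sum]
    refine sum_congr rfl fun x _ => ?_
    rw [mul_sum]
  rw [e1, EE, ← sum_product']
  refine sum_inj _ _ (fun i => (stk u s i.1 τ true i.2.1, stk u s i.1 (!τ) false i.2.2)) _ _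
    ?_ ?_ ?_ ?_
  · rintro ⟨k, x, y⟩ hi ⟨k', x', y'⟩ hj h
    simp only [mem_sigma, mem_product, mem_KK] at hi hj
    simp only [Prod.mk.injEq] at h
    obtain ⟨rfl, rfl, rfl⟩ := stk_inj hBas T u s k k' hi.1 hj.1 τ σ σ' x y x' y' hi.2.1 hi.2.2
      hj.2.1 hj.2.2 h.1 h.2
    rfl
  · rintro ⟨k, x, y⟩ hi
    simp only [mem_sigma, mem_product, mem_KK] at hi
    exact mem_product.2 ⟨hi.1.2.2 _ _ _ _ hi.2.1, hi.1.2.2 _ _ _ _ hi.2.2⟩
  · intro j _
    split_ifs
    · exact mul_nonneg (mul_pos ((hBas N).2.2.2.2.2.2.2 a _ ha)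
        ((hBas N).2.2.2.2.2.2.2 a _ ha)).le (sq_nonneg _)
    · exact le_rfl
  · rintro ⟨k, x, y⟩ hi
    simp only [mem_sigma, mem_product, mem_KK] at hi
    have hs := sw_stk hBas u s k hi.1.1 τ x y
    have hw := w_stk a u s k τ true x y
    simp only [Bool.not_true] at hw
    simp only [hs]
    rw [if_pos ⟨hi.1.2.2 _ _ _ _ hi.2.1, hi.1.2.2 _ _ _ _ hi.2.2⟩, hw]
    simp only [dd]
    ring

theorem lhs (hBas : BasStmt) (a : Fin N → Fin N → ℝ) (ha : Wt a)
    (T : Bool → Bool → Bool → Finset (Fin N)) (u s : Fin N)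
    (G : Bool → Bool → Bool → Mp N → ℝ) :
    ∑ X ∈ MM (T true true true), ∑ Y ∈ MM (T false false false),
        @ite _ (InS T u s X Y) (Classical.dec _) (w a X * w a Y * sd G u s X Y ^ 2) 0 ≤
      ∑ k ∈ KK T u s, WW a u s k * ∑ x ∈ AA T u s k true, ∑ y ∈ AA T u s k false,
        PP a u s k x * PP a u s k y * (dd G u s k true false x - dd G u s k true true x) ^ 2 := by
  classical
  have e1 : ∑ k ∈ KK T u s, WW a u s k * ∑ x ∈ AA T u s k true, ∑ y ∈ AA T u s k false,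
        PP a u s k x * PP a u s k y * (dd G u s k true false x - dd G u s k true true x) ^ 2 =
      ∑ i ∈ (KK T u s).sigma (fun k => AA T u s k true ×ˢ AA T u s k false),
        WW a u s i.1 * (PP a u s i.1 i.2.1 * PP a u s i.1 i.2.2 *
          (dd G u s i.1 true false i.2.1 - dd G u s i.1 true true i.2.1) ^ 2) := by
    rw [sum_sigma]
    refine sum_congr rfl fun k _ => ?_
    rw [sum_product, mul_sum]
    refine sum_congr rfl fun x _ => ?_
    rw [mul_sum]
  have e2 : ∑ X ∈ MM (T true true true), ∑ Y ∈ MM (T false false false),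
        @ite _ (InS T u s X Y) (Classical.dec _) (w a X * w a Y * sd G u s X Y ^ 2) 0 =
      ∑ z ∈ (MM (T true true true) ×ˢ MM (T false false false)).filter
        (fun z => InS T u s z.1 z.2), w a z.1 * w a z.2 * sd G u s z.1 z.2 ^ 2 := by
    rw [sum_filter, sum_product]
  rw [e1, e2]
  refine sum_inj _ _ (fun z => (⟨key u s z, z⟩ : Σ _ : Mp N × Mp N, Mp N × Mp N)) _ _ ?_ ?_ ?_ ?_
  · intro i _ j _ h
    exact congrArg (fun t : Σ _ : Mp N × Mp N, Mp N × Mp N => t.2) h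
  · rintro ⟨X, Y⟩ hz
    have h := (mem_filter.1 hz).2
    exact mem_sigma.2 ⟨mem_KK.2 (val_key hBas T u s X Y h),
      mem_product.2 ⟨mem_AA_key hBas T u s X Y h true, mem_AA_key hBas T u s X Y h false⟩⟩
  · intro j _
    exact mul_nonneg (WW_pos ha _ _ _).le (mul_nonneg
      (mul_pos (PP_pos ha _ _ _ _) (PP_pos ha _ _ _ _)).le (sq_nonneg _))
  · rintro ⟨X, Y⟩ _
    have hw := w_stk a u s (key u s (X, Y)) true true X Y
    have s1 := fun τ₁ τ₂ => stk_key hBas u s X Y true τ₁ τ₂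
    have s2 := stk_key hBas u s X Y false false false
    simp only [if_true] at s1
    simp only [Bool.false_eq_true, if_false, st_same] at s2
    simp only [Bool.not_true, s2] at hw
    rw [s1, st_same] at hw
    simp only [if_true] at hw
    simp only [dd, s1, sd, hw]
    ring

end SEC

open SEC in
theorem SEC_proof (hBas : BasStmt) (hFour : FourStmt) : SecStmt := by
  intro N a T u s G κ c₁ c₂ ha hκ h₁ h₂ hc
  have r1 := rhs hBas a ha T u s G true false false
  have r2 := rhs hBas a ha T u s G true false true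
  have r3 := rhs hBas a ha T u s G true true false
  have r4 := rhs hBas a ha T u s G false false true
  simp only [Bool.not_true, Bool.not_false] at r1 r2 r3 r4
  refine (mul_le_mul_of_nonneg_left (lhs hBas a ha T u s G) hκ).trans ?_
  refine le_trans ?_ (mul_le_mul_of_nonneg_left (add_le_add (add_le_add (add_le_add
    (mul_le_mul_of_nonneg_left r1 hκ) (mul_le_mul_of_nonneg_left r2 (by positivity)))
    (mul_le_mul_of_nonneg_left r3 h₁)) (mul_le_mul_of_nonneg_left r4 h₂)) (by norm_num))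
  rw [mul_sum, mul_sum, mul_sum, mul_sum, mul_sum, ← sum_add_distrib, ← sum_add_distrib,
    ← sum_add_distrib, mul_sum]
  refine sum_le_sum fun k _ => ?_
  have h := hFour (Mp N) (AA T u s k true) (AA T u s k false) (PP a u s k) (PP a u s k)
    (dd G u s k true false) (dd G u s k true true) (dd G u s k false false) (dd G u s k false true)
    κ c₁ c₂ (fun x _ => PP_pos ha _ _ _ _) (fun x _ => PP_pos ha _ _ _ _) hκ h₁ h₂ hc
  have := mul_le_mul_of_nonneg_left h (WW_pos ha u s k).le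
  linarith

end Crest.Agent.R304
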