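import Crest.Agent.R304.DefsM

/-! Row 304: from the exchanges along single components to the variance. -/

set_option autoImplicit false

namespace Crest.Agent.R304

open Finset

namespace TOP

variable {N : ℕ}

open Classical in
/-- union of the components of the first `k` vertices -/
noncomputable def U (k : ℕ) (X Y : Mp N) : Finset (Fin N) :=
  univ.filter (fun v => ∃ r : Fin N, r.val < k ∧ v ∈ cls X Y r)

theorem mem_U {k : ℕ} {X Y : Mp N} {v : Fin N} :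
    v ∈ U k X Y ↔ ∃ r : Fin N, r.val < k ∧ v ∈ cls X Y r := by
  simp [U]

/-- exchange along `U k` -/
noncomputable def Ph (k : ℕ) (z : Mp N × Mp N) : Mp N × Mp N :=
  (mix (U k z.1 z.2) z.1 z.2, mix (U k z.1 z.2) z.2 z.1)

theorem mem_MM {σ : Mp N} : σ ∈ MM (∅ : Finset (Fin N)) ↔ (∀ v, σ (σ v) = v) ∧ ∀ v, σ v ≠ v := by
  simp [MM]

theorem cls_mix (hBas : BasStmt) (S : Finset (Fin N)) (X Y : Mp N) (s : Fin N) :
    cls (mix S X Y) (mix S Y X) s = cls X Y s := by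
  refine (hBas N).2.1 X Y _ _ s (fun v _ => ?_)
  by_cases h : v ∈ S <;> simp [mix, h]

theorem U_Ph (hBas : BasStmt) (k : ℕ) (z : Mp N × Mp N) :
    U k (Ph k z).1 (Ph k z).2 = U k z.1 z.2 := by
  ext v
  simp only [mem_U, Ph, cls_mix hBas]

theorem Ph_Ph (hBas : BasStmt) (k : ℕ) (z : Mp N × Mp N) : Ph k (Ph k z) = z := by
  have h := U_Ph hBas k z
  refine Prod.ext ?_ ?_
  · funext v
    show mix (U k (Ph k z).1 (Ph k z).2) (Ph k z).1 (Ph k z).2 v = z.1 v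
    rw [h]
    by_cases hv : v ∈ U k z.1 z.2 <;> simp [Ph, mix, hv]
  · funext v
    show mix (U k (Ph k z).1 (Ph k z).2) (Ph k z).2 (Ph k z).1 v = z.2 v
    rw [h]
    by_cases hv : v ∈ U k z.1 z.2 <;> simp [Ph, mix, hv]

theorem U_closed (hBas : BasStmt) (k : ℕ) (X Y : Mp N) :
    ∀ v ∈ U k X Y, X v ∈ U k X Y ∧ Y v ∈ U k X Y := by
  intro v hv
  obtain ⟨r, hr, hv⟩ := mem_U.1 hv
  have := ((hBas N).1 X Y r).2.1 v hv
  exact ⟨mem_U.2 ⟨r, hr, this.1⟩, mem_U.2 ⟨r, hr, this.2⟩⟩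

theorem mix_mem (hBas : BasStmt) {S : Finset (Fin N)} {X Y : Mp N} (hX : X ∈ MM ∅) (hY : Y ∈ MM ∅)
    (hS : ∀ v ∈ S, X v ∈ S ∧ Y v ∈ S) : mix S X Y ∈ MM (∅ : Finset (Fin N)) := by
  rw [mem_MM] at hX hY ⊢
  refine ⟨((hBas N).2.2.2.1 X Y S hX.1 hY.1 hS).1, fun v => ?_⟩
  by_cases h : v ∈ S <;> simp [mix, h, hX.2 v, hY.2 v]

theorem Ph_mem (hBas : BasStmt) (k : ℕ) {z : Mp N × Mp N}
    (hz : z ∈ (MM (∅ : Finset (Fin N))) ×ˢ (MM (∅ : Finset (Fin N)))) :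
    Ph k z ∈ (MM (∅ : Finset (Fin N))) ×ˢ (MM (∅ : Finset (Fin N))) := by
  rw [mem_product] at hz ⊢
  exact ⟨mix_mem hBas hz.1 hz.2 (U_closed hBas k _ _),
    mix_mem hBas hz.2 hz.1 (fun v hv => (U_closed hBas k _ _ v hv).symm)⟩

theorem Ph_w (hBas : BasStmt) (a : Fin N → Fin N → ℝ) (k : ℕ) {z : Mp N × Mp N}
    (hz : z ∈ (MM (∅ : Finset (Fin N))) ×ˢ (MM (∅ : Finset (Fin N)))) :
    w a (Ph k z).1 * w a (Ph k z).2 = w a z.1 * w a z.2 := by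
  rw [mem_product, mem_MM, mem_MM] at hz
  exact ((hBas N).2.2.2.1 z.1 z.2 _ hz.1.1 hz.2.1 (U_closed hBas k _ _)).2 a

theorem sum_Ph (hBas : BasStmt) (a : Fin N → Fin N → ℝ) (k : ℕ) (h : Mp N × Mp N → ℝ) :
    ∑ z ∈ (MM (∅ : Finset (Fin N))) ×ˢ (MM (∅ : Finset (Fin N))), w a z.1 * w a z.2 * h (Ph k z) =
      ∑ z ∈ (MM (∅ : Finset (Fin N))) ×ˢ (MM (∅ : Finset (Fin N))), w a z.1 * w a z.2 * h z := by
  refine sum_nbij' (Ph k) (Ph k) (fun z hz => Ph_mem hBas k hz) (fun z hz => Ph_mem hBas k hz)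
    (fun z _ => Ph_Ph hBas k z) (fun z _ => Ph_Ph hBas k z) (fun z hz => ?_)
  rw [Ph_w hBas a k hz]

theorem Ph_zero (z : Mp N × Mp N) : (Ph 0 z).1 = z.1 := by
  funext v
  simp [Ph, mix, mem_U]

theorem Ph_top (hBas : BasStmt) (z : Mp N × Mp N) : (Ph N z).1 = z.2 := by
  funext v
  have : v ∈ U N z.1 z.2 := mem_U.2 ⟨v, v.isLt, ((hBas N).1 _ _ v).1⟩
  simp [Ph, mix, this]

theorem Ph_step (hBas : BasStmt) (r : Fin N) {z : Mp N × Mp N}
    (hz : z ∈ (MM (∅ : Finset (Fin N))) ×ˢ (MM (∅ : Finset (Fin N)))) :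
    (Ph (r.val + 1) z).1 = (Ph r.val z).1 ∨ (Ph (r.val + 1) z).1 = (sw r (Ph r.val z)).1 := by
  rw [mem_product, mem_MM, mem_MM] at hz
  have h3 := (hBas N).2.2.1 z.1 z.2
  have hU : ∀ v, v ∈ U (r.val + 1) z.1 z.2 ↔ v ∈ U r.val z.1 z.2 ∨ v ∈ cls z.1 z.2 r := by
    intro v
    simp only [mem_U]
    constructor
    · rintro ⟨t, ht, hv⟩
      rcases Nat.lt_succ_iff_lt_or_eq.1 ht with h | h
      · exact Or.inl ⟨t, h, hv⟩
      · exact Or.inr (Fin.ext h ▸ hv)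
    · rintro (⟨t, ht, hv⟩ | hv)
      · exact ⟨t, by omega, hv⟩
      · exact ⟨r, by omega, hv⟩
  by_cases hr : r ∈ U r.val z.1 z.2
  · left
    obtain ⟨t, ht, hrt⟩ := mem_U.1 hr
    have he := h3 t r hz.1.1 hz.2.1 hrt
    funext v
    have : v ∈ U (r.val + 1) z.1 z.2 ↔ v ∈ U r.val z.1 z.2 := by
      rw [hU]
      exact ⟨fun h => h.elim id (fun h => mem_U.2 ⟨t, ht, he ▸ h⟩), Or.inl⟩
    simp only [Ph, mix, this]
  · right
    funext v
    have hc : cls (Ph r.val z).1 (Ph r.val z).2 r = cls z.1 z.2 r := cls_mix hBas _ _ _ r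
    show mix (U (r.val + 1) z.1 z.2) z.1 z.2 v =
      mix (cls (Ph r.val z).1 (Ph r.val z).2 r) (Ph r.val z).1 (Ph r.val z).2 v
    rw [hc]
    by_cases hv : v ∈ cls z.1 z.2 r
    · have hn : v ∉ U r.val z.1 z.2 := by
        intro h
        obtain ⟨t, ht, hvt⟩ := mem_U.1 h
        have e1 := h3 t v hz.1.1 hz.2.1 hvt
        have e2 := h3 r v hz.1.1 hz.2.1 hv
        exact hr (mem_U.2 ⟨t, ht, e1 ▸ e2 ▸ ((hBas N).1 z.1 z.2 r).1⟩)
      simp [Ph, mix, hU, hv, hn]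
    · simp [Ph, mix, hU, hv]

theorem point (hBas : BasStmt) (g : Mp N → ℝ) {z : Mp N × Mp N}
    (hz : z ∈ (MM (∅ : Finset (Fin N))) ×ˢ (MM (∅ : Finset (Fin N)))) :
    (g z.1 - g z.2) ^ 2 ≤
      N * ∑ r : Fin N, (g (sw r (Ph r.val z)).1 - g (Ph r.val z).1) ^ 2 := by
  have h1 : ∑ k ∈ range N, (g (Ph (k + 1) z).1 - g (Ph k z).1) = g z.2 - g z.1 := by
    rw [sum_range_sub (fun k => g (Ph k z).1), Ph_top hBas, Ph_zero]
  have h2 : (g z.1 - g z.2) ^ 2 =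
      (∑ r : Fin N, (g (Ph (r.val + 1) z).1 - g (Ph r.val z).1)) ^ 2 := by
    rw [Fin.sum_univ_eq_sum_range (fun k => g (Ph (k + 1) z).1 - g (Ph k z).1) N, h1]
    ring
  rw [h2]
  refine (sq_sum_le_card_mul_sum_sq).trans ?_
  rw [card_univ, Fintype.card_fin]
  refine mul_le_mul_of_nonneg_left (sum_le_sum fun r _ => ?_) (Nat.cast_nonneg _)
  rcases Ph_step hBas r hz with h | h
  · rw [h, sub_self]
    have := sq_nonneg (g (sw r (Ph r.val z)).1 - g (Ph r.val z).1)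
    simpa using this
  · rw [h]

end TOP

theorem TOP_proof (hBas : BasStmt) : TopStmt := by
  intro N a g ha
  have hw : ∀ σ, 0 < w a σ := fun σ => (hBas N).2.2.2.2.2.2.2 a σ ha
  rw [← sum_product' (f := fun I F => w a I * w a F * (g I - g F) ^ 2)]
  have h1 : ∀ r : Fin N, ∑ I ∈ MM ∅, ∑ F ∈ MM ∅, w a I * w a F * (g (sw r (I, F)).1 - g I) ^ 2 =
      ∑ z ∈ (MM (∅ : Finset (Fin N))) ×ˢ (MM (∅ : Finset (Fin N))), w a z.1 * w a z.2 *
        (g (sw r (TOP.Ph r.val z)).1 - g (TOP.Ph r.val z).1) ^ 2 := by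
    intro r
    rw [TOP.sum_Ph hBas a r.val (fun z => (g (sw r z).1 - g z.1) ^ 2),
      ← sum_product' (f := fun I F => w a I * w a F * (g (sw r (I, F)).1 - g I) ^ 2)]
  simp only [h1]
  rw [sum_comm, mul_sum]
  refine sum_le_sum fun z hz => ?_
  rw [← mul_sum, mul_left_comm]
  exact mul_le_mul_of_nonneg_left (TOP.point hBas g hz) (mul_pos (hw _) (hw _)).le

end Crest.Agent.R304
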