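import Mathlib

/-! Row 304, task TRI, part a: index arithmetic on the alternating cycle. -/

set_option autoImplicit false

namespace Crest.Agent.R304.TRI

def sn (p q k : ℕ) : ℕ := if k = p then q else if k = q then p else k
def nI (k : ℕ) : ℕ := if k % 2 = 0 then k + 1 else k - 1
def nF (L k : ℕ) : ℕ := if k % 2 = 0 then (if k = 0 then L - 1 else k - 1) else
  (if k + 1 = L then 0 else k + 1)
def hl (σ : Bool) (e e' : ℕ) : ℕ := if σ = decide (e % 2 = 0) then e else e'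
def ad (σ : Bool) (e e' : ℕ) : ℕ := if σ = decide (e % 2 = 0) then e' else e

def cc (i h j j' : ℕ) (τ₀ τ₁ τ₂ : Bool) : Fin 6 → ℕ :=
  if τ₁ = τ₀ then
    (if τ₂ = τ₀ then ![i, ad τ₀ i (i + 1), h, ad τ₀ h (h + 1), j, ad τ₀ j j']
      else ![hl τ₀ h (h + 1), hl (!τ₀) j j', i, ad τ₀ i (i + 1), i, i])
  else
    (if τ₂ = τ₀ then ![hl τ₀ i (i + 1), hl (!τ₀) h (h + 1), j, ad τ₀ j j', i, i]
      else ![hl τ₀ i (i + 1), hl (!τ₀) j j', h, ad (!τ₀) h (h + 1), i, i])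

def en (c : Fin 6 → ℕ) (k : ℕ) : ℕ := sn (c 0) (c 1) (sn (c 2) (c 3) (sn (c 4) (c 5) k))

def Xn (i h j j' k : ℕ) : ℕ := nI (en (cc i h j j' true true true) k)
def Yn (L i h j j' k : ℕ) : ℕ := nF L (en (cc i h j j' false false false) k)

def stn (L i h j j' : ℕ) (τ₀ τ₁ τ₂ : Bool) (k : ℕ) : ℕ :=
  if i + 1 ≤ k ∧ k ≤ h then (if τ₁ then Xn i h j j' k else Yn L i h j j' k)
  else if h + 1 ≤ k ∧ k ≤ j then (if τ₂ then Xn i h j j' k else Yn L i h j j' k)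
  else (if τ₀ then Xn i h j j' k else Yn L i h j j' k)

def chn (L i j k : ℕ) : ℕ :=
  if k = i + i % 2 then j + 1 - j % 2 else if k = j + 1 - j % 2 then i + i % 2
  else if i + i % 2 < k ∧ k < j + 1 - j % 2 then nF L k else nI k

structure Ix (L i h j j' : ℕ) : Prop where
  ev : L % 2 = 0
  ih : i < h
  hj : h < j
  jL : j < L
  jj : (j + 1 < L ∧ j' = j + 1) ∨ (j + 1 = L ∧ j' = 0)

lemma sn_spec (p q k : ℕ) : (k = p ∧ sn p q k = q) ∨ (k ≠ p ∧ k = q ∧ sn p q k = p) ∨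
    (k ≠ p ∧ k ≠ q ∧ sn p q k = k) := by
  unfold sn; split_ifs <;> omega

lemma sn_self (p k : ℕ) : sn p p k = k := by
  unfold sn; split_ifs <;> omega

lemma nI_spec (k : ℕ) : (k % 2 = 0 ∧ nI k = k + 1) ∨ (k % 2 = 1 ∧ nI k + 1 = k) := by
  unfold nI; split_ifs <;> omega

lemma nF_spec (L k : ℕ) : (k = 0 ∧ nF L k = L - 1) ∨ (k % 2 = 0 ∧ k ≠ 0 ∧ nF L k + 1 = k) ∨
    (k % 2 = 1 ∧ k + 1 = L ∧ nF L k = 0) ∨ (k % 2 = 1 ∧ k + 1 ≠ L ∧ nF L k = k + 1) := by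
  unfold nF; split_ifs <;> omega

lemma hl_t (e e' : ℕ) : (e % 2 = 0 ∧ hl true e e' = e) ∨ (e % 2 = 1 ∧ hl true e e' = e') := by
  unfold hl; by_cases h : e % 2 = 0 <;> simp [h]; omega
lemma hl_f (e e' : ℕ) : (e % 2 = 0 ∧ hl false e e' = e') ∨ (e % 2 = 1 ∧ hl false e e' = e) := by
  unfold hl; by_cases h : e % 2 = 0 <;> simp [h]; omega
lemma ad_t (e e' : ℕ) : (e % 2 = 0 ∧ ad true e e' = e') ∨ (e % 2 = 1 ∧ ad true e e' = e) := by
  unfold ad; by_cases h : e % 2 = 0 <;> simp [h]; omega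
lemma ad_f (e e' : ℕ) : (e % 2 = 0 ∧ ad false e e' = e) ∨ (e % 2 = 1 ∧ ad false e e' = e') := by
  unfold ad; by_cases h : e % 2 = 0 <;> simp [h]; omega

variable {L i h j j' : ℕ}

lemma en_same (σ : Bool) (k : ℕ) : en (cc i h j j' σ σ σ) k =
    sn i (ad σ i (i + 1)) (sn h (ad σ h (h + 1)) (sn j (ad σ j j') k)) := by
  simp [en, cc]
lemma en_one (σ : Bool) (k : ℕ) : en (cc i h j j' σ (!σ) σ) k =
    sn (hl σ i (i + 1)) (hl (!σ) h (h + 1)) (sn j (ad σ j j') k) := by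
  cases σ <;> simp [en, cc, sn_self]
lemma en_two (σ : Bool) (k : ℕ) : en (cc i h j j' σ σ (!σ)) k =
    sn (hl σ h (h + 1)) (hl (!σ) j j') (sn i (ad σ i (i + 1)) k) := by
  cases σ <;> simp [en, cc, sn_self]
lemma en_three (σ : Bool) (k : ℕ) : en (cc i h j j' σ (!σ) (!σ)) k =
    sn (hl σ i (i + 1)) (hl (!σ) j j') (sn h (ad (!σ) h (h + 1)) k) := by
  cases σ <;> simp [en, cc, sn_self]

def XH (i h j k : ℕ) : Prop := (i % 2 = 0 ∧ (k = i ∨ k = i + 1)) ∨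
  (h % 2 = 0 ∧ (k = h ∨ k = h + 1)) ∨ (j % 2 = 0 ∧ (k = j ∨ k = j + 1))
def YH (i h j j' k : ℕ) : Prop := (i % 2 = 1 ∧ (k = i ∨ k = i + 1)) ∨
  (h % 2 = 1 ∧ (k = h ∨ k = h + 1)) ∨ (j % 2 = 1 ∧ (k = j ∨ k = j'))

lemma Xn_spec (H : Ix L i h j j') (k : ℕ) :
    (XH i h j k → Xn i h j j' k = k) ∧ (¬ XH i h j k → Xn i h j j' k = nI k) := by
  obtain ⟨h1, h2, h3, h4, h5⟩ := H
  rw [Xn, en_same]
  unfold XH
  rcases ad_t i (i + 1) with ⟨a1, b1⟩ | ⟨a1, b1⟩ <;>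
  rcases ad_t h (h + 1) with ⟨a2, b2⟩ | ⟨a2, b2⟩ <;>
  rcases ad_t j j' with ⟨a3, b3⟩ | ⟨a3, b3⟩ <;> rw [b1, b2, b3] <;> grind (splits := 40) [sn, nI]

lemma Yn_spec (H : Ix L i h j j') (k : ℕ) :
    (YH i h j j' k → Yn L i h j j' k = k) ∧ (¬ YH i h j j' k → Yn L i h j j' k = nF L k) := by
  obtain ⟨h1, h2, h3, h4, h5⟩ := H
  rw [Yn, en_same]
  unfold YH
  rcases ad_f i (i + 1) with ⟨a1, b1⟩ | ⟨a1, b1⟩ <;>
  rcases ad_f h (h + 1) with ⟨a2, b2⟩ | ⟨a2, b2⟩ <;>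
  rcases ad_f j j' with ⟨a3, b3⟩ | ⟨a3, b3⟩ <;> rw [b1, b2, b3] <;> grind (splits := 40) [sn, nF]

lemma par (e e' : ℕ) :
    (e % 2 = 0 ∧ hl true e e' = e ∧ hl false e e' = e' ∧ ad true e e' = e' ∧ ad false e e' = e) ∨
    (e % 2 = 1 ∧ hl true e e' = e' ∧ hl false e e' = e ∧ ad true e e' = e ∧ ad false e e' = e') := by
  unfold hl ad; by_cases h : e % 2 = 0 <;> simp [h]; omega

/-- explicit form of `Xn`, `Yn` -/
lemma XY_spec (H : Ix L i h j j') (k : ℕ) :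
    ((XH i h j k ∧ Xn i h j j' k = k) ∨ (¬ XH i h j k ∧ Xn i h j j' k = nI k)) ∧
    ((YH i h j j' k ∧ Yn L i h j j' k = k) ∨ (¬ YH i h j j' k ∧ Yn L i h j j' k = nF L k)) := by
  have h1 := Xn_spec H k
  have h2 := Yn_spec H k
  tauto

lemma cc_lt (H : Ix L i h j j') (τ₀ τ₁ τ₂ : Bool) (m : Fin 6) : cc i h j j' τ₀ τ₁ τ₂ m < L := by
  obtain ⟨h1, h2, h3, h4, h5⟩ := H
  have p1 := par i (i + 1)
  have p2 := par h (h + 1)
  have p3 := par j j'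
  cases τ₀ <;> cases τ₁ <;> cases τ₂ <;> fin_cases m <;> simp [cc] <;> omega

set_option maxHeartbeats 1000000 in
lemma cc_disj (H : Ix L i h j j') (τ₀ τ₁ τ₂ : Bool) (k : ℕ) :
    (sn (cc i h j j' τ₀ τ₁ τ₂ 0) (cc i h j j' τ₀ τ₁ τ₂ 1) k = k ∨
      sn (cc i h j j' τ₀ τ₁ τ₂ 2) (cc i h j j' τ₀ τ₁ τ₂ 3) k = k) ∧
    (sn (cc i h j j' τ₀ τ₁ τ₂ 0) (cc i h j j' τ₀ τ₁ τ₂ 1) k = k ∨
      sn (cc i h j j' τ₀ τ₁ τ₂ 4) (cc i h j j' τ₀ τ₁ τ₂ 5) k = k) ∧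
    (sn (cc i h j j' τ₀ τ₁ τ₂ 2) (cc i h j j' τ₀ τ₁ τ₂ 3) k = k ∨
      sn (cc i h j j' τ₀ τ₁ τ₂ 4) (cc i h j j' τ₀ τ₁ τ₂ 5) k = k) := by
  obtain ⟨h1, h2, h3, h4, h5⟩ := H
  rcases par i (i + 1) with ⟨a0, a1, a2, a3, a4⟩ | ⟨a0, a1, a2, a3, a4⟩ <;>
  rcases par h (h + 1) with ⟨b0, b1, b2, b3, b4⟩ | ⟨b0, b1, b2, b3, b4⟩ <;>
  rcases par j j' with ⟨c0, c1, c2, c3, c4⟩ | ⟨c0, c1, c2, c3, c4⟩ <;>
  cases τ₀ <;> cases τ₁ <;> cases τ₂ <;>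
  simp [cc, sn_self, a1, a2, a3, a4, b1, b2, b3, b4, c1, c2, c3, c4] <;>
  grind (splits := 40) [sn]

lemma Xn_lt (H : Ix L i h j j') {k : ℕ} (hk : k < L) : Xn i h j j' k < L := by
  have h1 := (XY_spec H k).1
  have := nI_spec k
  have := H.ev
  omega

lemma Yn_lt (H : Ix L i h j j') {k : ℕ} (hk : k < L) : Yn L i h j j' k < L := by
  have h1 := (XY_spec H k).2
  have := nF_spec L k
  have := H.ev
  omega

lemma stn_lt (H : Ix L i h j j') (τ₀ τ₁ τ₂ : Bool) {k : ℕ} (hk : k < L) :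
    stn L i h j j' τ₀ τ₁ τ₂ k < L := by
  have h1 := Xn_lt H hk
  have h2 := Yn_lt H hk
  unfold stn
  split_ifs <;> assumption

lemma clos1 (H : Ix L i h j j') {k : ℕ} (h1 : i + 1 ≤ k) (h2 : k ≤ h) :
    (i + 1 ≤ Xn i h j j' k ∧ Xn i h j j' k ≤ h) ∧
      (i + 1 ≤ Yn L i h j j' k ∧ Yn L i h j j' k ≤ h) ∧
      (k < h → Xn i h j j' k = k + 1 ∨ Yn L i h j j' k = k + 1) := by
  have h3 := XY_spec H k
  obtain ⟨g1, g2, g3, g4, g5⟩ := H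
  grind (splits := 40) [XH, YH, nI, nF]

lemma clos2 (H : Ix L i h j j') {k : ℕ} (h1 : h + 1 ≤ k) (h2 : k ≤ j) :
    (h + 1 ≤ Xn i h j j' k ∧ Xn i h j j' k ≤ j) ∧
      (h + 1 ≤ Yn L i h j j' k ∧ Yn L i h j j' k ≤ j) ∧
      (k < j → Xn i h j j' k = k + 1 ∨ Yn L i h j j' k = k + 1) := by
  have h3 := XY_spec H k
  obtain ⟨g1, g2, g3, g4, g5⟩ := H
  grind (splits := 40) [XH, YH, nI, nF]

lemma clos0 (H : Ix L i h j j') {k : ℕ} (hk : k < L) (h1 : k ≤ i ∨ j < k) :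
    (Xn i h j j' k ≤ i ∨ j < Xn i h j j' k) ∧ (Yn L i h j j' k ≤ i ∨ j < Yn L i h j j' k) := by
  have h3 := XY_spec H k
  obtain ⟨g1, g2, g3, g4, g5⟩ := H
  grind (splits := 40) [XH, YH, nI, nF]

lemma Xn_inv (H : Ix L i h j j') (k : ℕ) : Xn i h j j' (Xn i h j j' k) = k := by
  have h3 := (XY_spec H k).1
  have h4 := (XY_spec H (Xn i h j j' k)).1
  obtain ⟨g1, g2, g3, g4, g5⟩ := H
  grind (splits := 40) [XH, nI]

lemma Yn_inv (H : Ix L i h j j') {k : ℕ} (hk : k < L) : Yn L i h j j' (Yn L i h j j' k) = k := by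
  have h3 := (XY_spec H k).2
  have h4 := (XY_spec H (Yn L i h j j' k)).2
  obtain ⟨g1, g2, g3, g4, g5⟩ := H
  grind (splits := 40) [YH, nF]

lemma stn_inv (H : Ix L i h j j') (τ₀ τ₁ τ₂ : Bool) {k : ℕ} (hk : k < L) :
    stn L i h j j' τ₀ τ₁ τ₂ (stn L i h j j' τ₀ τ₁ τ₂ k) = k := by
  have x1 := Xn_inv H k
  have y1 := Yn_inv H hk
  have hih := H.ih
  have hhj := H.hj
  by_cases h1 : i + 1 ≤ k ∧ k ≤ h
  · have := clos1 H h1.1 h1.2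
    cases τ₁ <;> simp [stn, h1, this, x1, y1]
  · by_cases h2 : h + 1 ≤ k ∧ k ≤ j
    · have h3 := clos2 H h2.1 h2.2
      have h4 : ¬ (Xn i h j j' k ≤ h) := by omega
      have h5 : ¬ (Yn L i h j j' k ≤ h) := by omega
      cases τ₂ <;> simp only [stn, h1, h2, h3, h4, h5, x1, y1, if_true, if_false, and_self,
        and_false, Bool.false_eq_true]
    · have h3 := clos0 H hk (by omega)
      have h4 : ¬ (i + 1 ≤ Xn i h j j' k ∧ Xn i h j j' k ≤ h) := by omega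
      have h5 : ¬ (i + 1 ≤ Yn L i h j j' k ∧ Yn L i h j j' k ≤ h) := by omega
      have h6 : ¬ (h + 1 ≤ Xn i h j j' k ∧ Xn i h j j' k ≤ j) := by omega
      have h7 : ¬ (h + 1 ≤ Yn L i h j j' k ∧ Yn L i h j j' k ≤ j) := by omega
      cases τ₀ <;> simp only [stn, h1, h2, h4, h5, h6, h7, x1, y1, if_true, if_false,
        Bool.false_eq_true]

lemma XY_fix (H : Ix L i h j j') {k : ℕ} (hk : k < L) :
    (Xn i h j j' k = k ↔ XH i h j k) ∧ (Yn L i h j j' k = k ↔ YH i h j j' k) := by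
  have h3 := XY_spec H k
  have := nI_spec k
  have := nF_spec L k
  obtain ⟨g1, g2, g3, g4, g5⟩ := H
  grind (splits := 40)

set_option maxHeartbeats 2000000 in
lemma stn_fix (H : Ix L i h j j') (τ₀ τ₁ τ₂ : Bool) {k : ℕ} (hk : k < L) :
    stn L i h j j' τ₀ τ₁ τ₂ k = k ↔ en (cc i h j j' τ₀ τ₁ τ₂) k ≠ k := by
  obtain ⟨f1, f2⟩ := XY_fix H hk
  obtain ⟨h1, h2, h3, h4, h5⟩ := H
  have key : stn L i h j j' τ₀ τ₁ τ₂ k = k ↔
      if i + 1 ≤ k ∧ k ≤ h then (if τ₁ then XH i h j k else YH i h j j' k)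
      else if h + 1 ≤ k ∧ k ≤ j then (if τ₂ then XH i h j k else YH i h j j' k)
      else (if τ₀ then XH i h j k else YH i h j j' k) := by
    unfold stn
    split_ifs <;> assumption
  rw [key]
  clear key f1 f2
  rcases par i (i + 1) with ⟨a0, a1, a2, a3, a4⟩ | ⟨a0, a1, a2, a3, a4⟩ <;>
  rcases par h (h + 1) with ⟨b0, b1, b2, b3, b4⟩ | ⟨b0, b1, b2, b3, b4⟩ <;>
  rcases par j j' with ⟨c0, c1, c2, c3, c4⟩ | ⟨c0, c1, c2, c3, c4⟩ <;>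
  cases τ₀ <;> cases τ₁ <;> cases τ₂ <;>
  simp [en, cc, sn_self, a0, a1, a2, a3, a4, b0, b1, b2, b3, b4, c0, c1, c2, c3, c4, XH, YH] <;>
  grind (splits := 40) [sn]

set_option maxHeartbeats 2000000 in
lemma stn_chd (H : Ix L i h j j') {k : ℕ} (hk : k < L) :
    stn L i h j j' true false false (en (cc i h j j' true false false) k) = chn L i j k ∧
    stn L i h j j' true false true (en (cc i h j j' true false true) k) = chn L i h k ∧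
    stn L i h j j' true true false (en (cc i h j j' true true false) k) = chn L h j k := by
  have g1 := XY_spec H (en (cc i h j j' true false false) k)
  have g2 := XY_spec H (en (cc i h j j' true false true) k)
  have g3 := XY_spec H (en (cc i h j j' true true false) k)
  obtain ⟨h1, h2, h3, h4, h5⟩ := H
  rcases par i (i + 1) with ⟨a0, a1, a2, a3, a4⟩ | ⟨a0, a1, a2, a3, a4⟩ <;>
  rcases par h (h + 1) with ⟨b0, b1, b2, b3, b4⟩ | ⟨b0, b1, b2, b3, b4⟩ <;>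
  rcases par j j' with ⟨c0, c1, c2, c3, c4⟩ | ⟨c0, c1, c2, c3, c4⟩ <;>
  simp [en, cc, sn_self, a0, a1, a2, a3, a4, b0, b1, b2, b3, b4, c0, c1, c2, c3, c4, XH, YH]
    at g1 g2 g3 ⊢ <;>
  refine ⟨?_, ?_, ?_⟩
  all_goals first
    | (clear g2 g3; simp only [stn, chn, a0, b0, c0]; grind (splits := 60) [sn, nI, nF])
    | (clear g1 g3; simp only [stn, chn, a0, b0, c0]; grind (splits := 60) [sn, nI, nF])
    | (clear g1 g2; simp only [stn, chn, a0, b0, c0]; grind (splits := 60) [sn, nI, nF])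

lemma chn_lt {L i j k : ℕ} (hL : L % 2 = 0) (hij : i < j) (hj : j < L) (hk : k < L) :
    chn L i j k < L := by
  have := nI_spec k
  have := nF_spec L k
  unfold chn
  split_ifs <;> omega

end Crest.Agent.R304.TRI
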