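import Crest.Agent.R304.DefsM
import Crest.Agent.R304.TRIa

/-! Row 304, task TRI: the data of a node of the Cartesian tree. -/

set_option autoImplicit false

namespace Crest.Agent.R304

open Finset Crest.Agent.R309

namespace TRI

variable {N : ℕ}

lemma mem_MM {T : Finset (Fin N)} {σ : Mp N} :
    σ ∈ MM T ↔ (∀ v, σ (σ v) = v) ∧ ∀ v, σ v = v ↔ v ∈ T := by
  simp [MM]

/-- the cycle as an injective parametrisation -/
structure Cy (I F : Mp N) (x : ℕ → Fin N) (L : ℕ) : Prop where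
  ii : ∀ v, I (I v) = v
  ff : ∀ v, F (F v) = v
  ine : ∀ v, I v ≠ v
  fne : ∀ v, F v ≠ v
  ev : L % 2 = 0
  inj : ∀ k < L, ∀ m < L, x k = x m → k = m
  xI : ∀ k < L, I (x k) = x (nI k)
  xF : ∀ k < L, F (x k) = x (nF L k)

lemma cy_of {I F : Mp N} {r : Fin N} {L : ℕ} (hI : I ∈ MM ∅) (hF : F ∈ MM ∅) (h : Cyc I F r L) :
    Cy I F (wk I F r) L := by
  obtain ⟨i1, i2⟩ := mem_MM.mp hI
  obtain ⟨f1, f2⟩ := mem_MM.mp hF
  obtain ⟨h4, -, hev, hL, hinj, -⟩ := h
  have wI : ∀ k, k % 2 = 0 → wk I F r (k + 1) = I (wk I F r k) := fun k hk => by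
    rw [wk, if_pos hk]
  have wF : ∀ k, k % 2 = 1 → wk I F r (k + 1) = F (wk I F r k) := fun k hk => by
    rw [wk, if_neg (by omega)]
  refine ⟨i1, f1, fun v hv => by simpa using (i2 v).mp hv, fun v hv => by simpa using (f2 v).mp hv,
    hev, hinj, fun k hk => ?_, fun k hk => ?_⟩
  · rcases nI_spec k with ⟨a, b⟩ | ⟨a, b⟩
    · rw [b, wI k a]
    · have := wI (nI k) (by omega)
      rw [b] at this
      rw [this, i1]
  · rcases nF_spec L k with ⟨a, b⟩ | ⟨a, a', b⟩ | ⟨a, a', b⟩ | ⟨a, a', b⟩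
    · have := wF (L - 1) (by omega)
      rw [show L - 1 + 1 = L by omega, hL] at this
      have h0 : wk I F r 0 = r := rfl
      rw [b, a, h0]
      conv_lhs => rw [this]
      rw [f1]
    · have := wF (nF L k) (by omega)
      rw [b] at this
      rw [this, f1]
    · rw [b, ← wF k a, a', hL]
      rfl
    · rw [b, wF k a]

section
variable {I F : Mp N} {x : ℕ → Fin N} {L : ℕ}

lemma nI_lt (hL : L % 2 = 0) {k : ℕ} (hk : k < L) : nI k < L := by
  have := nI_spec k; omega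
lemma nF_lt (hL : L % 2 = 0) {k : ℕ} (hk : k < L) : nF L k < L := by
  have := nF_spec L k; omega

lemma Cy.offI (c : Cy I F x L) {v : Fin N} (hv : ∀ k < L, x k ≠ v) : ∀ k < L, x k ≠ I v := by
  intro k hk h
  exact hv (nI k) (nI_lt c.ev hk) (by rw [← c.xI k hk, h, c.ii])

lemma Cy.offF (c : Cy I F x L) {v : Fin N} (hv : ∀ k < L, x k ≠ v) : ∀ k < L, x k ≠ F v := by
  intro k hk h
  exact hv (nF L k) (nF_lt c.ev hk) (by rw [← c.xF k hk, h, c.ff])

lemma Cy.eq_iff (c : Cy I F x L) {k m : ℕ} (hk : k < L) (hm : m < L) : x k = x m ↔ k = m :=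
  ⟨c.inj k hk m hm, fun h => by rw [h]⟩

lemma sn_lt {p q k : ℕ} (hp : p < L) (hq : q < L) (hk : k < L) : sn p q k < L := by
  have := sn_spec p q k; omega

lemma Cy.swap_on (c : Cy I F x L) {p q k : ℕ} (hp : p < L) (hq : q < L) (hk : k < L) :
    Equiv.swap (x p) (x q) (x k) = x (sn p q k) := by
  rw [Equiv.swap_apply_def]
  simp only [c.eq_iff hk hp, c.eq_iff hk hq, sn]
  split_ifs <;> rfl

lemma swap_off {p q : ℕ} (hp : p < L) (hq : q < L) {v : Fin N} (hv : ∀ k < L, x k ≠ v) :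
    Equiv.swap (x p) (x q) v = v :=
  Equiv.swap_apply_of_ne_of_ne (hv p hp).symm (hv q hq).symm

lemma en_lt {c : Fin 6 → ℕ} (hc : ∀ m, c m < L) {k : ℕ} (hk : k < L) : en c k < L :=
  sn_lt (hc 0) (hc 1) (sn_lt (hc 2) (hc 3) (sn_lt (hc 4) (hc 5) hk))

lemma Cy.e6_on (c : Cy I F x L) {d : Fin 6 → ℕ} (hd : ∀ m, d m < L) {k : ℕ} (hk : k < L) :
    e6 (fun m => x (d m)) (x k) = x (en d k) := by
  simp only [e6, en]
  rw [c.swap_on (hd 4) (hd 5) hk, c.swap_on (hd 2) (hd 3) (sn_lt (hd 4) (hd 5) hk),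
    c.swap_on (hd 0) (hd 1) (sn_lt (hd 2) (hd 3) (sn_lt (hd 4) (hd 5) hk))]

lemma e6_off {d : Fin 6 → ℕ} (hd : ∀ m, d m < L) {v : Fin N} (hv : ∀ k < L, x k ≠ v) :
    e6 (fun m => x (d m)) v = v := by
  simp only [e6]
  rw [swap_off (hd 4) (hd 5) hv, swap_off (hd 2) (hd 3) hv, swap_off (hd 0) (hd 1) hv]

lemma on_or_off (x : ℕ → Fin N) (L : ℕ) (v : Fin N) : (∃ k < L, x k = v) ∨ ∀ k < L, x k ≠ v := by
  by_cases h : ∃ k < L, x k = v
  · exact Or.inl h
  · exact Or.inr fun k hk h2 => h ⟨k, hk, h2⟩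

lemma Cy.disj (c : Cy I F x L) {p q p' q' : ℕ} (hp : p < L) (hq : q < L) (hp' : p' < L)
    (hq' : q' < L) (h : ∀ k, sn p q k = k ∨ sn p' q' k = k) (v : Fin N) :
    Equiv.swap (x p) (x q) v = v ∨ Equiv.swap (x p') (x q') v = v := by
  rcases on_or_off x L v with ⟨k, hk, rfl⟩ | hv
  · rw [c.swap_on hp hq hk, c.swap_on hp' hq' hk]
    rcases h k with h1 | h1
    · exact Or.inl (by rw [h1])
    · exact Or.inr (by rw [h1])
  · exact Or.inl (swap_off hp hq hv)

lemma mem_img (c : Cy I F x L) {p q k : ℕ} (hq : q < L) (hk : k < L) :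
    x k ∈ (Icc p q).image x ↔ p ≤ k ∧ k ≤ q := by
  rw [Finset.mem_image]
  constructor
  · rintro ⟨m, hm, h⟩
    rw [Finset.mem_Icc] at hm
    have := c.inj m (by omega) k hk h
    omega
  · exact fun h => ⟨k, Finset.mem_Icc.mpr h, rfl⟩

lemma not_mem_img {p q : ℕ} (hq : q < L) {v : Fin N} (hv : ∀ k < L, x k ≠ v) :
    v ∉ (Icc p q).image x := by
  rw [Finset.mem_image]
  rintro ⟨m, hm, h⟩
  exact hv m (by have := (Finset.mem_Icc.mp hm).2; omega) h

lemma cls_eq (hBas : BasStmt) {X Y : Mp N} {fx fy : ℕ → ℕ} {p q : ℕ} (hpq : p ≤ q) (hq : q < L)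
    (hX : ∀ k < L, X (x k) = x (fx k)) (hY : ∀ k < L, Y (x k) = x (fy k))
    (h : ∀ k, p ≤ k → k ≤ q → (p ≤ fx k ∧ fx k ≤ q) ∧ (p ≤ fy k ∧ fy k ≤ q) ∧
      (k < q → fx k = k + 1 ∨ fy k = k + 1)) :
    cls X Y (x p) = (Icc p q).image x := by
  obtain ⟨b1, b2, b3⟩ := (hBas N).1 X Y (x p)
  refine Finset.Subset.antisymm (b3 _ (Finset.mem_image_of_mem _ (by simp [hpq])) ?_) ?_
  · intro v hv
    obtain ⟨k, hk, rfl⟩ := Finset.mem_image.mp hv
    rw [Finset.mem_Icc] at hk
    obtain ⟨h1, h2, -⟩ := h k hk.1 hk.2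
    rw [hX k (by omega), hY k (by omega)]
    exact ⟨Finset.mem_image_of_mem _ (Finset.mem_Icc.mpr h1),
      Finset.mem_image_of_mem _ (Finset.mem_Icc.mpr h2)⟩
  · have key : ∀ k, p ≤ k → k ≤ q → x k ∈ cls X Y (x p) := by
      intro k hk
      induction k, hk using Nat.le_induction with
      | base => exact fun _ => b1
      | succ k hk ih =>
        intro hkq
        obtain ⟨c1, c2⟩ := b2 _ (ih (by omega))
        rw [hX k (by omega)] at c1
        rw [hY k (by omega)] at c2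
        rcases (h k hk (by omega)).2.2 (by omega) with h1 | h1
        · rwa [h1] at c1
        · rwa [h1] at c2
    intro v hv
    obtain ⟨k, hk, rfl⟩ := Finset.mem_image.mp hv
    rw [Finset.mem_Icc] at hk
    exact key k hk.1 hk.2

end

/-- weight of a (possibly trivial) transposition -/
noncomputable def wsq (a : Fin N → Fin N → ℝ) (p q : Fin N) : ℝ := if p = q then 1 else a p q ^ 2

lemma w_swap (hBas : BasStmt) {a : Fin N → Fin N → ℝ} (ha : Wt a) (p q : Fin N) :
    w a (Equiv.swap p q) = wsq a p q := by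
  unfold wsq
  split_ifs with h
  · subst h
    simp [w]
  · exact ((hBas N).2.2.2.2.2.2.1 a ∅ p q ha h (by simp) (by simp)).1

lemma e6_good (hBas : BasStmt) {a : Fin N → Fin N → ℝ} (ha : Wt a) (c : Fin 6 → Fin N)
    (h1 : ∀ v, Equiv.swap (c 0) (c 1) v = v ∨ Equiv.swap (c 2) (c 3) v = v)
    (h2 : ∀ v, Equiv.swap (c 0) (c 1) v = v ∨ Equiv.swap (c 4) (c 5) v = v)
    (h3 : ∀ v, Equiv.swap (c 2) (c 3) v = v ∨ Equiv.swap (c 4) (c 5) v = v) :
    (∀ v, e6 c (e6 c v) = v) ∧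
      w a (e6 c) = wsq a (c 0) (c 1) * wsq a (c 2) (c 3) * wsq a (c 4) (c 5) := by
  have B := (hBas N).2.2.2.2.2.1
  obtain ⟨a1, a2, a3⟩ := B (Equiv.swap (c 2) (c 3)) (Equiv.swap (c 4) (c 5))
    (Equiv.swap_apply_self _ _) (Equiv.swap_apply_self _ _) h3
  obtain ⟨b1, -, b3⟩ := B (Equiv.swap (c 0) (c 1))
    (Equiv.swap (c 2) (c 3) ∘ Equiv.swap (c 4) (c 5)) (Equiv.swap_apply_self _ _) a1 (fun v => by
      rw [a2 v]
      have := h1 v
      have := h2 v
      tauto)
  refine ⟨b1, ?_⟩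
  have := b3 a
  rw [a3 a, w_swap hBas ha, w_swap hBas ha, w_swap hBas ha] at this
  rw [mul_assoc]
  exact this

/-- chords along the cycle -/
lemma chord {a : Fin N → Fin N → ℝ} {C : ℝ} {I F : Mp N} {r : Fin N} {L : ℕ} (hU : Ult a r C)
    (hc : Cyc I F r L) (cy : Cy I F (wk I F r) L) {p q : ℕ} (hpq : p < q) (hq : q ≤ L)
    (h0 : ¬ (p = 0 ∧ q = L)) {l : ℝ} (hl0 : 0 ≤ l) (hl : ∀ m, p ≤ m → m < q → l ≤ lev a I F r m) :
    l ^ 2 ≤ C ^ 2 * a (wk I F r p) (wk I F r q) ^ 2 := by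
  have hL : wk I F r L = wk I F r 0 := hc.2.2.2.1
  have hne : ∀ s t, s < t → t ≤ L → ¬ (s = 0 ∧ t = L) → wk I F r s ≠ wk I F r t := by
    intro s t h1 h2 h3 h4
    rcases Nat.lt_or_ge t L with h5 | h5
    · have := cy.inj s (by omega) t h5 h4
      omega
    · rw [show t = L by omega, hL] at h4
      have := cy.inj s (by omega) 0 (by omega) h4
      omega
  have h4 := hc.1
  have := hU.2 (fun m => wk I F r (p + m)) (q - p) l (by have := hc.2.1; omega)
    (by rw [show p + (q - p) = q by omega]; exact hne p q hpq hq h0)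
    (fun m h1 h2 => (hne 0 (p + m) (by omega) (by omega) (by omega)).symm)
    (fun m h1 => ⟨hne (p + m) (p + (m + 1)) (by omega) (by omega) (by omega),
      hl (p + m) (by omega) (by omega)⟩)
  simp only [add_zero, show p + (q - p) = q by omega] at this
  rw [← mul_pow]
  exact pow_le_pow_left₀ hl0 this 2

end TRI

open TRI in
theorem TRI_proof (hBas : BasStmt) (hCost : CostStmt) : TriStmt := by
  intro N a C I F r L i h j ha hC hU hI hF hc hih hhj hjL li lj lk
  have cy := cy_of hI hF hc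
  set x := wk I F r with hx
  obtain ⟨j', hj'⟩ : ∃ j', (j + 1 < L ∧ j' = j + 1) ∨ (j + 1 = L ∧ j' = 0) := by
    by_cases h1 : j + 1 < L
    · exact ⟨_, Or.inl ⟨h1, rfl⟩⟩
    · exact ⟨_, Or.inr ⟨by omega, rfl⟩⟩
  have H : Ix L i h j j' := ⟨cy.ev, hih, hhj, hjL, hj'⟩
  have xj : x j' = x (j + 1) := by
    rcases hj' with ⟨-, h1⟩ | ⟨h1, h2⟩
    · rw [h1]
    · rw [h1, h2]
      exact (hc.2.2.2.1).symm
  have hlt := cc_lt H
  let D : Dat N := (x (i + 1), x (h + 1), fun τ₀ τ₁ τ₂ m => x (cc i h j j' τ₀ τ₁ τ₂ m))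
  have ceD : ∀ τ₀ τ₁ τ₂, ce D τ₀ τ₁ τ₂ = e6 fun m => x (cc i h j j' τ₀ τ₁ τ₂ m) := fun _ _ _ => rfl
  have good : ∀ τ₀ τ₁ τ₂, (∀ v, ce D τ₀ τ₁ τ₂ (ce D τ₀ τ₁ τ₂ v) = v) ∧
      w a (ce D τ₀ τ₁ τ₂) = wsq a (x (cc i h j j' τ₀ τ₁ τ₂ 0)) (x (cc i h j j' τ₀ τ₁ τ₂ 1)) *
        wsq a (x (cc i h j j' τ₀ τ₁ τ₂ 2)) (x (cc i h j j' τ₀ τ₁ τ₂ 3)) *
        wsq a (x (cc i h j j' τ₀ τ₁ τ₂ 4)) (x (cc i h j j' τ₀ τ₁ τ₂ 5)) := by
    intro τ₀ τ₁ τ₂
    rw [ceD]
    exact e6_good hBas ha _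
      (cy.disj (hlt _ _ _ _) (hlt _ _ _ _) (hlt _ _ _ _) (hlt _ _ _ _)
        fun k => (cc_disj H τ₀ τ₁ τ₂ k).1)
      (cy.disj (hlt _ _ _ _) (hlt _ _ _ _) (hlt _ _ _ _) (hlt _ _ _ _)
        fun k => (cc_disj H τ₀ τ₁ τ₂ k).2.1)
      (cy.disj (hlt _ _ _ _) (hlt _ _ _ _) (hlt _ _ _ _) (hlt _ _ _ _)
        fun k => (cc_disj H τ₀ τ₁ τ₂ k).2.2)
  have ceon : ∀ τ₀ τ₁ τ₂, ∀ k < L, ce D τ₀ τ₁ τ₂ (x k) = x (en (cc i h j j' τ₀ τ₁ τ₂) k) :=
    fun τ₀ τ₁ τ₂ k hk => by rw [ceD]; exact cy.e6_on (hlt _ _ _) hk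
  have ceoff : ∀ τ₀ τ₁ τ₂ v, (∀ k < L, x k ≠ v) → ce D τ₀ τ₁ τ₂ v = v :=
    fun τ₀ τ₁ τ₂ v hv => by rw [ceD]; exact e6_off (hlt _ _ _) hv
  set X : Mp N := I ∘ ce D true true true with hX
  set Y : Mp N := F ∘ ce D false false false with hY
  have Xon : ∀ k < L, X (x k) = x (Xn i h j j' k) := fun k hk => by
    rw [hX, Function.comp_apply, ceon _ _ _ k hk, cy.xI _ (en_lt (hlt _ _ _) hk), Xn]
  have Yon : ∀ k < L, Y (x k) = x (Yn L i h j j' k) := fun k hk => by
    rw [hY, Function.comp_apply, ceon _ _ _ k hk, cy.xF _ (en_lt (hlt _ _ _) hk), Yn]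
  have Xoff : ∀ v, (∀ k < L, x k ≠ v) → X v = I v := fun v hv => by
    rw [hX, Function.comp_apply, ceoff _ _ _ v hv]
  have Yoff : ∀ v, (∀ k < L, x k ≠ v) → Y v = F v := fun v hv => by
    rw [hY, Function.comp_apply, ceoff _ _ _ v hv]
  have cl1 : cls X Y (x (i + 1)) = (Icc (i + 1) h).image x :=
    cls_eq hBas (by omega) (by omega) Xon Yon fun k h1 h2 => clos1 H h1 h2
  have cl2 : cls X Y (x (h + 1)) = (Icc (h + 1) j).image x :=
    cls_eq hBas (by omega) hjL Xon Yon fun k h1 h2 => clos2 H h1 h2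
  have ston : ∀ τ₀ τ₁ τ₂, ∀ k < L, st X Y (x (i + 1)) (x (h + 1)) τ₀ τ₁ τ₂ (x k) =
      x (stn L i h j j' τ₀ τ₁ τ₂ k) := by
    intro τ₀ τ₁ τ₂ k hk
    simp only [st, stn, cl1, cl2, mem_img cy (show h < L by omega) hk, mem_img cy hjL hk,
      Xon k hk, Yon k hk]
    split_ifs <;> rfl
  have stoff : ∀ τ₀ τ₁ τ₂ v, (∀ k < L, x k ≠ v) → st X Y (x (i + 1)) (x (h + 1)) τ₀ τ₁ τ₂ v =
      if τ₀ then I v else F v := by
    intro τ₀ τ₁ τ₂ v hv
    simp only [st, cl1, cl2, not_mem_img (show h < L by omega) hv, not_mem_img hjL hv,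
      Xoff v hv, Yoff v hv, if_false]
  have chon : ∀ p q, p < q → q < L → ∀ k < L, chd I F r p q (x k) = x (chn L p q k) := by
    intro p q hpq hq k hk
    have hev := cy.ev
    have e1 : p + p % 2 < L := by omega
    have e2 : q + 1 - q % 2 < L := by omega
    have e3 : x k ∈ (Ioo (p + p % 2) (q + 1 - q % 2)).image x ↔
        p + p % 2 < k ∧ k < q + 1 - q % 2 := by
      rw [Finset.mem_image]
      constructor
      · rintro ⟨m, hm, h1⟩
        rw [Finset.mem_Ioo] at hm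
        have := cy.inj m (by omega) k hk h1
        omega
      · exact fun h1 => ⟨k, Finset.mem_Ioo.mpr h1, rfl⟩
    simp only [chd, chn, ← hx, cy.eq_iff hk e1, cy.eq_iff hk e2, e3, cy.xI k hk, cy.xF k hk]
    split_ifs <;> rfl
  have choff : ∀ p q, p < q → q < L → ∀ v, (∀ k < L, x k ≠ v) → chd I F r p q v = I v := by
    intro p q hpq hq v hv
    have hev := cy.ev
    have e1 : v ≠ x (p + p % 2) := (hv _ (by omega)).symm
    have e2 : v ≠ x (q + 1 - q % 2) := (hv _ (by omega)).symm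
    have e3 : v ∉ (Ioo (p + p % 2) (q + 1 - q % 2)).image x := by
      rw [Finset.mem_image]
      rintro ⟨m, hm, h1⟩
      exact hv m (by have := (Finset.mem_Ioo.mp hm).2; omega) h1
    simp only [chd, ← hx, e1, e2, e3, if_false]
  have closed : ∀ τ₁ τ₂ p q, p < q → q < L → (∀ k < L, stn L i h j j' true τ₁ τ₂
      (en (cc i h j j' true τ₁ τ₂) k) = chn L p q k) →
      st X Y (x (i + 1)) (x (h + 1)) true τ₁ τ₂ ∘ ce D true τ₁ τ₂ = chd I F r p q := by
    intro τ₁ τ₂ p q hpq hq h1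
    funext v
    rcases on_or_off x L v with ⟨k, hk, rfl⟩ | hv
    · rw [Function.comp_apply, ceon _ _ _ k hk, ston _ _ _ _ (en_lt (hlt _ _ _) hk), h1 k hk,
        chon p q hpq hq k hk]
    · rw [Function.comp_apply, ceoff _ _ _ v hv, stoff _ _ _ v hv, choff p q hpq hq v hv,
        if_pos rfl]
  refine ⟨D, ⟨fun τ₀ τ₁ τ₂ => (good τ₀ τ₁ τ₂).1, ?_⟩, ⟨?_, fun τ₀ τ₁ τ₂ => ?_⟩, fun g => ?_⟩
  · have hev := cy.ev
    have xj' : ∀ σ, x (hl σ j j') = x (hl σ j (j + 1)) := by
      intro σ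
      unfold hl
      split_ifs
      exacts [rfl, xj]
    have sqad : ∀ (σ : Bool) (e e' : ℕ), e < L → e' < L → e ≠ e' →
        wsq a (x e) (x (ad σ e e')) = fa (decide (e % 2 = 0)) σ (a (x e) (x e') ^ 2) := by
      intro σ e e' he he' hne
      unfold ad fa wsq
      by_cases h1 : σ = decide (e % 2 = 0)
      · rw [if_pos h1, if_pos h1, if_neg (fun h2 => hne (cy.inj e he e' he' h2))]
      · rw [if_neg h1, if_neg h1, if_pos rfl]
    have sqne : ∀ p q, p < L → q < L → p ≠ q → wsq a (x p) (x q) = a (x p) (x q) ^ 2 :=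
      fun p q hp hq hne => if_neg fun h2 => hne (cy.inj p hp q hq h2)
    have sq1 : ∀ p, wsq a p p = 1 := fun p => if_pos rfl
    have p1 := par i (i + 1)
    have p2 := par h (h + 1)
    have p3 := par j j'
    have p4 := par j (j + 1)
    have s0 := fun σ => sqad σ i (i + 1) (by omega) (by omega) (by omega)
    have s1 := fun σ => sqad σ h (h + 1) (by omega) (by omega) (by omega)
    have s2 := fun σ => sqad σ j j' (by omega) (by omega) (by omega)
    have t1 : ∀ σ, wsq a (x (hl σ i (i + 1))) (x (hl (!σ) h (h + 1))) =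
        a (x (hl σ i (i + 1))) (x (hl (!σ) h (h + 1))) ^ 2 := fun σ => by
      cases σ <;> exact sqne _ _ (by omega) (by simp only [Bool.not_true, Bool.not_false]; omega)
        (by simp only [Bool.not_true, Bool.not_false]; omega)
    have t2 : ∀ σ, wsq a (x (hl σ h (h + 1))) (x (hl (!σ) j j')) =
        a (x (hl σ h (h + 1))) (x (hl (!σ) j j')) ^ 2 := fun σ => by
      cases σ <;> exact sqne _ _ (by omega) (by simp only [Bool.not_true, Bool.not_false]; omega)
        (by simp only [Bool.not_true, Bool.not_false]; omega)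
    have t3 : ∀ σ, wsq a (x (hl σ i (i + 1))) (x (hl (!σ) j j')) =
        a (x (hl σ i (i + 1))) (x (hl (!σ) j j')) ^ 2 := fun σ => by
      cases σ <;> exact sqne _ _ (by omega) (by simp only [Bool.not_true, Bool.not_false]; omega)
        (by simp only [Bool.not_true, Bool.not_false]; omega)
    have hw : (fun τ₀ τ₁ τ₂ => w a (ce D τ₀ τ₁ τ₂)) =
        om (decide (i % 2 = 0)) (decide (h % 2 = 0)) (decide (j % 2 = 0))
          (lev a I F r i ^ 2) (lev a I F r h ^ 2) (lev a I F r j ^ 2)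
          (fun σ => a (x (hl σ i (i + 1))) (x (hl (!σ) h (h + 1))) ^ 2)
          (fun σ => a (x (hl σ h (h + 1))) (x (hl (!σ) j j')) ^ 2)
          (fun σ => a (x (hl σ i (i + 1))) (x (hl (!σ) j j')) ^ 2) := by
      funext τ₀ τ₁ τ₂
      rw [(good τ₀ τ₁ τ₂).2]
      have l2 : lev a I F r j = a (x j) (x j') := by rw [xj]; rfl
      have l0 : lev a I F r i = a (x i) (x (i + 1)) := rfl
      have l1 : lev a I F r h = a (x h) (x (h + 1)) := rfl
      rw [l0, l1, l2]
      unfold om cc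
      split_ifs <;> simp only [Matrix.cons_val, s0, s1, s2, t1, t2, t3, sq1, mul_one]
    have pos : ∀ k, 0 < lev a I F r k := fun k => (ha _ _).1
    have hlh : ∀ m, i < m → m < j → lev a I F r i ≤ lev a I F r m ∧
        lev a I F r j ≤ lev a I F r m ∧ lev a I F r h ≤ lev a I F r m := fun m h1 h2 =>
      ⟨li.trans (lk m h1 h2), lj.trans (lk m h1 h2), lk m h1 h2⟩
    have ite_sq : ∀ (c : Prop) [Decidable c] (u v : ℝ), (if c then u ^ 2 else v ^ 2) =
        (if c then u else v) ^ 2 := by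
      intro c _ u v
      split_ifs <;> rfl
    have dec : ∀ (σ : Bool) (e e' : ℕ), (σ = decide (e % 2 = 0) ∧ hl σ e e' = e ∧
        hl (!σ) e e' = e') ∨ (¬ σ = decide (e % 2 = 0) ∧ hl σ e e' = e' ∧ hl (!σ) e e' = e) := by
      intro σ e e'
      unfold hl
      cases σ <;> cases decide (e % 2 = 0) <;> simp
    rw [hw, show C ^ 4 = (C ^ 2) ^ 2 by ring]
    refine hCost _ _ _ _ _ _ _ _ _ _ (pow_pos (pos i) 2) (pow_pos (pos j) 2)
      (pow_le_pow_left₀ (pos i).le li 2) (pow_le_pow_left₀ (pos j).le lj 2)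
      (one_le_pow₀ hC) (fun σ => ?_) (fun σ => ?_) (fun σ => ?_)
    · rw [ite_sq]
      refine chord hU hc cy (by cases σ <;> simp only [Bool.not_true, Bool.not_false] <;> omega)
        (by cases σ <;> simp only [Bool.not_true, Bool.not_false] <;> omega)
        (by cases σ <;> simp only [Bool.not_true, Bool.not_false] <;> omega)
        (by split_ifs; exacts [(pos i).le, (pos h).le]) fun m h1 h2 => ?_
      have h3 : m < j := by rcases dec σ h (h + 1) with h4 | h4 <;> omega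
      rcases dec σ i (i + 1) with ⟨h4, h5, -⟩ | ⟨h4, h5, -⟩
      · rw [if_pos h4]
        rcases Nat.eq_or_lt_of_le (h5 ▸ h1 : i ≤ m) with rfl | h6
        exacts [le_rfl, (hlh m h6 h3).1]
      · rw [if_neg h4]
        exact (hlh m (by omega) h3).2.2
    · rw [ite_sq, xj']
      refine chord hU hc cy (by cases σ <;> simp only [Bool.not_true, Bool.not_false] <;> omega)
        (by cases σ <;> simp only [Bool.not_true, Bool.not_false] <;> omega)
        (by cases σ <;> simp only [Bool.not_true, Bool.not_false] <;> omega)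
        (by split_ifs; exacts [(pos j).le, (pos h).le]) fun m h1 h2 => ?_
      have h3 : i < m := by rcases dec σ h (h + 1) with h4 | h4 <;> omega
      rcases dec σ j (j + 1) with ⟨h4, -, h5⟩ | ⟨h4, -, h5⟩
      · rw [if_pos h4]
        rcases Nat.eq_or_lt_of_le (show m ≤ j by omega) with rfl | h6
        exacts [le_rfl, (hlh m h3 h6).2.1]
      · rw [if_neg h4]
        exact (hlh m h3 (by omega)).2.2
    · rw [ite_sq, ite_sq, xj']
      have n1 : 0 ≤ (if σ = decide (i % 2 = 0) then lev a I F r i else lev a I F r h) := by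
        split_ifs; exacts [(pos i).le, (pos h).le]
      have n2 : 0 ≤ (if σ = decide (j % 2 = 0) then lev a I F r j else lev a I F r h) := by
        split_ifs; exacts [(pos j).le, (pos h).le]
      have hmin : ∀ u v : ℝ, 0 ≤ u → 0 ≤ v → min (u ^ 2) (v ^ 2) = min u v ^ 2 := by
        intro u v hu hv
        rcases le_total u v with h1 | h1
        · rw [min_eq_left h1, min_eq_left (pow_le_pow_left₀ hu h1 2)]
        · rw [min_eq_right h1, min_eq_right (pow_le_pow_left₀ hv h1 2)]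
      rw [hmin _ _ n1 n2]
      refine chord hU hc cy (by cases σ <;> simp only [Bool.not_true, Bool.not_false] <;> omega)
        (by cases σ <;> simp only [Bool.not_true, Bool.not_false] <;> omega)
        (by cases σ <;> simp only [Bool.not_true, Bool.not_false] <;> omega)
        (le_min n1 n2) fun m h1 h2 => ?_
      by_cases h3 : m = i
      · refine (min_le_left _ _).trans ?_
        rcases dec σ i (i + 1) with ⟨h4, h5, -⟩ | ⟨h4, h5, -⟩
        · rw [if_pos h4, h3]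
        · omega
      by_cases h3' : m = j
      · refine (min_le_right _ _).trans ?_
        rcases dec σ j (j + 1) with ⟨h4, -, h5⟩ | ⟨h4, -, h5⟩
        · rw [if_pos h4, h3']
        · omega
      have h6 : i < m := by rcases dec σ i (i + 1) with h4 | h4 <;> omega
      have h7 : m < j := by rcases dec σ j (j + 1) with h4 | h4 <;> omega
      refine (min_le_left _ _).trans ?_
      split_ifs
      exacts [(hlh m h6 h7).1, (hlh m h6 h7).2.2]
  · show Disjoint (cls X Y (x (i + 1))) (cls X Y (x (h + 1)))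
    rw [cl1, cl2, Finset.disjoint_left]
    intro v h1 h2
    obtain ⟨k, hk, rfl⟩ := Finset.mem_image.mp h1
    rw [Finset.mem_Icc] at hk
    have := (mem_img cy hjL (show k < L by omega)).mp h2
    omega
  · show st X Y (x (i + 1)) (x (h + 1)) τ₀ τ₁ τ₂ ∈ MM (supp (ce D τ₀ τ₁ τ₂))
    refine mem_MM.mpr ⟨fun v => ?_, fun v => ?_⟩
    · rcases on_or_off x L v with ⟨k, hk, rfl⟩ | hv
      · rw [ston _ _ _ k hk, ston _ _ _ _ (stn_lt H _ _ _ hk), stn_inv H _ _ _ hk]
      · rw [stoff _ _ _ v hv]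
        cases τ₀
        · simp only [Bool.false_eq_true, if_false]
          rw [stoff _ _ _ _ (cy.offF hv)]
          simpa using cy.ff v
        · simp only [if_true]
          rw [stoff _ _ _ _ (cy.offI hv)]
          simpa using cy.ii v
    · simp only [supp, Finset.mem_filter, Finset.mem_univ, true_and]
      rcases on_or_off x L v with ⟨k, hk, rfl⟩ | hv
      · rw [ston _ _ _ k hk, ceon _ _ _ k hk, cy.eq_iff (stn_lt H _ _ _ hk) hk, ne_eq,
          cy.eq_iff (en_lt (hlt _ _ _) hk) hk]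
        exact stn_fix H _ _ _ hk
      · rw [stoff _ _ _ v hv, ceoff _ _ _ v hv]
        cases τ₀
        · simpa using cy.fne v
        · simpa using cy.ine v
  · have e4 : st X Y (x (i + 1)) (x (h + 1)) true true true ∘ ce D true true true = I := by
      funext v
      have : st X Y (x (i + 1)) (x (h + 1)) true true true = X := by
        funext u
        simp [st]
      rw [this, hX, Function.comp_apply, Function.comp_apply, (good true true true).1]
    show g (st X Y (x (i + 1)) (x (h + 1)) true false false ∘ ce D true false false) -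
      g (st X Y (x (i + 1)) (x (h + 1)) true false true ∘ ce D true false true) -
      g (st X Y (x (i + 1)) (x (h + 1)) true true false ∘ ce D true true false) +
      g (st X Y (x (i + 1)) (x (h + 1)) true true true ∘ ce D true true true) = _
    rw [closed false false i j (by omega) hjL fun k hk => (stn_chd H hk).1,
      closed false true i h hih (by omega) fun k hk => (stn_chd H hk).2.1,
      closed true false h j hhj hjL fun k hk => (stn_chd H hk).2.2, e4]

end Crest.Agent.R304
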