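import Crest.Agent.R304.DefsM

/-! Row 304, task ULT: the rescaled weights are a quasi-ultrametric. -/

set_option autoImplicit false

namespace Crest.Agent.R304

open Finset

namespace ULT

variable {N : ℕ}

/-- normalised weight of the matchings with two holes -/
noncomputable def B (a : Fin N → Fin N → ℝ) (p q : Fin N) : ℝ := Z a {p, q} / Z a ∅

lemma B_comm (a : Fin N → Fin N → ℝ) (p q : Fin N) : B a p q = B a q p := by
  unfold B; rw [Finset.pair_comm]

lemma bounds (hBas : BasStmt) (a : Fin N → Fin N → ℝ) (ε : ℝ) (ha : Wt a) (hN : NF a ε)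
    (p q : Fin N) (hpq : p ≠ q) : ε ≤ a p q ^ 2 * B a p q ∧ a p q ^ 2 * B a p q ≤ 1 := by
  obtain ⟨h0, h1⟩ := hN
  obtain ⟨-, h2, h3⟩ := (hBas N).2.2.2.2.2.2.1 a ∅ p q ha hpq (by simp) (by simp)
  have e : (insert p (insert q (∅ : Finset (Fin N)))) = {p, q} := by simp
  rw [e] at h2 h3
  have h4 := h1 p q hpq
  unfold ZE at h4
  rw [h2] at h4
  unfold B
  rw [← mul_div_assoc]
  constructor
  · rw [le_div_iff₀ h0]; exact h4
  · rw [div_le_iff₀ h0]; linarith

lemma B_pos (hBas : BasStmt) (a : Fin N → Fin N → ℝ) (ε : ℝ) (ha : Wt a) (hε : 0 < ε)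
    (hN : NF a ε) (p q : Fin N) (hpq : p ≠ q) : 0 < B a p q := by
  have h := (bounds hBas a ε ha hN p q hpq).1
  have h2 : 0 < a p q ^ 2 := pow_pos (ha p q).1 2
  by_contra hc
  have : a p q ^ 2 * B a p q ≤ 0 := mul_nonpos_of_nonneg_of_nonpos h2.le (not_lt.1 hc)
  linarith

lemma wick (hBas : BasStmt) (hWick : WickStmt) (a : Fin N → Fin N → ℝ) (ε : ℝ) (ha : Wt a)
    (hε : 0 < ε) (hN : NF a ε) (p q v r : Fin N) (hpq : p ≠ q) (hpv : p ≠ v) (hpr : p ≠ r)
    (hqv : q ≠ v) (hqr : q ≠ r) (hvr : v ≠ r) :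
    a v q ^ 2 * (B a p q * B a v r) ≤ 2 * B a p r + a v q ^ 2 * (B a p v * B a q r) := by
  have h0 := hN.1
  have h1 := hWick N a p q v r ha hpq hpv hpr hqv hqr hvr
  obtain ⟨-, -, h3⟩ := (hBas N).2.2.2.2.2.2.1 a {p, r} v q ha hqv.symm
    (by simp [hpv.symm, hvr]) (by simp [hpq.symm, hqr])
  have e : (insert v (insert q ({p, r} : Finset (Fin N)))) = {p, q, v, r} := by
    ext y; simp only [mem_insert, mem_singleton]; tauto
  rw [e] at h3
  have h4 := (bounds hBas a ε ha hN v q hqv.symm).2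
  rw [B_comm] at h4
  have h5 := B_pos hBas a ε ha hε hN p r hpr
  have h2 : 0 < a v q ^ 2 := pow_pos (ha v q).1 2
  have h6 : B a p q * B a v r ≤
      Z a {p, q, v, r} / Z a ∅ + B a p v * B a q r + B a q v * B a p r := by
    unfold B
    have : Z a {p, q, v, r} / Z a ∅ + Z a {p, v} / Z a ∅ * (Z a {q, r} / Z a ∅) +
        Z a {q, v} / Z a ∅ * (Z a {p, r} / Z a ∅) =
        (Z a {p, q, v, r} * Z a ∅ + Z a {p, v} * Z a {q, r} + Z a {q, v} * Z a {p, r}) /
          (Z a ∅ * Z a ∅) := by field_simp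
    rw [this, div_mul_div_comm]
    exact div_le_div_of_nonneg_right h1 (mul_pos h0 h0).le
  have h7 : a v q ^ 2 * (Z a {p, q, v, r} / Z a ∅) ≤ B a p r := by
    unfold B
    rw [← mul_div_assoc]
    exact div_le_div_of_nonneg_right h3 h0.le
  have h8 := mul_le_mul_of_nonneg_left h6 h2.le
  have h9 := mul_le_mul_of_nonneg_right h4 h5.le
  nlinarith

/-- the kernel -/
noncomputable def K (a : Fin N → Fin N → ℝ) (r p q : Fin N) : ℝ :=
  if p = q then 0 else B a p q / (B a p r * B a q r)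

lemma K_step (hBas : BasStmt) (hWick : WickStmt) (a : Fin N → Fin N → ℝ) (ε : ℝ) (ha : Wt a)
    (hε : 0 < ε) (hN : NF a ε) (p q v r : Fin N) (hpr : p ≠ r) (hqr : q ≠ r) (hvr : v ≠ r)
    (hvq : v ≠ q) : K a r p q ≤ K a r p v + 2 / (a v q ^ 2 * B a v r * B a q r) := by
  have hp := B_pos hBas a ε ha hε hN p r hpr
  have hq := B_pos hBas a ε ha hε hN q r hqr
  have hv := B_pos hBas a ε ha hε hN v r hvr
  have h2 : 0 < a v q ^ 2 := pow_pos (ha v q).1 2
  have hl : 0 < a v q ^ 2 * B a v r * B a q r := by positivity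
  unfold K
  by_cases hpq : p = q
  · rw [if_pos hpq]
    have h3 : p ≠ v := by rw [hpq]; exact hvq.symm
    rw [if_neg h3]
    have := B_pos hBas a ε ha hε hN p v h3
    positivity
  · rw [if_neg hpq]
    by_cases hpv : p = v
    · rw [if_pos hpv, hpv, zero_add, div_le_div_iff₀ (by positivity) hl]
      have h4 := (bounds hBas a ε ha hN v q hvq).2
      have h5 : 0 < B a v r * B a q r := by positivity
      nlinarith
    · rw [if_neg hpv]
      have h := wick hBas hWick a ε ha hε hN p q v r hpq hpv hpr hvq.symm hqr hvr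
      have ha0 := (ha v q).1.ne'
      have e1 : B a p q / (B a p r * B a q r) =
          a v q ^ 2 * (B a p q * B a v r) / (a v q ^ 2 * B a p r * B a q r * B a v r) := by
        field_simp
      have e2 : B a p v / (B a p r * B a v r) + 2 / (a v q ^ 2 * B a v r * B a q r) =
          (2 * B a p r + a v q ^ 2 * (B a p v * B a q r)) /
            (a v q ^ 2 * B a p r * B a q r * B a v r) := by
        field_simp; ring
      rw [e1, e2]
      exact div_le_div_of_nonneg_right h (by positivity)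

lemma exists_eta (f : Fin N → Fin N → ℝ) (P : Fin N → Fin N → Prop)
    (hf : ∀ p q, P p q → 0 < f p q) : ∃ η : ℝ, 0 < η ∧ ∀ p q, P p q → η ≤ f p q := by
  classical
  by_cases h : (univ.filter (fun z : Fin N × Fin N => P z.1 z.2)).Nonempty
  · obtain ⟨z, hz, hm⟩ := exists_min_image _ (fun z : Fin N × Fin N => f z.1 z.2) h
    refine ⟨f z.1 z.2, hf _ _ (by simpa using hz), fun p q hpq => hm (p, q) (by simpa using hpq)⟩
  · refine ⟨1, one_pos, fun p q hpq => absurd ⟨(p, q), by simpa using hpq⟩ h⟩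

end ULT

open ULT in
theorem ULT_proof (hBas : BasStmt) (hWick : WickStmt) : UltStmt := by
  intro N a ε C r ha hε hN hC hNC
  obtain ⟨η, hη, hmin⟩ := exists_eta (fun p q => a p q ^ 2 * B a p r * B a q r)
    (fun p q => p ≠ r ∧ q ≠ r) (fun p q h => by
      have := B_pos hBas a ε ha hε hN p r h.1
      have := B_pos hBas a ε ha hε hN q r h.2
      have := (ha p q).1
      positivity)
  obtain ⟨β, hβr, hβ⟩ : ∃ β : Fin N → ℝ, β r = η ∧ ∀ x, x ≠ r → β x = B a x r :=
    ⟨fun x => if x = r then η else B a x r, by simp, fun x hx => by simp [hx]⟩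
  have hβpos : ∀ x, 0 < β x := fun x => by
    by_cases hx : x = r
    · rw [hx, hβr]; exact hη
    · rw [hβ x hx]; exact B_pos hBas a ε ha hε hN x r hx
  have hb : ∀ v, 0 < Real.sqrt (β v) := fun v => Real.sqrt_pos.2 (hβpos v)
  have hpos : ∀ p q, 0 < a p q * Real.sqrt (β p) * Real.sqrt (β q) := fun p q =>
    mul_pos (mul_pos (ha p q).1 (hb p)) (hb q)
  have hsq : ∀ p q, (a p q * Real.sqrt (β p) * Real.sqrt (β q)) ^ 2 = a p q ^ 2 * β p * β q := by
    intro p q
    rw [mul_pow, mul_pow, Real.sq_sqrt (hβpos p).le, Real.sq_sqrt (hβpos q).le]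
  have hr1 : ∀ u, u ≠ r → ε * η ≤ a r u ^ 2 * β r * β u ∧ a r u ^ 2 * β r * β u ≤ η := by
    intro u hu
    obtain ⟨h1, h2⟩ := bounds hBas a ε ha hN r u hu.symm
    rw [hβr, hβ u hu, B_comm a u r]
    constructor <;> nlinarith
  have hr2 : ∀ u, u ≠ r → ε * η ≤ a u r ^ 2 * β u * β r ∧ a u r ^ 2 * β u * β r ≤ η := by
    intro u hu
    have := hr1 u hu
    rw [(ha u r).2, mul_right_comm]
    exact this
  refine ⟨fun v => Real.sqrt (β v), hb, ?_, ?_⟩
  · intro u p q hu hp hq _
    refine (pow_le_pow_iff_left₀ (hpos r u).le (hpos p q).le two_ne_zero).1 ?_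
    rw [hsq, hsq, hβ p hp, hβ q hq]
    exact (hr1 u hu).2.trans (hmin p q ⟨hp, hq⟩)
  · intro x k l hk hx hin hl
    by_cases hl0 : l ≤ 0
    · exact hl0.trans (mul_nonneg hC (hpos _ _).le)
    have hl0 : 0 < l := not_le.1 hl0
    have hk0 : 0 < k := by
      rcases Nat.eq_zero_or_pos k with h | h
      · rw [h] at hx; exact absurd rfl hx
      · exact h
    have hN1 : (1 : ℝ) ≤ N := by exact_mod_cast (by omega : 1 ≤ N)
    have hl2 : ∀ i < k, l ^ 2 ≤ a (x i) (x (i + 1)) ^ 2 * β (x i) * β (x (i + 1)) := by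
      intro i hi
      rw [← hsq]
      exact pow_le_pow_left₀ hl0.le (hl i hi).2 2
    refine (pow_le_pow_iff_left₀ hl0.le (mul_nonneg hC (hpos _ _).le) two_ne_zero).1 ?_
    rw [mul_pow, hsq]
    have hC2 : 0 ≤ C ^ 2 := sq_nonneg C
    have hend : ∀ y : ℝ, l ^ 2 ≤ η → ε * η ≤ y → l ^ 2 ≤ C ^ 2 * y := by
      intro y h1 h2
      have h3 := mul_le_mul_of_nonneg_left h2 hC2
      have h4 := mul_le_mul_of_nonneg_right hNC hη.le
      nlinarith
    by_cases h0 : x 0 = r
    · have h1 : x 1 ≠ r := by rw [← h0]; exact (hl 0 hk0).1.symm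
      have h2 : x k ≠ r := by rw [← h0]; exact hx.symm
      have h3 := hl2 0 hk0
      rw [h0] at h3 ⊢
      exact hend _ (h3.trans (hr1 _ h1).2) (hr1 _ h2).1
    by_cases h1 : x k = r
    · obtain ⟨j, rfl⟩ : ∃ j, k = j + 1 := ⟨k - 1, by omega⟩
      have h2 : x j ≠ r := by rw [← h1]; exact (hl j (by omega)).1
      have h3 := hl2 j (by omega)
      rw [h1] at h3 ⊢
      exact hend _ (h3.trans (hr2 _ h2).2) (hr2 _ h0).1
    have hne : ∀ i ≤ k, x i ≠ r := by
      intro i hi
      rcases Nat.eq_zero_or_pos i with h | h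
      · rw [h]; exact h0
      rcases Nat.lt_or_eq_of_le hi with h' | h'
      · exact hin i h h'
      · rw [h']; exact h1
    have hK : ∀ j ≤ k, K a r (x 0) (x j) ≤ 2 * j / l ^ 2 := by
      intro j
      induction j with
      | zero => intro _; simp [K]
      | succ j ih =>
        intro hj
        have h2 := K_step hBas hWick a ε ha hε hN (x 0) (x (j + 1)) (x j) r h0 (hne _ hj)
          (hne _ (by omega)) (hl j (by omega)).1
        have h3 := hl2 j (by omega)
        rw [hβ _ (hne _ hj), hβ _ (hne j (by omega))] at h3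
        have h4 : 2 / (a (x j) (x (j + 1)) ^ 2 * B a (x j) r * B a (x (j + 1)) r) ≤ 2 / l ^ 2 :=
          div_le_div_of_nonneg_left (by norm_num) (by positivity) h3
        have h5 := ih (by omega)
        have e : (2 * ((j + 1 : ℕ) : ℝ)) / l ^ 2 = 2 * j / l ^ 2 + 2 / l ^ 2 := by
          push_cast; ring
        rw [e]; linarith
    have h2 := hK k le_rfl
    unfold K at h2
    have hp := B_pos hBas a ε ha hε hN _ r h0
    have hq := B_pos hBas a ε ha hε hN _ r h1
    rw [if_neg hx, div_le_div_iff₀ (by positivity) (by positivity)] at h2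
    rw [hβ _ h0, hβ _ h1]
    have h3 := (bounds hBas a ε ha hN _ _ hx).1
    have h4 : 0 < a (x 0) (x k) ^ 2 := pow_pos (ha _ _).1 2
    have hkN : (k : ℝ) ≤ N := by exact_mod_cast hk
    generalize a (x 0) (x k) ^ 2 = A at *
    generalize B a (x 0) (x k) = D at *
    generalize B a (x 0) r = P at *
    generalize B a (x k) r = Q at *
    have hl3 : 0 < l ^ 2 := by positivity
    generalize l ^ 2 = l2 at *
    generalize C ^ 2 = C2 at *
    have hPQ : 0 < A * (P * Q) := by positivity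
    have h5 : ε * l2 ≤ 2 * N * (A * (P * Q)) := by
      have h6 := mul_le_mul_of_nonneg_right h3 hl3.le
      have h7 := mul_le_mul_of_nonneg_left h2 h4.le
      have h8 := mul_le_mul_of_nonneg_right hkN hPQ.le
      nlinarith
    have h9 := mul_le_mul_of_nonneg_right hNC hPQ.le
    have h10 : ε * l2 ≤ ε * (C2 * (A * P * Q)) := by nlinarith
    exact le_of_mul_le_mul_left h10 hε

end Crest.Agent.R304
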