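import Crest.Agent.R304.DefsM

set_option autoImplicit false

namespace Crest.Agent.R304

open Finset Crest.Agent.R309

namespace WICK

variable {N : ℕ}

theorem mem_MM {T : Finset (Fin N)} {σ : Mp N} :
    σ ∈ MM T ↔ (∀ v, σ (σ v) = v) ∧ ∀ v, σ v = v ↔ v ∈ T := by
  simp [MM]

/-- dihedral relations -/
theorem dih (σ τ : Equiv.Perm (Fin N)) (hσ : σ * σ = 1) (hτ : τ * τ = 1) (p : Fin N)
    (hp : σ p = p) (i : ℤ) :
    σ (((σ * τ) ^ i) p) = ((σ * τ) ^ (-i)) p ∧ τ (((σ * τ) ^ i) p) = ((σ * τ) ^ (-i - 1)) p := by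
  have hσi : σ⁻¹ = σ := inv_eq_of_mul_eq_one_right hσ
  have hτi : τ⁻¹ = τ := inv_eq_of_mul_eq_one_right hτ
  have h1 : σ * (σ * τ) * σ⁻¹ = (σ * τ)⁻¹ := by
    rw [mul_inv_rev, hσi, hτi, ← mul_assoc σ σ τ, hσ, one_mul]
  have h2 : ∀ j : ℤ, σ * (σ * τ) ^ j = (σ * τ) ^ (-j) * σ := by
    intro j
    have := conj_zpow (i := j) (a := σ) (b := σ * τ)
    rw [h1, inv_zpow'] at this
    rw [this]; group
  have h3 : ∀ j : ℤ, σ (((σ * τ) ^ j) p) = ((σ * τ) ^ (-j)) p := by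
    intro j
    have := congrArg (fun f : Equiv.Perm (Fin N) => f p) (h2 j)
    simpa [hp] using this
  refine ⟨h3 i, ?_⟩
  have h4 : τ * (σ * τ) ^ i = σ * (σ * τ) ^ (i + 1) := by
    rw [add_comm, zpow_add, zpow_one, ← mul_assoc, ← mul_assoc σ σ τ, hσ, one_mul]
  have h5 := congrArg (fun f : Equiv.Perm (Fin N) => f p) h4
  simp only [Equiv.Perm.mul_apply] at h5
  rw [h5, h3 (i + 1)]
  congr 2
  ring

theorem zp_add (ρ : Equiv.Perm (Fin N)) (i j : ℤ) (p : Fin N) :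
    (ρ ^ (i + j)) p = (ρ ^ i) ((ρ ^ j) p) := by
  rw [zpow_add]; rfl

theorem zp_mul (ρ : Equiv.Perm (Fin N)) (i j : ℤ) (p : Fin N) (h : (ρ ^ i) p = p) :
    (ρ ^ (i * j)) p = p := by
  rw [zpow_mul]
  exact Equiv.Perm.zpow_apply_eq_self_of_apply_eq_self h j

theorem zp_eq (ρ : Equiv.Perm (Fin N)) (i j : ℤ) (p : Fin N) (h : (ρ ^ i) p = (ρ ^ j) p) :
    (ρ ^ (i - j)) p = p := by
  have : (ρ ^ (i - j)) p = (ρ ^ (-j)) ((ρ ^ i) p) := by
    rw [← zp_add]; congr 2; ring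
  rw [this, h, ← zp_add]; simp

theorem zp_comb (ρ : Equiv.Perm (Fin N)) (i j k l : ℤ) (p : Fin N) (hi : (ρ ^ i) p = p)
    (hj : (ρ ^ j) p = p) : (ρ ^ (i * k + j * l)) p = p := by
  rw [zp_add, zp_mul ρ j l p hj, zp_mul ρ i k p hi]

/-- the component of `p` contains exactly one other hole -/
theorem one_of (hBas : BasStmt) (X Y : Mp N) (p q v r : Fin N) (hpq : p ≠ q) (hvr : v ≠ r)
    (hX : X ∈ MM {p, q}) (hY : Y ∈ MM {v, r}) :
    (q ∈ cls X Y p ∧ v ∉ cls X Y p ∧ r ∉ cls X Y p) ∨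
    (q ∉ cls X Y p ∧ v ∈ cls X Y p ∧ r ∉ cls X Y p) ∨
    (q ∉ cls X Y p ∧ v ∉ cls X Y p ∧ r ∈ cls X Y p) := by
  obtain ⟨hX1, hX2⟩ := mem_MM.1 hX
  obtain ⟨hY1, hY2⟩ := mem_MM.1 hY
  obtain ⟨hs, hcl, hle⟩ := (hBas N).1 X Y p
  let σ : Equiv.Perm (Fin N) := ⟨X, X, hX1, hX1⟩
  let τ : Equiv.Perm (Fin N) := ⟨Y, Y, hY1, hY1⟩
  have hσ : σ * σ = 1 := by ext x; simp [σ, hX1]
  have hτ : τ * τ = 1 := by ext x; simp [τ, hY1]
  have hp : σ p = p := (hX2 p).2 (by simp)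
  have hd := dih σ τ hσ hτ p hp
  set ρ := σ * τ with hρ
  have hσX : ∀ x, σ x = X x := fun _ => rfl
  have hτY : ∀ x, τ x = Y x := fun _ => rfl
  -- the component lies in the orbit
  have horb : ∀ x ∈ cls X Y p, ∃ i : ℤ, (ρ ^ i) p = x := by
    classical
    intro x hx
    have := hle (univ.filter (fun x => ∃ i : ℤ, (ρ ^ i) p = x)) (by
      simp only [mem_filter, mem_univ, true_and]; exact ⟨0, by simp⟩) (by
      intro y hy
      simp only [mem_filter, mem_univ, true_and] at hy ⊢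
      obtain ⟨i, rfl⟩ := hy
      exact ⟨⟨-i, by rw [← hσX, (hd i).1]⟩, ⟨-i - 1, by rw [← hτY, (hd i).2]⟩⟩) hx
    simpa using this
  have hnat : ∀ n : ℕ, (ρ ^ n) p ∈ cls X Y p := by
    intro n
    induction n with
    | zero => simpa using hs
    | succ n ih =>
      rw [pow_succ', Equiv.Perm.mul_apply, hρ, Equiv.Perm.mul_apply, hσX, hτY]
      exact (hcl _ (hcl _ ih).2).1
  have hq : X q = q := (hX2 q).2 (by simp)
  have hv : Y v = v := (hY2 v).2 (by simp)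
  have hr : Y r = r := (hY2 r).2 (by simp)
  -- fixed points of `Y` in the orbit give odd periods
  have hodd : ∀ (y : Fin N) (b : ℤ), Y y = y → (ρ ^ b) p = y → (ρ ^ (2 * b + 1)) p = p := by
    intro y b hy hb
    have h1 := (hd b).2
    rw [hτY, hb, hy, ← hb] at h1
    have := zp_eq ρ _ _ p h1
    convert this using 3; ring
  have hqy : ∀ y, Y y = y → q ∈ cls X Y p → y ∉ cls X Y p := by
    intro y hy h1 h2
    obtain ⟨a, ha⟩ := horb q h1
    obtain ⟨b, hb⟩ := horb y h2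
    have h3 := (hd a).1
    rw [hσX, ha, hq, ← ha] at h3
    have h4 := zp_eq ρ _ _ p h3
    have h5 := zp_comb ρ _ _ (-b) a p h4 (hodd y b hy hb)
    have h6 : (a - -a) * -b + (2 * b + 1) * a = a := by ring
    rw [h6, ha] at h5
    exact hpq h5.symm
  have hvr' : v ∈ cls X Y p → r ∉ cls X Y p := by
    intro h1 h2
    obtain ⟨b, hb⟩ := horb v h1
    obtain ⟨c, hc⟩ := horb r h2
    have h3 := hodd v b hv hb
    have h4 := hodd r c hr hc
    have h5 := zp_comb ρ _ _ (-c) b p h3 h4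
    have h6 : (2 * b + 1) * -c + (2 * c + 1) * b = b - c := by ring
    rw [h6] at h5
    have h7 : (ρ ^ b) p = (ρ ^ c) p := by
      have : (ρ ^ b) p = (ρ ^ c) ((ρ ^ (b - c)) p) := by
        rw [← zp_add]; congr 2; ring
      rw [this, h5]
    exact hvr (hb.symm.trans (h7.trans hc))
  -- at least one
  have hex : q ∈ cls X Y p ∨ v ∈ cls X Y p ∨ r ∈ cls X Y p := by
    classical
    have hE : ∃ n : ℕ, 0 < n ∧ (ρ ^ n) p = p :=
      ⟨orderOf ρ, orderOf_pos ρ, by rw [pow_orderOf_eq_one]; rfl⟩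
    obtain ⟨hn0, hn⟩ := Nat.find_spec hE
    have hmin := fun m => Nat.find_min hE (m := m)
    set n := Nat.find hE
    have hnz : (ρ ^ (n : ℤ)) p = p := by rw [zpow_natCast]; exact hn
    rcases Nat.even_or_odd' n with ⟨a, ha | ha⟩
    · left
      have h1 : (ρ ^ a) p ≠ p := fun h => hmin a (by omega) ⟨by omega, h⟩
      have h2 : X ((ρ ^ a) p) = (ρ ^ a) p := by
        have h3 := (hd a).1
        rw [hσX, zpow_natCast] at h3
        rw [h3, ← zpow_natCast]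
        have : (ρ ^ (a : ℤ)) p = (ρ ^ (-(a : ℤ))) ((ρ ^ (n : ℤ)) p) := by
          rw [← zp_add]; congr 2; rw [ha]; push_cast; ring
        rw [this, hnz]
      have h4 := (hX2 _).1 h2
      simp only [mem_insert, mem_singleton] at h4
      rcases h4 with h4 | h4
      · exact absurd h4 h1
      · rw [← h4]; exact hnat a
    · right
      have h2 : Y ((ρ ^ a) p) = (ρ ^ a) p := by
        have h3 := (hd a).2
        rw [hτY, zpow_natCast] at h3
        rw [h3, ← zpow_natCast]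
        have : (ρ ^ (a : ℤ)) p = (ρ ^ (-(a : ℤ) - 1)) ((ρ ^ (n : ℤ)) p) := by
          rw [← zp_add]; congr 2; rw [ha]; push_cast; ring
        rw [this, hnz]
      have h4 := (hY2 _).1 h2
      simp only [mem_insert, mem_singleton] at h4
      rcases h4 with h4 | h4
      · left; rw [← h4]; exact hnat a
      · right; rw [← h4]; exact hnat a
  rcases hex with h | h | h
  · exact Or.inl ⟨h, hqy v hv h, hqy r hr h⟩
  · exact Or.inr (Or.inl ⟨fun h' => hqy v hv h' h, h, hvr' h⟩)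
  · exact Or.inr (Or.inr ⟨fun h' => hqy r hr h' h, fun h' => hvr' h' h, h⟩)

theorem mix_fix (S : Finset (Fin N)) (X Y : Mp N) (x : Fin N) :
    mix S X Y x = x ↔ (x ∈ S ∧ Y x = x) ∨ (x ∉ S ∧ X x = x) := by
  unfold mix
  by_cases h : x ∈ S <;> simp [h]

theorem sum_union_le' {α : Type} [DecidableEq α] (A B : Finset α) (f : α → ℝ) (hf : ∀ x, 0 ≤ f x) :
    ∑ x ∈ A ∪ B, f x ≤ ∑ x ∈ A, f x + ∑ x ∈ B, f x := by
  rw [← sum_union_inter]
  have : 0 ≤ ∑ x ∈ A ∩ B, f x := sum_nonneg fun x _ => hf x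
  linarith

end WICK

open WICK in
theorem WICK_proof (hBas : BasStmt) : WickStmt := by
  intro N a p q v r ha hpq hpv hpr hqv hqr hvr
  classical
  have hpos : ∀ σ : Mp N, 0 < w a σ := fun σ => (hBas N).2.2.2.2.2.2.2 a σ ha
  let W : Mp N × Mp N → ℝ := fun z => w a z.1 * w a z.2
  have hW : ∀ z, 0 ≤ W z := fun z => (mul_pos (hpos _) (hpos _)).le
  have hZ : ∀ T₁ T₂ : Finset (Fin N), Z a T₁ * Z a T₂ = ∑ z ∈ MM T₁ ×ˢ MM T₂, W z := by
    intro T₁ T₂
    rw [Z, Z, sum_mul_sum, sum_product]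
  have hinj : Function.Injective (sw (N := N) p) := by
    intro z z' h
    rw [← ((hBas N).2.2.2.2.1 p z).1, h, ((hBas N).2.2.2.2.1 p z').1]
  have hkey : ∀ z ∈ MM ({p, q} : Finset (Fin N)) ×ˢ MM ({v, r} : Finset (Fin N)),
      W (sw p z) = W z ∧ sw p z ∈ (MM ∅ ×ˢ MM ({p, q, v, r} : Finset (Fin N)) ∪
        MM ({q, r} : Finset (Fin N)) ×ˢ MM ({p, v} : Finset (Fin N))) ∪
        MM ({q, v} : Finset (Fin N)) ×ˢ MM ({p, r} : Finset (Fin N)) := by
    rintro ⟨X, Y⟩ hz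
    obtain ⟨hX, hY⟩ := mem_product.1 hz
    simp only at hX hY
    obtain ⟨hX1, hX2⟩ := mem_MM.1 hX
    obtain ⟨hY1, hY2⟩ := mem_MM.1 hY
    obtain ⟨hs, hcl, -⟩ := (hBas N).1 X Y p
    obtain ⟨m1, m2⟩ := (hBas N).2.2.2.1 X Y (cls X Y p) hX1 hY1 hcl
    obtain ⟨m3, -⟩ := (hBas N).2.2.2.1 Y X (cls X Y p) hY1 hX1 (fun x hx => (hcl x hx).symm)
    refine ⟨m2 a, ?_⟩
    simp only [mem_union, mem_product, mem_MM, sw, mix_fix, hX2, hY2, mem_insert, mem_singleton,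
      notMem_empty]
    rcases one_of hBas X Y p q v r hpq hvr hX hY with ⟨h1, h2, h3⟩ | ⟨h1, h2, h3⟩ | ⟨h1, h2, h3⟩
    · refine Or.inl (Or.inl ⟨⟨m1, fun x => ?_⟩, m3, fun x => ?_⟩)
      · constructor
        · rintro (⟨h, rfl | rfl⟩ | ⟨h, rfl | rfl⟩) <;> contradiction
        · exact False.elim
      · constructor
        · rintro (⟨h, rfl | rfl⟩ | ⟨h, rfl | rfl⟩) <;> simp
        · rintro (rfl | rfl | rfl | rfl) <;> simp [*]
    · refine Or.inr ⟨⟨m1, fun x => ?_⟩, m3, fun x => ?_⟩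
      · constructor
        · rintro (⟨h, rfl | rfl⟩ | ⟨h, rfl | rfl⟩) <;> first | contradiction | simp
        · rintro (rfl | rfl) <;> simp [*]
      · constructor
        · rintro (⟨h, rfl | rfl⟩ | ⟨h, rfl | rfl⟩) <;> first | contradiction | simp
        · rintro (rfl | rfl) <;> simp [*]
    · refine Or.inl (Or.inr ⟨⟨m1, fun x => ?_⟩, m3, fun x => ?_⟩)
      · constructor
        · rintro (⟨h, rfl | rfl⟩ | ⟨h, rfl | rfl⟩) <;> first | contradiction | simp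
        · rintro (rfl | rfl) <;> simp [*]
      · constructor
        · rintro (⟨h, rfl | rfl⟩ | ⟨h, rfl | rfl⟩) <;> first | contradiction | simp
        · rintro (rfl | rfl) <;> simp [*]
  rw [hZ, mul_comm (Z a {p, q, v, r}), mul_comm (Z a {p, v}), hZ, hZ, hZ]
  calc ∑ z ∈ MM ({p, q} : Finset (Fin N)) ×ˢ MM ({v, r} : Finset (Fin N)), W z
      = ∑ z ∈ MM ({p, q} : Finset (Fin N)) ×ˢ MM ({v, r} : Finset (Fin N)), W (sw p z) :=
        sum_congr rfl fun z hz => (hkey z hz).1.symm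
    _ = ∑ z ∈ (MM ({p, q} : Finset (Fin N)) ×ˢ MM ({v, r} : Finset (Fin N))).image (sw p), W z := by
        rw [sum_image fun x _ y _ h => hinj h]
    _ ≤ ∑ z ∈ (MM ∅ ×ˢ MM ({p, q, v, r} : Finset (Fin N)) ∪
        MM ({q, r} : Finset (Fin N)) ×ˢ MM ({p, v} : Finset (Fin N))) ∪
        MM ({q, v} : Finset (Fin N)) ×ˢ MM ({p, r} : Finset (Fin N)), W z := by
        refine sum_le_sum_of_subset_of_nonneg ?_ fun z _ _ => hW z
        intro z hz
        obtain ⟨z', hz', rfl⟩ := mem_image.1 hz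
        exact (hkey z' hz').2
    _ ≤ _ := by
        refine (sum_union_le' _ _ W hW).trans ?_
        have := sum_union_le' (MM ∅ ×ˢ MM ({p, q, v, r} : Finset (Fin N)))
          (MM ({q, r} : Finset (Fin N)) ×ˢ MM ({p, v} : Finset (Fin N))) W hW
        linarith

end Crest.Agent.R304
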