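import Crest.Agent.R304.BAS
import Crest.Agent.R304.WICK
import Crest.Agent.R304.ULT
import Crest.Agent.R304.FOUR
import Crest.Agent.R304.SEC
import Crest.Agent.R304.CLS
import Crest.Agent.R304.NODE
import Crest.Agent.R304.CYC
import Crest.Agent.R304.COST
import Crest.Agent.R304.TRI
import Crest.Agent.R304.ROOT
import Crest.Agent.R304.TOP
import Crest.Agent.R304.LI
import Crest.Agent.R304.CNT
import Crest.Agent.R304.NPM
import Crest.Agent.R304.LOW
import Crest.Agent.R304.DYN
import Crest.Agent.R304.PEA
import Crest.Agent.R304.PAB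
import Crest.Agent.R304.PEN
import Crest.Agent.R304.PST
import Crest.Agent.R304.PNUM
import Crest.Agent.R304.POP
import Crest.Agent.R304.EPL
import Crest.Agent.R304.ECH
import Crest.Agent.R304.EAV
import Crest.Agent.R304.ESG
import Crest.Agent.R304.EOUT
import Crest.Agent.R304.EPT

set_option autoImplicit false

namespace Crest.Agent.R304

theorem bas : BasStmt := BAS_proof
theorem cnt' : CntStmt := CNT_proof bas
theorem node : NodeStmt := NODE_proof bas (SEC_proof bas FOUR_proof) (CLS_proof bas)
theorem li : LiStmt :=
  LI_proof (ULT_proof bas (WICK_proof bas))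
    (ROOT_proof (CYC_proof bas) (TRI_proof bas COST_proof) node) (TOP_proof bas)
theorem pea : PeaStmt := PEA_proof
theorem pab : PabStmt := PAB_proof pea
theorem pop : PopStmt := POP_proof pea (PST_proof pea pab (PEN_proof pea pab)) PNUM_proof
theorem epl : EplStmt := EPL_proof
theorem eav : EavStmt := EAV_proof epl
theorem eout (hEkr : EkrStmt) : EoutStmt :=
  EOUT_proof (ESG_proof (ECH_proof hEkr pop epl) eav epl) eav epl

end Crest.Agent.R304
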