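import Crest.Agent.R304.DefsM

/-!
Row 304, task BAS: elementary facts on components, mixing and weights.
-/

set_option autoImplicit false

namespace Crest.Agent.R304

open Finset Crest.Agent.R309

namespace BAS

variable {N : ℕ}

theorem mem_cls (X Y : Mp N) (s v : Fin N) :
    v ∈ cls X Y s ↔ Relation.ReflTransGen (fun p q => q = X p ∨ q = Y p) s v := by
  simp [cls]

theorem self_mem (X Y : Mp N) (s : Fin N) : s ∈ cls X Y s :=
  (mem_cls X Y s s).2 Relation.ReflTransGen.refl

theorem closed (X Y : Mp N) (s v : Fin N) (hv : v ∈ cls X Y s) :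
    X v ∈ cls X Y s ∧ Y v ∈ cls X Y s := by
  rw [mem_cls] at hv
  exact ⟨(mem_cls X Y s _).2 (hv.tail (Or.inl rfl)), (mem_cls X Y s _).2 (hv.tail (Or.inr rfl))⟩

theorem least (X Y : Mp N) (s : Fin N) (S : Finset (Fin N)) (hs : s ∈ S)
    (hS : ∀ v ∈ S, X v ∈ S ∧ Y v ∈ S) : cls X Y s ⊆ S := by
  intro v hv
  rw [mem_cls] at hv
  induction hv with
  | refl => exact hs
  | tail _ h ih =>
    rcases h with h | h
    · rw [h]; exact (hS _ ih).1
    · rw [h]; exact (hS _ ih).2

theorem congr_cls (X Y X' Y' : Mp N) (s : Fin N)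
    (h : ∀ v ∈ cls X Y s, (X' v = X v ∧ Y' v = Y v) ∨ (X' v = Y v ∧ Y' v = X v)) :
    cls X' Y' s = cls X Y s := by
  apply Subset.antisymm
  · apply least X' Y' s _ (self_mem X Y s)
    intro v hv
    have hc := closed X Y s v hv
    rcases h v hv with ⟨h1, h2⟩ | ⟨h1, h2⟩
    · rw [h1, h2]; exact hc
    · rw [h1, h2]; exact ⟨hc.2, hc.1⟩
  · have key : cls X Y s ⊆ cls X Y s ∩ cls X' Y' s := by
      apply least X Y s _ (mem_inter.2 ⟨self_mem X Y s, self_mem X' Y' s⟩)
      intro v hv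
      rw [mem_inter] at hv
      have hc := closed X Y s v hv.1
      have hc' := closed X' Y' s v hv.2
      rcases h v hv.1 with ⟨h1, h2⟩ | ⟨h1, h2⟩
      · rw [h1, h2] at hc'
        exact ⟨mem_inter.2 ⟨hc.1, hc'.1⟩, mem_inter.2 ⟨hc.2, hc'.2⟩⟩
      · rw [h1, h2] at hc'
        exact ⟨mem_inter.2 ⟨hc.1, hc'.2⟩, mem_inter.2 ⟨hc.2, hc'.1⟩⟩
    intro v hv
    exact (mem_inter.1 (key hv)).2

theorem cls_eq_of_mem (X Y : Mp N) (s t : Fin N) (hX : ∀ v, X (X v) = v) (hY : ∀ v, Y (Y v) = v)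
    (ht : t ∈ cls X Y s) : cls X Y t = cls X Y s := by
  apply Subset.antisymm
  · exact least X Y t _ ht (closed X Y s)
  · apply least X Y s _ _ (closed X Y t)
    rw [mem_cls] at ht ⊢
    induction ht with
    | refl => exact Relation.ReflTransGen.refl
    | @tail b c _ h ih =>
      refine Relation.ReflTransGen.head ?_ ih
      rcases h with h | h
      · left; rw [h, hX]
      · right; rw [h, hY]

theorem mix_inv (X Y : Mp N) (S : Finset (Fin N)) (hX : ∀ v, X (X v) = v) (hY : ∀ v, Y (Y v) = v)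
    (hS : ∀ v ∈ S, X v ∈ S ∧ Y v ∈ S) (v : Fin N) : mix S X Y (mix S X Y v) = v := by
  by_cases hv : v ∈ S
  · have h1 : mix S X Y v = Y v := by simp [mix, hv]
    rw [h1]
    simp [mix, (hS v hv).2, hY]
  · have h1 : mix S X Y v = X v := by simp [mix, hv]
    have h2 : X v ∉ S := fun h => hv (by simpa [hX] using (hS _ h).1)
    rw [h1]
    simp [mix, h2, hX]

theorem w_mix (X Y : Mp N) (S : Finset (Fin N)) (a : Fin N → Fin N → ℝ) :
    w a (mix S X Y) * w a (mix S Y X) = w a X * w a Y := by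
  unfold w
  rw [← prod_mul_distrib, ← prod_mul_distrib]
  refine prod_congr rfl fun v _ => ?_
  by_cases hv : v ∈ S
  · simp only [mix, hv, if_true]; ring
  · simp only [mix, hv, if_false]

theorem cls_sw (s t : Fin N) (z : Mp N × Mp N) :
    cls (sw s z).1 (sw s z).2 t = cls z.1 z.2 t := by
  apply congr_cls
  intro v _
  by_cases hv : v ∈ cls z.1 z.2 s
  · right; simp [sw, mix, hv]
  · left; simp [sw, mix, hv]

theorem sw_sw (s : Fin N) (z : Mp N × Mp N) : sw s (sw s z) = z := by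
  have h := cls_sw s s z
  apply Prod.ext
  · funext v
    show mix (cls (sw s z).1 (sw s z).2 s) (sw s z).1 (sw s z).2 v = z.1 v
    rw [h]
    by_cases hv : v ∈ cls z.1 z.2 s <;> simp [sw, mix, hv]
  · funext v
    show mix (cls (sw s z).1 (sw s z).2 s) (sw s z).2 (sw s z).1 v = z.2 v
    rw [h]
    by_cases hv : v ∈ cls z.1 z.2 s <;> simp [sw, mix, hv]

theorem comp_of_ne (X e : Mp N) (he : ∀ v, e (e v) = v) (h : ∀ v, X v = v ∨ e v = v) (v : Fin N)
    (hv : e v ≠ v) : X v = v ∧ X (e v) = e v := by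
  refine ⟨(h v).resolve_right hv, (h (e v)).resolve_right ?_⟩
  rw [he]
  exact fun h' => hv h'.symm

theorem comp_inv (X e : Mp N) (hX : ∀ v, X (X v) = v) (he : ∀ v, e (e v) = v)
    (h : ∀ v, X v = v ∨ e v = v) (v : Fin N) : (X ∘ e) ((X ∘ e) v) = v := by
  by_cases hv : e v = v
  · have h1 : e (X v) = X v := by
      rcases h (X v) with h2 | h2
      · rw [hX] at h2
        rw [← h2, hv]
      · exact h2
    simp only [Function.comp, hv, h1, hX]
  · obtain ⟨h1, h2⟩ := comp_of_ne X e he h v hv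
    simp only [Function.comp, h2, he, h1]

theorem comp_fix (X e : Mp N) (he : ∀ v, e (e v) = v)
    (h : ∀ v, X v = v ∨ e v = v) (v : Fin N) : (X ∘ e) v = v ↔ X v = v ∧ e v = v := by
  by_cases hv : e v = v
  · simp only [Function.comp, hv, and_true]
  · obtain ⟨_, h2⟩ := comp_of_ne X e he h v hv
    simp only [Function.comp, h2, hv, and_false]

theorem w_comp (X e : Mp N) (he : ∀ v, e (e v) = v)
    (h : ∀ v, X v = v ∨ e v = v) (a : Fin N → Fin N → ℝ) : w a (X ∘ e) = w a X * w a e := by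
  unfold w
  rw [← prod_mul_distrib]
  refine prod_congr rfl fun v _ => ?_
  by_cases hv : e v = v
  · simp only [Function.comp, hv, if_true, mul_one]
  · obtain ⟨h1, h2⟩ := comp_of_ne X e he h v hv
    simp only [Function.comp, h2, hv, h1, if_true, if_false, one_mul]

theorem w_pos (a : Fin N → Fin N → ℝ) (σ : Mp N) (ha : Wt a) : 0 < w a σ := by
  unfold w
  refine prod_pos fun v _ => ?_
  split_ifs
  · exact one_pos
  · exact (ha _ _).1

theorem w_swap (a : Fin N → Fin N → ℝ) (p q : Fin N) (ha : Wt a) (hpq : p ≠ q) :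
    w a (Equiv.swap p q) = a p q ^ 2 := by
  unfold w
  rw [← prod_subset (subset_univ ({p, q} : Finset (Fin N)))]
  · rw [prod_pair hpq]
    simp only [Equiv.swap_apply_left, Equiv.swap_apply_right, hpq, hpq.symm, if_false]
    rw [← (ha p q).2]; ring
  · intro v _ hv
    simp only [mem_insert, mem_singleton, not_or] at hv
    rw [Equiv.swap_apply_of_ne_of_ne hv.1 hv.2]
    simp

theorem mem_MM (T : Finset (Fin N)) (σ : Mp N) :
    σ ∈ MM T ↔ (∀ v, σ (σ v) = v) ∧ ∀ v, σ v = v ↔ v ∈ T := by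
  simp [MM]

theorem swap_fix (p q v : Fin N) (hpq : p ≠ q) : Equiv.swap p q v = v ↔ v ≠ p ∧ v ≠ q := by
  by_cases h1 : v = p
  · subst h1; simp [hpq.symm]
  · by_cases h2 : v = q
    · subst h2; simp [hpq]
    · simp [Equiv.swap_apply_of_ne_of_ne h1 h2, h1, h2]

theorem sum_edge (a : Fin N → Fin N → ℝ) (T : Finset (Fin N)) (p q : Fin N) (ha : Wt a)
    (hpq : p ≠ q) (hp : p ∉ T) (hq : q ∉ T) :
    ∑ σ ∈ (MM T).filter (fun σ : Mp N => σ p = q), w a σ =
      a p q ^ 2 * Z a (insert p (insert q T)) := by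
  unfold Z
  rw [mul_sum]
  symm
  have hss : ∀ v, (Equiv.swap p q) ((Equiv.swap p q) v) = v := fun v => Equiv.swap_apply_self p q v
  have hdis : ∀ τ ∈ MM (insert p (insert q T)), ∀ v, τ v = v ∨ Equiv.swap p q v = v := by
    intro τ hτ v
    rw [mem_MM] at hτ
    by_cases h : v ≠ p ∧ v ≠ q
    · right; exact (swap_fix p q v hpq).2 h
    · left
      apply (hτ.2 v).2
      by_cases h1 : v = p
      · simp [h1]
      · have h2 : v = q := by tauto
        simp [h2]
  refine sum_nbij' (fun τ => τ ∘ Equiv.swap p q) (fun σ => σ ∘ Equiv.swap p q) ?_ ?_ ?_ ?_ ?_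
  · intro τ hτ
    have hd := hdis τ hτ
    rw [mem_MM] at hτ
    rw [mem_filter, mem_MM]
    refine ⟨⟨comp_inv τ _ hτ.1 hss hd, fun v => ?_⟩, ?_⟩
    · rw [comp_fix τ _ hss hd, hτ.2, swap_fix p q v hpq]
      simp only [mem_insert]
      constructor
      · rintro ⟨h1 | h1 | h1, h2, h3⟩
        · exact absurd h1 h2
        · exact absurd h1 h3
        · exact h1
      · intro h
        exact ⟨Or.inr (Or.inr h), fun h' => hp (h' ▸ h), fun h' => hq (h' ▸ h)⟩
    · simp only [Function.comp, Equiv.swap_apply_left]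
      exact (hτ.2 q).2 (by simp)
  · intro σ hσ
    rw [mem_filter, mem_MM] at hσ
    obtain ⟨⟨h1, h2⟩, h3⟩ := hσ
    have h4 : σ q = p := by rw [← h3, h1]
    have hoff : ∀ v, v ≠ p → v ≠ q → σ v ≠ p ∧ σ v ≠ q := by
      intro v hv1 hv2
      constructor
      · intro h; apply hv2; rw [← h1 v, h, h3]
      · intro h; apply hv1; rw [← h1 v, h, h4]
    rw [mem_MM]
    constructor
    · intro v
      by_cases hv1 : v = p
      · subst hv1; simp [h4]
      · by_cases hv2 : v = q
        · subst hv2; simp [h3]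
        · obtain ⟨h5, h6⟩ := hoff v hv1 hv2
          simp only [Function.comp, Equiv.swap_apply_of_ne_of_ne hv1 hv2,
            Equiv.swap_apply_of_ne_of_ne h5 h6, h1]
    · intro v
      by_cases hv1 : v = p
      · subst hv1; simp [h4]
      · by_cases hv2 : v = q
        · subst hv2; simp [h3]
        · simp only [Function.comp, Equiv.swap_apply_of_ne_of_ne hv1 hv2, mem_insert, hv1, hv2,
            false_or]
          exact h2 v
  · intro τ _
    funext v
    simp only [Function.comp, hss]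
  · intro σ _
    funext v
    simp only [Function.comp, hss]
  · intro τ hτ
    rw [w_comp τ _ hss (hdis τ hτ), w_swap a p q ha hpq, mul_comm]

theorem edge_le (a : Fin N → Fin N → ℝ) (T : Finset (Fin N)) (p q : Fin N) (ha : Wt a)
    (hpq : p ≠ q) (hp : p ∉ T) (hq : q ∉ T) :
    a p q ^ 2 * Z a (insert p (insert q T)) ≤ Z a T := by
  rw [← sum_edge a T p q ha hpq hp hq]
  unfold Z
  exact sum_le_sum_of_subset_of_nonneg (filter_subset _ _) fun σ _ _ => (w_pos a σ ha).le

end BAS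

theorem BAS_proof : BasStmt := by
  intro N
  refine ⟨fun X Y s => ⟨BAS.self_mem X Y s, BAS.closed X Y s, BAS.least X Y s⟩, BAS.congr_cls,
    BAS.cls_eq_of_mem, fun X Y S hX hY hS => ⟨BAS.mix_inv X Y S hX hY hS, BAS.w_mix X Y S⟩,
    fun s z => ⟨BAS.sw_sw s z, fun t => BAS.cls_sw s t z⟩,
    fun X e hX he h => ⟨BAS.comp_inv X e hX he h, BAS.comp_fix X e he h, BAS.w_comp X e he h⟩,
    fun a T p q ha hpq hp hq => ⟨BAS.w_swap a p q ha hpq, BAS.sum_edge a T p q ha hpq hp hq,
      BAS.edge_le a T p q ha hpq hp hq⟩, BAS.w_pos⟩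

end Crest.Agent.R304
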