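import Crest.Agent.R309.DefsA
import Crest.Prelude.Def_Matchings

/-!
Row 304 (S0464), part M: weighted matchings of the complete graph on `Fin N`, swaps between two
matchings and the linearised Poincaré inequality. A matching is an involution, its holes are the
fixed points. The weight of the edge `p q` is `a p q ^ 2` (every edge is seen from both ends).
-/

set_option autoImplicit false

namespace Crest.Agent.R304

open Finset Crest.Agent.R309

section M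

variable {N : ℕ}

/-- maps of the vertex set -/
abbrev Mp (N : ℕ) : Type := Fin N → Fin N

/-- positive symmetric weights -/
def Wt (a : Fin N → Fin N → ℝ) : Prop := ∀ p q, 0 < a p q ∧ a p q = a q p

/-- weight of a matching -/
noncomputable def w (a : Fin N → Fin N → ℝ) (σ : Mp N) : ℝ :=
  ∏ v, if σ v = v then 1 else a v (σ v)

/-- matchings with hole set `T` -/
def MM (T : Finset (Fin N)) : Finset (Mp N) :=
  univ.filter (fun σ => (∀ v, σ (σ v) = v) ∧ ∀ v, σ v = v ↔ v ∈ T)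

/-- partition function -/
noncomputable def Z (a : Fin N → Fin N → ℝ) (T : Finset (Fin N)) : ℝ := ∑ σ ∈ MM T, w a σ

/-- weight of the perfect matchings containing the edge `p q` -/
noncomputable def ZE (a : Fin N → Fin N → ℝ) (p q : Fin N) : ℝ :=
  ∑ σ ∈ (MM ∅).filter (fun σ : Mp N => σ p = q), w a σ

open Classical in
/-- the component of `s` -/
noncomputable def cls (X Y : Mp N) (s : Fin N) : Finset (Fin N) :=
  univ.filter (fun v => Relation.ReflTransGen (fun p q => q = X p ∨ q = Y p) s v)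

/-- `Y` on `S`, `X` elsewhere -/
def mix (S : Finset (Fin N)) (X Y : Mp N) : Mp N := fun v => if v ∈ S then Y v else X v

/-- exchange of two maps along the component of `s` -/
noncomputable def sw (s : Fin N) (z : Mp N × Mp N) : Mp N × Mp N :=
  (mix (cls z.1 z.2 s) z.1 z.2, mix (cls z.1 z.2 s) z.2 z.1)

/-- the points moved by `e` -/
def supp (e : Mp N) : Finset (Fin N) := univ.filter (fun v => e v ≠ v)

/-- a product of three transpositions -/
def e6 (c : Fin 6 → Fin N) : Mp N :=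
  fun v => Equiv.swap (c 0) (c 1) (Equiv.swap (c 2) (c 3) (Equiv.swap (c 4) (c 5) v))

/-- parameters of a move -/
abbrev Mv (N : ℕ) : Type := (Fin 4 → Fin 6 → Fin N) × Fin N

/-- a move: open a few edges, exchange along a component, close -/
noncomputable def mv (i : Mv N) (z : Mp N × Mp N) : Mp N × Mp N :=
  ((sw i.2 (z.1 ∘ e6 (i.1 0), z.2 ∘ e6 (i.1 1))).1 ∘ e6 (i.1 2),
    (sw i.2 (z.1 ∘ e6 (i.1 0), z.2 ∘ e6 (i.1 1))).2 ∘ e6 (i.1 3))

/-- weight of perfect matchings, zero otherwise -/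
noncomputable def wP (a : Fin N → Fin N → ℝ) (σ : Mp N) : ℝ := if σ ∈ MM ∅ then w a σ else 0

/-- the energy of `g ⊕ g` -/
noncomputable def En (a : Fin N → Fin N → ℝ) (g : Mp N → ℝ) : ℝ :=
  ∑ i : Mv N, ∑ X ∈ MM ∅, ∑ Y ∈ MM ∅,
    min (w a X * w a Y) (wP a (mv i (X, Y)).1 * wP a (mv i (X, Y)).2) *
      (g X + g Y - g (mv i (X, Y)).1 - g (mv i (X, Y)).2) ^ 2

/-- normal form: every pair is an edge with probability at least `ε` -/
def NF (a : Fin N → Fin N → ℝ) (ε : ℝ) : Prop :=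
  0 < Z a ∅ ∧ ∀ p q, p ≠ q → ε * Z a ∅ ≤ ZE a p q

/-- the weights are a quasi-ultrametric seen from the root `r` -/
def Ult (a : Fin N → Fin N → ℝ) (r : Fin N) (C : ℝ) : Prop :=
  (∀ u p q, u ≠ r → p ≠ r → q ≠ r → p ≠ q → a r u ≤ a p q) ∧
  ∀ (x : ℕ → Fin N) (k : ℕ) (l : ℝ), k ≤ N → x 0 ≠ x k → (∀ i, 0 < i → i < k → x i ≠ r) →
    (∀ i < k, x i ≠ x (i + 1) ∧ l ≤ a (x i) (x (i + 1))) → l ≤ C * a (x 0) (x k)

/-- three regions: the component of `u` (flag `τ₁`), of `s` (flag `τ₂`), the rest (flag `τ₀`);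
`true` means `X` -/
noncomputable def st (X Y : Mp N) (u s : Fin N) (τ₀ τ₁ τ₂ : Bool) : Mp N := fun v =>
  if v ∈ cls X Y u then (if τ₁ then X v else Y v)
  else if v ∈ cls X Y s then (if τ₂ then X v else Y v) else (if τ₀ then X v else Y v)

/-- pairs with prescribed holes for the eight mixtures -/
def InS (T : Bool → Bool → Bool → Finset (Fin N)) (u s : Fin N) (X Y : Mp N) : Prop :=
  Disjoint (cls X Y u) (cls X Y s) ∧ ∀ τ₀ τ₁ τ₂, st X Y u s τ₀ τ₁ τ₂ ∈ MM (T τ₀ τ₁ τ₂)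

/-- the second difference -/
noncomputable def sd (G : Bool → Bool → Bool → Mp N → ℝ) (u s : Fin N) (X Y : Mp N) : ℝ :=
  G true false false (st X Y u s true false false) - G true false true (st X Y u s true false true) -
    G true true false (st X Y u s true true false) + G true true true (st X Y u s true true true)

/-- energy of the exchanges between prescribed hole patterns -/
noncomputable def EE (a : Fin N → Fin N → ℝ) (s : Fin N) (T₁ T₂ T₃ T₄ : Finset (Fin N))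
    (g₁ g₂ g₃ g₄ : Mp N → ℝ) : ℝ :=
  ∑ X ∈ MM T₁, ∑ Y ∈ MM T₂, if (sw s (X, Y)).1 ∈ MM T₃ ∧ (sw s (X, Y)).2 ∈ MM T₄ then
    w a X * w a Y * (g₁ X + g₂ Y - g₃ (sw s (X, Y)).1 - g₄ (sw s (X, Y)).2) ^ 2 else 0

/-- data of a node: two vertices and eight closing involutions -/
abbrev Dat (N : ℕ) : Type := Fin N × Fin N × (Bool → Bool → Bool → Fin 6 → Fin N)

/-- the closing map number `τ` -/
def ce (D : Dat N) (τ₀ τ₁ τ₂ : Bool) : Mp N := e6 (D.2.2 τ₀ τ₁ τ₂)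

/-- the cost conditions for eight weights -/
def Cost (ω : Bool → Bool → Bool → ℝ) (C : ℝ) : Prop :=
  (∀ τ₁ τ₂, ω true true true * ω false false false ≤ C * (ω true τ₁ τ₂ * ω false (!τ₁) (!τ₂))) ∧
  (ω true true true * ω false false false) ^ 2 ≤ C ^ 2 *
    (min (ω true false true * ω true true false) (ω true false false * ω true true true) *
      min (ω false true true * ω false false false) (ω false true false * ω false false true))

/-- good data -/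
def GoodD (a : Fin N → Fin N → ℝ) (C : ℝ) (D : Dat N) : Prop :=
  (∀ τ₀ τ₁ τ₂ v, ce D τ₀ τ₁ τ₂ (ce D τ₀ τ₁ τ₂ v) = v) ∧
    Cost (fun τ₀ τ₁ τ₂ => w a (ce D τ₀ τ₁ τ₂)) C

/-- the pair `(I, F)` realises the data -/
def Real_ (D : Dat N) (I F : Mp N) : Prop :=
  InS (fun τ₀ τ₁ τ₂ => supp (ce D τ₀ τ₁ τ₂)) D.1 D.2.1 (I ∘ ce D true true true)
    (F ∘ ce D false false false)

/-- the defect of the node equation -/
noncomputable def dfc (g : Mp N → ℝ) (D : Dat N) (I F : Mp N) : ℝ :=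
  sd (fun τ₀ τ₁ τ₂ σ => g (σ ∘ ce D τ₀ τ₁ τ₂)) D.1 D.2.1 (I ∘ ce D true true true)
    (F ∘ ce D false false false)

/-- the alternating walk from `r` -/
def wk (I F : Mp N) (r : Fin N) : ℕ → Fin N
  | 0 => r
  | k + 1 => (if k % 2 = 0 then I else F) (wk I F r k)

/-- the alternating cycle through `r` has length `L` -/
def Cyc (I F : Mp N) (r : Fin N) (L : ℕ) : Prop :=
  4 ≤ L ∧ L ≤ N ∧ L % 2 = 0 ∧ wk I F r L = r ∧
    (∀ i < L, ∀ j < L, wk I F r i = wk I F r j → i = j) ∧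
    cls I F r = (range L).image (wk I F r)

/-- `I` changed into `F` between the edges number `i < j`, closed by a chord from the even end of
edge `i` to the odd end of edge `j` -/
def chd (I F : Mp N) (r : Fin N) (i j : ℕ) : Mp N := fun v =>
  if v = wk I F r (i + i % 2) then wk I F r (j + 1 - j % 2)
  else if v = wk I F r (j + 1 - j % 2) then wk I F r (i + i % 2)
  else if v ∈ (Ioo (i + i % 2) (j + 1 - j % 2)).image (wk I F r) then F v else I v

/-- weight of edge number `k` of the walk -/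
def lev (a : Fin N → Fin N → ℝ) (I F : Mp N) (r : Fin N) (k : ℕ) : ℝ :=
  a (wk I F r k) (wk I F r (k + 1))

end M

/-- **BAS**. Elementary facts. (1) `cls` is closed, contains `s`, is the least such set.
(2) it only depends on the unordered pairs `{X v, Y v}` on itself. (3) for involutions components
are equal or disjoint (the relation is symmetric). (4) mixing along a closed set. (5) `sw` is an
involution (for arbitrary maps). (6) composition of involutions with disjoint supports.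
(7) adding an edge: `σ ↦ σ ∘ swap p q`. -/
def BasStmt : Prop :=
  ∀ (N : ℕ),
    (∀ (X Y : Mp N) (s : Fin N), s ∈ cls X Y s ∧ (∀ v ∈ cls X Y s, X v ∈ cls X Y s ∧ Y v ∈ cls X Y s) ∧
      ∀ S : Finset (Fin N), s ∈ S → (∀ v ∈ S, X v ∈ S ∧ Y v ∈ S) → cls X Y s ⊆ S) ∧
    (∀ (X Y X' Y' : Mp N) (s : Fin N),
      (∀ v ∈ cls X Y s, (X' v = X v ∧ Y' v = Y v) ∨ (X' v = Y v ∧ Y' v = X v)) →
      cls X' Y' s = cls X Y s) ∧
    (∀ (X Y : Mp N) (s t : Fin N), (∀ v, X (X v) = v) → (∀ v, Y (Y v) = v) → t ∈ cls X Y s →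
      cls X Y t = cls X Y s) ∧
    (∀ (X Y : Mp N) (S : Finset (Fin N)), (∀ v, X (X v) = v) → (∀ v, Y (Y v) = v) →
      (∀ v ∈ S, X v ∈ S ∧ Y v ∈ S) → (∀ v, mix S X Y (mix S X Y v) = v) ∧
        ∀ a, w a (mix S X Y) * w a (mix S Y X) = w a X * w a Y) ∧
    (∀ (s : Fin N) (z : Mp N × Mp N), sw s (sw s z) = z ∧
      ∀ t, cls (sw s z).1 (sw s z).2 t = cls z.1 z.2 t) ∧
    (∀ (X e : Mp N), (∀ v, X (X v) = v) → (∀ v, e (e v) = v) → (∀ v, X v = v ∨ e v = v) →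
      (∀ v, (X ∘ e) ((X ∘ e) v) = v) ∧ (∀ v, (X ∘ e) v = v ↔ X v = v ∧ e v = v) ∧
        ∀ a, w a (X ∘ e) = w a X * w a e) ∧
    (∀ (a : Fin N → Fin N → ℝ) (T : Finset (Fin N)) (p q : Fin N), Wt a → p ≠ q → p ∉ T → q ∉ T →
      w a (Equiv.swap p q) = a p q ^ 2 ∧
      ∑ σ ∈ (MM T).filter (fun σ : Mp N => σ p = q), w a σ = a p q ^ 2 * Z a (insert p (insert q T)) ∧
      a p q ^ 2 * Z a (insert p (insert q T)) ≤ Z a T) ∧
    ∀ (a : Fin N → Fin N → ℝ) (σ : Mp N), Wt a → 0 < w a σ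

/-- **WICK** (uses BAS). For `X ∈ MM {p,q}`, `Y ∈ MM {v,r}` the component of `p` contains exactly
one of `q, v, r`: with `ρ = X ∘ Y` (a permutation), `x i = ρ^[i] p`, period `n`:
`X (x i) = x (-i)`, `Y (x i) = x (-i-1)`, the component is the orbit, so there are exactly two fixed
points of `X` or `Y` in it (or follow the alternating path from `p`). `sw p` is an injective,
weight preserving map into the three products. -/
def WickStmt : Prop :=
  ∀ (N : ℕ) (a : Fin N → Fin N → ℝ) (p q v r : Fin N), Wt a → p ≠ q → p ≠ v → p ≠ r → q ≠ v →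
    q ≠ r → v ≠ r → Z a {p, q} * Z a {v, r} ≤
      Z a {p, q, v, r} * Z a ∅ + Z a {p, v} * Z a {q, r} + Z a {q, v} * Z a {p, r}

/-- **ULT** (uses BAS, WICK). `B T = Z T / Z ∅`, `β x = B {x, r}` for `x ≠ r`, `β r = η` a positive
lower bound of all `ℓ p q = a p q ² β p β q` (`p ≠ q`, both `≠ r`), `b = √β`. NF: `ε ≤ a p q ² B{p,q} ≤ 1`.
With `K p q = B{p,q}/(β p β q)`, `K p p = 0`: `K p q ≤ K p v + 2/ℓ v q` for `p, v, q ≠ r`, `v ≠ q`
(WICK, `a q v ² B{p,q,v,r} ≤ β p`, `a q v ² B{q,v} ≤ 1`), so `K (x 0) (x k) ≤ 2k/l²` and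
`ℓ = a² B / K ≥ ε l²/(2N)`. If an end is `r`: `l² ≤ ℓ r u ≤ η`, `ℓ r y ≥ ε η`. -/
def UltStmt : Prop :=
  ∀ (N : ℕ) (a : Fin N → Fin N → ℝ) (ε C : ℝ) (r : Fin N), Wt a → 0 < ε → NF a ε → 0 ≤ C →
    2 * N ≤ ε * C ^ 2 → ∃ b : Fin N → ℝ, (∀ v, 0 < b v) ∧ Ult (fun p q => a p q * b p * b q) r C

/-- **FOUR**. With `P = ∑ p`, `Q = ∑ q`: either `κ Q ≤ c₁ P` or `κ P ≤ c₂ Q`. First case:
`f₁ x - f₂ x = (f₁ x - f₂ x') + (f₂ x' - f₃ y) + (f₃ y - f₂ x)`, average over `x'`; second case: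
`(f₁ x - f₄ y) + (f₄ y - f₃ y') + (f₃ y' - f₂ x)`, average over `y'`. -/
def FourStmt : Prop :=
  ∀ (α : Type) (A B : Finset α) (p q f₁ f₂ f₃ f₄ : α → ℝ) (κ c₁ c₂ : ℝ), (∀ x ∈ A, 0 < p x) →
    (∀ y ∈ B, 0 < q y) → 0 ≤ κ → 0 ≤ c₁ → 0 ≤ c₂ → κ ^ 2 ≤ c₁ * c₂ →
    κ * ∑ x ∈ A, ∑ y ∈ B, p x * q y * (f₁ x - f₂ x) ^ 2 ≤
      3 * (κ * ∑ x ∈ A, ∑ y ∈ B, p x * q y * (f₁ x - f₄ y) ^ 2 +
        2 * κ * ∑ x ∈ A, ∑ y ∈ B, p x * q y * (f₂ x - f₃ y) ^ 2 +
        c₁ * ∑ x ∈ A, ∑ x' ∈ A, p x * p x' * (f₁ x - f₂ x') ^ 2 +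
        c₂ * ∑ y ∈ B, ∑ y' ∈ B, q y * q y' * (f₄ y - f₃ y') ^ 2)

/-- **SEC** (uses BAS, FOUR). Group the pairs by the key `(Q₁, Q₂, X|Q, Y|Q)` (`Q = Q₁ ∪ Q₂`,
`Q₁ = cls X Y u`, `Q₂ = cls X Y s`): a fibre is a product `A × B`, `A` = the `X' ∈ MM (T t t t)` that
agree with `X` on `Q`. `p, q` are the weights outside `Q`, the weight inside is constant on the
fibre. `f₁ = G tff - G tft`, `f₂ = G ttf - G ttt` (functions of `X'`), `f₃ = G fff - G fft`,
`f₄ = G ftf - G ftt` (functions of `Y'`). The four maps `(X,Y) ↦ (tft, ftf)`, `(X,Y) ↦ (ttt, fff)`,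
`(key, X, X') ↦ (st X Y tft, st X' Y ttf)`, `(key, Y, Y') ↦ (st X Y ftt, st X Y' fff)` are injective
(the components of `u` and `s` are unchanged) and `sw s` only flips `τ₂`. -/
def SecStmt : Prop :=
  ∀ (N : ℕ) (a : Fin N → Fin N → ℝ) (T : Bool → Bool → Bool → Finset (Fin N)) (u s : Fin N)
    (G : Bool → Bool → Bool → Mp N → ℝ) (κ c₁ c₂ : ℝ), Wt a → 0 ≤ κ → 0 ≤ c₁ → 0 ≤ c₂ →
    κ ^ 2 ≤ c₁ * c₂ →
    κ * ∑ X ∈ MM (T true true true), ∑ Y ∈ MM (T false false false),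
        @ite _ (InS T u s X Y) (Classical.dec _) (w a X * w a Y * sd G u s X Y ^ 2) 0 ≤
      3 * (κ * EE a s (T true false true) (T false true false) (T true false false) (T false true true)
            (G true false true) (G false true false) (G true false false) (G false true true) +
        2 * κ * EE a s (T true true true) (T false false false) (T true true false) (T false false true)
            (G true true true) (G false false false) (G true true false) (G false false true) +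
        c₁ * EE a s (T true false true) (T true true false) (T true false false) (T true true true)
            (G true false true) (G true true false) (G true false false) (G true true true) +
        c₂ * EE a s (T false true true) (T false false false) (T false true false) (T false false true)
            (G false true true) (G false false false) (G false true false) (G false false true))

/-- **CLS** (uses BAS). `(X, Y) ↦ (X ∘ e₀, Y ∘ e₁)` is injective into pairs of perfect matchings and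
`mv (c, s)` sends the image to `(X' ∘ e₂, Y' ∘ e₃)`; keep the term `i = (c, s)` of `En`. -/
def ClsStmt : Prop :=
  ∀ (N : ℕ) (a : Fin N → Fin N → ℝ) (g : Mp N → ℝ) (c : Fin 4 → Fin 6 → Fin N) (s : Fin N), Wt a →
    (∀ k v, e6 (c k) (e6 (c k) v) = v) →
    min (w a (e6 (c 0)) * w a (e6 (c 1))) (w a (e6 (c 2)) * w a (e6 (c 3))) *
      EE a s (supp (e6 (c 0))) (supp (e6 (c 1))) (supp (e6 (c 2))) (supp (e6 (c 3)))
        (fun σ => g (σ ∘ e6 (c 0))) (fun σ => g (σ ∘ e6 (c 1))) (fun σ => g (σ ∘ e6 (c 2)))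
        (fun σ => g (σ ∘ e6 (c 3))) ≤ En a g

/-- **NODE** (uses BAS, SEC, CLS). `(I, F) ↦ (X, Y) = (I ∘ e ttt, F ∘ e fff)` is injective,
`st X Y u s t t t = X`, `w I = w X · ω ttt`. SEC with `κ = ω ttt ω fff / C`, `c₁, c₂` the two minima. -/
def NodeStmt : Prop :=
  ∀ (N : ℕ) (a : Fin N → Fin N → ℝ) (g : Mp N → ℝ) (C : ℝ) (D : Dat N), Wt a → 1 ≤ C → GoodD a C D →
    ∑ I ∈ MM ∅, ∑ F ∈ MM ∅,
      @ite _ (Real_ D I F) (Classical.dec _) (w a I * w a F * dfc g D I F ^ 2) 0 ≤ 15 * C * En a g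

/-- **CYC** (uses BAS). The first return to `r` of the walk happens at an even time (a first
repetition `x i = x j`, `i < j`, has `i = 0` or contradicts the involutions without fixed points). -/
def CycStmt : Prop :=
  ∀ (N : ℕ) (I F : Mp N) (r : Fin N), I ∈ MM ∅ → F ∈ MM ∅ → I r ≠ F r → ∃ L, Cyc I F r L ∧
    chd I F r 0 (L - 1) = (sw r (I, F)).1 ∧ ∀ i, i + 1 < L → chd I F r i (i + 1) = I

/-- `ℓ` if the state equals the type -/
noncomputable def fa (θ σ : Bool) (l : ℝ) : ℝ := if σ = θ then l else 1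

/-- the eight weights: `l₀ l₁ l₂` the three edges (types `α β γ`), `c₁ c₂ c₃` the chords -/
noncomputable def om (α β γ : Bool) (l₀ l₁ l₂ : ℝ) (c₁ c₂ c₃ : Bool → ℝ) (τ₀ τ₁ τ₂ : Bool) : ℝ :=
  if τ₁ = τ₀ then (if τ₂ = τ₀ then fa α τ₀ l₀ * fa β τ₀ l₁ * fa γ τ₀ l₂ else c₂ τ₀ * fa α τ₀ l₀)
  else (if τ₂ = τ₀ then c₁ τ₀ * fa γ τ₀ l₂ else c₃ τ₀ * fa β (!τ₀) l₁)

/-- **COST**. With `x σ = if σ = α then l₀ else l₁`, `y σ = if σ = γ then l₂ else l₁`:
`x t · x f = l₀ l₁`, `y t · y f = l₂ l₁`, `min x y · l₁ ≥ x y`; both minima are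
`≥ x σ · y σ · fa α σ l₀ · fa γ σ l₂ / C²`. -/
def CostStmt : Prop :=
  ∀ (α β γ : Bool) (l₀ l₁ l₂ C : ℝ) (c₁ c₂ c₃ : Bool → ℝ), 0 < l₀ → 0 < l₂ → l₀ ≤ l₁ → l₂ ≤ l₁ →
    1 ≤ C → (∀ σ, (if σ = α then l₀ else l₁) ≤ C * c₁ σ) →
    (∀ σ, (if σ = γ then l₂ else l₁) ≤ C * c₂ σ) →
    (∀ σ, min (if σ = α then l₀ else l₁) (if σ = γ then l₂ else l₁) ≤ C * c₃ σ) →
    Cost (om α β γ l₀ l₁ l₂ c₁ c₂ c₃) (C ^ 2)

/-- **TRI** (uses BAS, COST; the biggest task, may be split by its owner). `x = wk I F r`,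
`u' u v s t t' = x i, x (i+1), x h, x (h+1), x j, x (j+1)`, types `α β γ = (i, h, j even)`
(`true` = edge of `I`). `hl θ σ p q = if σ = θ then p else q`, `ad θ σ p q = if σ = θ then (p,q) else
(p,p)`. The pairs of the closing map: `(σ,σ,σ)`: `ad α σ u' u, ad β σ v s, ad γ σ t t'`;
`(σ,¬σ,σ)`: chord `(hl α σ u' u, hl β (¬σ) v s)`, `ad γ σ t t'`; `(σ,σ,¬σ)`: chord
`(hl β σ v s, hl γ (¬σ) t t')`, `ad α σ u' u`; `(σ,¬σ,¬σ)`: chord `(hl α σ u' u, hl γ (¬σ) t t')`,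
`ad β (¬σ) v s` (third pair trivial). `D.1 = u`, `D.2.1 = s`; the components are `x (i+1..h)` and
`x (h+1..j)`. Work with indices: `I (x k) = x (k xor 1)`, `F (x k) = x (k ± 1 mod L)`, `x` is
injective below `L`, off the cycle all closing maps are the identity. The three closed states are
`chd i j` (tff), `chd i h` (tft), `chd h j` (ttf). The chords are bounded by `Ult` along the cycle
(squares: `l₀ = lev i ²`, …, constant `C²`). -/
def TriStmt : Prop :=
  ∀ (N : ℕ) (a : Fin N → Fin N → ℝ) (C : ℝ) (I F : Mp N) (r : Fin N) (L i h j : ℕ), Wt a → 1 ≤ C →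
    Ult a r C → I ∈ MM ∅ → F ∈ MM ∅ → Cyc I F r L → i < h → h < j → j < L →
    lev a I F r i ≤ lev a I F r h → lev a I F r j ≤ lev a I F r h →
    (∀ k, i < k → k < j → lev a I F r h ≤ lev a I F r k) →
    ∃ D : Dat N, GoodD a (C ^ 4) D ∧ Real_ D I F ∧ ∀ g : Mp N → ℝ,
      dfc g D I F = g (chd I F r i j) - g (chd I F r i h) - g (chd I F r h j) + g I

/-- **ROOT** (uses CYC, TRI, NODE). If `I r = F r` the exchange does nothing. Otherwise call
`(i, j)` admissible if `lev i, lev j ≤ lev k` for `i < k < j`; `(0, L-1)` is admissible (`Ult.1`);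
split at the minimum; by induction `|g (chd i j) - g I| ≤ (j - i - 1) M` with
`M² = ∑_D [GoodD ∧ Real_] dfc²`; `card (Dat N) = N^50`. -/
def RootStmt : Prop :=
  ∀ (N : ℕ) (a : Fin N → Fin N → ℝ) (g : Mp N → ℝ) (C : ℝ) (r : Fin N), Wt a → 1 ≤ C → Ult a r C →
    ∑ I ∈ MM ∅, ∑ F ∈ MM ∅, w a I * w a F * (g (sw r (I, F)).1 - g I) ^ 2 ≤
      15 * (N : ℝ) ^ 52 * C ^ 4 * En a g

/-- **TOP** (uses BAS). `U k = ⋃_{r < k} cls I F r`, `(I, F) ↦ (mix (U k) I F, mix (U k) F I)` is a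
weight preserving involution of the pairs; passing from `k` to `k + 1` does nothing or is `sw k`. -/
def TopStmt : Prop :=
  ∀ (N : ℕ) (a : Fin N → Fin N → ℝ) (g : Mp N → ℝ), Wt a →
    ∑ I ∈ MM ∅, ∑ F ∈ MM ∅, w a I * w a F * (g I - g F) ^ 2 ≤
      N * ∑ r, ∑ I ∈ MM ∅, ∑ F ∈ MM ∅, w a I * w a F * (g (sw r (I, F)).1 - g I) ^ 2

/-- **LI** (uses ULT, ROOT, TOP). `C = √(2N/ε)` (`≥ 1` as `ε ≤ 1` when there are two vertices);
scaling by `b` multiplies the weight of every perfect matching by `∏ b v ^ 2`. -/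
def LiStmt : Prop :=
  ∀ (N : ℕ) (a : Fin N → Fin N → ℝ) (g : Mp N → ℝ) (ε : ℝ), Wt a → 0 < ε → ε ≤ 1 → NF a ε →
    Var (MM ∅) (w a) g * Z a ∅ ≤ 30 * (N : ℝ) ^ 56 / ε ^ 2 * En a g

/-- **CNT** (uses BAS with `a = 1`). Induction on the number of vertices outside `T`. -/
def CntStmt : Prop :=
  ∀ (N : ℕ), (∀ (k : ℕ) (T : Finset (Fin N)), T.card + 2 * k = N →
      (MM T).card = ∏ i ∈ range k, (2 * i + 1)) ∧
    (∀ p q : Fin N, p ≠ q → N % 2 = 0 →
      ((MM ∅).filter (fun σ : Mp N => σ p = q)).card * (N - 1) = (MM (∅ : Finset (Fin N))).card) ∧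
    (MM (∅ : Finset (Fin N))).card ≤ N ^ N

/-- **NPM**. Perfect matchings as involutions: `σ ↦ {s(v, σ v)}`. -/
def NpmStmt : Prop :=
  ∀ (N : ℕ) (G : SimpleGraph (Fin N)) [DecidableRel G.Adj],
    Crest.Matchings.numPerfectMatchings G =
      ((MM ∅).filter (fun σ : Mp N => ∀ v, G.Adj v (σ v))).card

/-- weights given by integer exponents -/
noncomputable def ak {N : ℕ} (H : ℝ) (k : Fin N → Fin N → ℤ) : Fin N → Fin N → ℝ :=
  fun p q => (1 + 1 / H) ^ k p q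

/-- the potential -/
noncomputable def pot {N : ℕ} (H ε : ℝ) (k : Fin N → Fin N → ℤ) : ℝ :=
  Real.log (Z (ak H k) ∅) -
    ε * Real.log (1 + 1 / H) * ∑ p, ∑ q, if p = q then 0 else (k p q : ℝ)

/-- **LOW** (uses CNT). `log Z ≥ log w σ = τ ∑_v k v (σ v)` for every perfect matching; average with
weight `1 - ε (N-1)` on `σ₀` and `ε (N-1)` on the uniform law. -/
def LowStmt : Prop :=
  ∀ (N : ℕ) (H ε : ℝ) (k : Fin N → Fin N → ℤ) (σ₀ : Mp N), 0 < H → 0 ≤ ε → ε * N ≤ 1 → N % 2 = 0 →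
    σ₀ ∈ MM ∅ → (∀ v, 0 ≤ k v (σ₀ v)) → 0 ≤ pot H ε k

/-- **DYN**. One update: `δ = -1` on heavy pairs, `δ = m` on light pairs, `ε = 1/m⁴`.
`w'/w = ρ^(∑_v δ v (σ v))`, exponent in `[-m, m²]`. Pairs that are not light lose at most one per
cent. For a light pair the numerator gains `ρ^(2m - N) ≥ 1 + m/H` while
`Z'/Z ≤ 1 + (2m²/H) · N² · 0.55 ε`. Potential: `log(Z'/Z) ≤ E e^S - 1 ≤ E S + E S²`,
`S² ≤ (m² τ) τ ∑_v |δ v (σ v)|`, `τ = log ρ ≥ 2/(3H)`; a heavy ordered pair contributes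
`≤ -0.9 ε τ` (there are two of them), a light one `≤ 0`. -/
def DynStmt : Prop :=
  ∀ (N m : ℕ) (H : ℝ) (k δ : Fin N → Fin N → ℤ), 2000 ≤ m → N ≤ m → (m : ℝ) ^ 3 ≤ H →
    (∀ p q, k p q = k q p ∧ δ p q = δ q p) → NF (ak H k) (1 / (3 * (m : ℝ) ^ 4)) →
    (∀ p q, p ≠ q →
      (δ p q = -1 ∧ 39 / 20 / (m : ℝ) ^ 4 * Z (ak H k) ∅ ≤ ZE (ak H k) p q) ∨
      (δ p q = m ∧ ZE (ak H k) p q ≤ 11 / 20 / (m : ℝ) ^ 4 * Z (ak H k) ∅) ∨
      (δ p q = 0 ∧ 9 / 20 / (m : ℝ) ^ 4 * Z (ak H k) ∅ ≤ ZE (ak H k) p q)) →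
    NF (ak H (k + δ)) (1 / (3 * (m : ℝ) ^ 4)) ∧
      ((∃ p q, p ≠ q ∧ δ p q = -1) →
        pot H (1 / (m : ℝ) ^ 4) (k + δ) ≤ pot H (1 / (m : ℝ) ^ 4) k - 1 / ((m : ℝ) ^ 4 * H))

theorem anchorM : True := by
  have := @Wt.eq_1; have := @w.eq_1; have := @MM.eq_1; have := @Z.eq_1; have := @ZE.eq_1
  have := @cls.eq_1; have := @mix.eq_1; have := @sw.eq_1; have := @supp.eq_1; have := @e6.eq_1
  have := @mv.eq_1; have := @wP.eq_1; have := @En.eq_1; have := @NF.eq_1; have := @Ult.eq_1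
  have := @st.eq_1; have := @InS.eq_1; have := @sd.eq_1; have := @EE.eq_1; have := @ce.eq_1
  have := @Cost.eq_1; have := @GoodD.eq_1; have := @Real_.eq_1; have := @dfc.eq_1
  have := @wk.eq_1; have := @wk.eq_2; have := @wk.eq_def; have := @Cyc.eq_1; have := @chd.eq_1
  have := @lev.eq_1; have := @fa.eq_1; have := @om.eq_1; have := @ak.eq_1; have := @pot.eq_1
  trivial

end Crest.Agent.R304
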