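import Crest.Agent.R304.DefsE
import Crest.Agent.R304.DefsM
import Crest.Agent.R304W.Wrap

/-!
Row 304 (S0464), part A: the model for perfect matchings. States are partner lists, parameters are
the integer exponents of the weights of all pairs (and a flag).
-/

set_option autoImplicit false

namespace Crest.Agent.R304

open Finset Crest.Agent.PT Crest.Agent.QC Crest.Agent.R317 Crest.Agent.R300U Crest.Agent.R309
open Crest.Agent.R304W

/-- the partner of `v` -/
def gx (x : X) (v : ℕ) : ℕ := x.getD v 0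

/-- a map as a list -/
def toX {N : ℕ} (σ : Mp N) : X := List.ofFn (fun v => (σ v).val)

/-- the state space -/
noncomputable def Om (N : ℕ) : Finset X := (MM (∅ : Finset (Fin N))).image toX

/-- perfect matchings of the complete graph, as lists -/
def val (N : ℕ) (x : X) : Prop :=
  x.length = N ∧ All N (fun v => gx x v < N ∧ gx x v ≠ v ∧ gx x (gx x v) = v)

/-- inverse step size of the weights -/
def H0 (m : ℕ) : ℕ := m ^ 108

/-- exponent of a pair -/
def kk (N m : ℕ) (p : List ℤ) (u v : ℕ) : ℤ := zcl (m ^ 116) (p.getD (min u v * N + max u v) 0)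

/-- the exponents as a matrix -/
def kF (N m : ℕ) (p : List ℤ) : Fin N → Fin N → ℤ := fun u v => kk N m p u v

/-- the weights of the pairs -/
noncomputable def aF (N m : ℕ) (p : List ℤ) : Fin N → Fin N → ℝ := ak (H0 m) (kF N m p)

open Classical in
/-- weight of a state -/
noncomputable def WL (N m : ℕ) (p : List ℤ) (x : X) : ℚ :=
  if val N x then (1 + 1 / (H0 m : ℚ)) ^ (∑ v ∈ range N, kk N m p v (gx x v)) else 0

/-! ### Moves -/

/-- transposition -/
def swN (a b v : ℕ) : ℕ := if v = a then b else if v = b then a else v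

/-- digit `j` of `i` in base `N` -/
def dig (N i j : ℕ) : ℕ := un N (i / N ^ j % N)

/-- position of the digit: forward (`σ = 1`) or backward -/
def idx (σ k j : ℕ) : ℕ := if σ = 1 then 6 * k + j else 6 * ((k + 2) % 4) + (5 - j)

/-- the permutation number `k` of the move -/
def pmL (N i σ k v : ℕ) : ℕ :=
  swN (dig N i (idx σ k 0)) (dig N i (idx σ k 1)) (swN (dig N i (idx σ k 2)) (dig N i (idx σ k 3))
    (swN (dig N i (idx σ k 4)) (dig N i (idx σ k 5)) v))

/-- composition -/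
def cmpL (N i σ k : ℕ) (x : X) : X := mkL N (fun v => gx x (pmL N i σ k v))

open Classical in
/-- one round of the closure -/
noncomputable def clo (N : ℕ) (x y : X) (S : List Bool) : List Bool :=
  mkL N (fun v => decide (S.getD v false = true ∨
    Ex N (fun u => S.getD u false = true ∧ (gx x u = v ∨ gx y u = v))))

/-- the component of `s` -/
noncomputable def clsL (N : ℕ) (x y : X) (s : ℕ) : List Bool :=
  (clo N x y)^[N] (mkL N (fun v => decide (v = s)))

/-- `y` on `S`, `x` elsewhere -/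
def mixL (N : ℕ) (S : List Bool) (x y : X) : X :=
  mkL N (fun v => if S.getD v false = true then gx y v else gx x v)

/-- exchange along a component -/
noncomputable def swL (N s : ℕ) (z : X × X) : X × X :=
  (mixL N (clsL N z.1 z.2 s) z.1 z.2, mixL N (clsL N z.1 z.2 s) z.2 z.1)

/-- the move number `i`, forward (`σ = 1`) or backward -/
noncomputable def mvL (N i σ : ℕ) (z : X × X) : X × X :=
  (cmpL N i σ 2 (swL N (dig N i 24) (cmpL N i σ 0 z.1, cmpL N i σ 1 z.2)).1,
    cmpL N i σ 3 (swL N (dig N i 24) (cmpL N i σ 0 z.1, cmpL N i σ 1 z.2)).2)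

/-! ### Update, final test, initial sampler -/

/-- adjacency bit -/
def ad (N : ℕ) (adj : List Bool) (u v : ℕ) : Bool := adj.getD (u * N + v) false

/-- number of members of the batch that contain the pair `u v` -/
def cntB (m : ℕ) (B : List X) (u v : ℕ) : ℕ :=
  ∑ j ∈ range (rB m), if gx (B.getD j []) u = v then 1 else 0

/-- heavy pairs whose weight may be decreased -/
def hiP (N m : ℕ) (adj : List Bool) (p : List ℤ) (B : List X) (u v : ℕ) : Prop :=
  2 * rB m < m ^ 4 * cntB m B u v ∧ (ad N adj u v = false ∨ 1 ≤ kk N m p u v)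

/-- the flag -/
def fz (N : ℕ) (p : List ℤ) : Prop := p.getD (N * N) 0 = 1

/-- no further update -/
def stp (N m : ℕ) (adj : List Bool) (p : List ℤ) (B : List X) : Prop :=
  fz N p ∨ ¬ Ex N (fun v => Ex v (fun u => hiP N m adj p B u v))

open Classical in
/-- change of the exponent -/
noncomputable def dl (N m : ℕ) (adj : List Bool) (p : List ℤ) (B : List X) (u v : ℕ) : ℤ :=
  if stp N m adj p B then 0 else if hiP N m adj p B u v then -1
  else if 2 * m ^ 4 * cntB m B u v < rB m then (m : ℤ) else 0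

open Classical in
/-- the update -/
noncomputable def updL (N m : ℕ) (adj : List Bool) (p : List ℤ) (B : List X) : List ℤ :=
  mkL (N * N + 1) (fun j => if j < N * N then
    kk N m p (j / N) (j % N) + dl N m adj p B (j / N) (j % N)
    else if stp N m adj p B then 1 else 0)

open Classical in
/-- the final test function -/
noncomputable def finL (N m : ℕ) (adj : List Bool) (p : List ℤ) (x : X) : ℚ :=
  if val N x ∧ All N (fun v => ad N adj v (gx x v) = true) then 1 / WL N m p x else 0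

/-- rank of the key of `v` -/
def rkL (N m u v : ℕ) : ℕ :=
  ∑ j ∈ range N, if fld u (j * (5 * m)) (5 * m) < fld u (v * (5 * m)) (5 * m) then 1 else 0

/-- the standard matching -/
def xr (r : ℕ) : ℕ := if r % 2 = 0 then r + 1 else r - 1

/-- the initial sampler: random keys, ranks `2i` and `2i+1` are matched -/
noncomputable def iniL (N m u : ℕ) : X :=
  mkL N (fun v => fnd N (fun j => rkL N m u j = xr (rkL N m u v)))

/-- the number of perfect matchings of the complete graph -/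
def z0L (N : ℕ) : ℚ := ∏ i ∈ range (N / 2), ((2 * i + 1 : ℕ) : ℚ)

/-- size parameter -/
def mOf (q : In64) : ℕ := q.1 + q.2.2 + 2000

/-- the model -/
noncomputable def mdl (q : In64) : Mdl where
  W := WL q.1 (mOf q)
  mv := mvL q.1
  upd := updL q.1 (mOf q) q.2.1
  fin := finL q.1 (mOf q) q.2.1
  ini := iniL q.1 (mOf q)
  z0 := z0L q.1
  m := mOf q
  nm := q.1 ^ 25
  bI := q.1 * (5 * mOf q)

/-- the invariant -/
structure IA {N : ℕ} (G : SimpleGraph (Fin N)) (m s : ℕ) (p : List ℤ) : Prop where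
  bd : ∀ u v, |kF N m p u v| ≤ s * m
  nn : ∀ u v, G.Adj u v → 0 ≤ kF N m p u v
  nf : NF (aF N m p) (1 / (3 * (m : ℝ) ^ 4))
  done : fz N p → ∀ u v, u ≠ v → (G.Adj u v ∧ kF N m p u v = 0) ∨
    ZE (aF N m p) u v ≤ 3 / (m : ℝ) ^ 4 * Z (aF N m p) ∅
  pot : ¬ fz N p → pot (H0 m) (1 / (m : ℝ) ^ 4) (kF N m p) ≤ (m : ℝ) ^ 2 - s / ((m : ℝ) ^ 4 * H0 m)

/-- **DIC**. Dictionary between lists and maps. -/
def DicStmt : Prop :=
  ∀ N : ℕ, Function.Injective (toX : Mp N → X) ∧
    (∀ (σ : Mp N) (v : Fin N), gx (toX σ) v = σ v) ∧ (∀ σ : Mp N, (toX σ).length = N) ∧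
    (∀ x : X, x.length = N → (∀ v < N, gx x v < N) → ∃ σ : Mp N, x = toX σ) ∧
    (∀ x, val N x ↔ x ∈ Om N) ∧ (∀ σ : Mp N, val N (toX σ) ↔ σ ∈ MM ∅) ∧
    (∀ F : X → ℝ, ∑ x ∈ Om N, F x = ∑ σ ∈ MM (∅ : Finset (Fin N)), F (toX σ)) ∧
    ∀ (m : ℕ) (p : List ℤ), Wt (aF N m p) ∧ (∀ u v, kF N m p u v = kF N m p v u) ∧
      (∀ σ : Mp N, (WL N m p (toX σ) : ℝ) = wP (aF N m p) σ) ∧
      (∀ σ ∈ MM (∅ : Finset (Fin N)), (WL N m p (toX σ) : ℝ) = w (aF N m p) σ) ∧
      ∑ x ∈ Om N, (WL N m p x : ℝ) = Z (aF N m p) ∅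

/-- **ASW** (uses BAS, DIC). The closure is reached after `N` rounds (the reached set grows until it
is closed; BAS (1)). -/
def AswStmt : Prop :=
  ∀ (N : ℕ) (s : Fin N) (z : Mp N × Mp N),
    swL N s (toX z.1, toX z.2) = (toX (sw s z).1, toX (sw s z).2)

/-- **AMV** (uses BAS, DIC, ASW). For `N > 0` all digits are `< N`; `pmL N i σ k` is
`e6 (fun j => dig N i (idx σ k j))`; the backward permutation `k` is the inverse of the forward
permutation `(k+2) % 4`; `sw` is an involution on arbitrary pairs of maps (BAS (5)).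
`e (c, s) = ∑ c k j · N^(6k+j) + s · N^24` (or `finFunctionFinEquiv`). -/
def AmvStmt : Prop :=
  ∀ N : ℕ, (∀ i < N ^ 25, ∀ σ < 2, ∀ x ∈ Om N, ∀ y ∈ Om N, mvL N i (1 - σ) (mvL N i σ (x, y)) = (x, y)) ∧
    ∃ e : Mv N → ℕ, Function.Injective e ∧ ∀ i, e i < N ^ 25 ∧ ∀ z : Mp N × Mp N,
      mvL N (e i) 1 (toX z.1, toX z.2) = (toX (mv i z).1, toX (mv i z).2)

/-- **ALI** (uses LI, DIC, AMV). `ε = 1/(3 m⁴)`, `270 m^64 ≤ m^65`; the terms are nonnegative. -/
def AliStmt : Prop :=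
  ∀ (N m : ℕ) (p : List ℤ) (g : X → ℝ), 2000 ≤ m → N ≤ m → NF (aF N m p) (1 / (3 * (m : ℝ) ^ 4)) →
    Var (Om N) (fun x => (WL N m p x : ℝ)) g * ∑ x ∈ Om N, (WL N m p x : ℝ) ≤
      (m : ℝ) ^ 65 * ∑ i ∈ range (N ^ 25), ∑ x ∈ Om N, ∑ y ∈ Om N,
        min ((WL N m p x : ℝ) * WL N m p y)
            ((WL N m p (mvL N i 1 (x, y)).1 : ℝ) * WL N m p (mvL N i 1 (x, y)).2) *
          (g x + g y - g (mvL N i 1 (x, y)).1 - g (mvL N i 1 (x, y)).2) ^ 2

/-- **AHT**. Heights: the exponent is at most `m^117`, `H0 + 1 < 2^m`. Ratios: for `u, v < N`,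
`kk p' u v = zcl (kk p u v + δ)`, `|δ| ≤ m`, `zcl` is 1-Lipschitz and idempotent, so the exponent
changes by at most `m²`, `|ρ^Δ - 1| ≤ 2 m²/H0`. -/
def AhtStmt : Prop :=
  ∀ (N m : ℕ) (adj : List Bool) (p : List ℤ) (x : X), 2000 ≤ m → N ≤ m → val N x →
    (0 < WL N m p x ∧ (WL N m p x).num.toNat < 2 ^ rh m ∧ (WL N m p x).den < 2 ^ rh m) ∧
    ∀ B, |(WL N m (updL N m adj p B) x : ℝ) - WL N m p x| ≤ WL N m p x / rH m

/-- **AUD** (uses DYN, DIC). Deterministic part of the update. For `u, v < N`: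
`kk p' u v = kk p u v + dl (min u v) (max u v)` (the clamp is inactive as `(s+1) m ≤ m^116`),
`fz p' ↔ stp`. `ZE` is symmetric. If `stp`: nothing changes; `done` is inherited, or no pair `u < v`
is `hiP` (`2 + 1/20 ≤ 3`). Otherwise DYN with `δ u v = dl (min u v) (max u v)`. -/
def AudStmt : Prop :=
  ∀ (N m : ℕ) (G : SimpleGraph (Fin N)) [DecidableRel G.Adj] (s : ℕ) (p : List ℤ) (B : List X),
    2000 ≤ m → N ≤ m → s < rL m → IA G m s p →
    (∀ u v : Fin N, u < v → |(cntB m B u v : ℝ) - rB m * (ZE (aF N m p) u v / Z (aF N m p) ∅)| ≤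
      rB m * (1 / (20 * (m : ℝ) ^ 4))) →
    IA G m (s + 1) (updL N m (adjBits G) p B)

/-- **AUP** (uses AUD, EPL, DIC). Hoeffding for the indicator of `gx x u = v`, `ξ = 1/(20 m⁴)`,
union bound over the pairs. -/
def AupStmt : Prop :=
  ∀ (N m : ℕ) (G : SimpleGraph (Fin N)) [DecidableRel G.Adj] (s : ℕ) (p : List ℤ),
    2000 ≤ m → N ≤ m → s < rL m → IA G m s p →
    EP (Om N) (fun x => (WL N m p x : ℝ) / ∑ y ∈ Om N, (WL N m p y : ℝ)) (rB m)
      (fun B => @ite _ (IA G m (s + 1) (updL N m (adjBits G) p B)) (Classical.dec _) 0 1) ≤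
        (2 : ℝ)⁻¹ ^ (2 * m)

/-- **ASYM**. Symmetrisation: if a family `f κ ∈ MM ∅` (`κ` in a finite set stable under the
permutations of the vertices) is equivariant, it is equidistributed: two fixed point free
involutions are conjugate (`Equiv.Perm.isConj_iff_cycleType_eq`, all cycles have length `2`), so the
fibres have the same size. -/
def AsymStmt : Prop :=
  ∀ (N : ℕ) (β : Type) (K : Finset (Fin N → β)) (f : (Fin N → β) → Mp N),
    (∀ κ ∈ K, f κ ∈ MM ∅ ∧ ∀ π : Equiv.Perm (Fin N), κ ∘ π ∈ K ∧ ∀ v, π (f (κ ∘ π) v) = f κ (π v)) →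
    ∀ φ : Mp N → ℝ, (MM (∅ : Finset (Fin N))).card * ∑ κ ∈ K, φ (f κ) =
      K.card * ∑ σ ∈ MM (∅ : Finset (Fin N)), φ σ

/-- **AINI** (uses ASYM, DIC, AV). `Av (N b)` of a function of the `N` fields is the average over
`κ : Fin N → Fin (2^b)`, `b = 5m`. For injective `κ` the rank is a permutation `r`, the output is
`r⁻¹ ∘ xr ∘ r`, equivariant. The non-injective `κ` have mass `≤ N² 2^(-5m)`; the error is at most
twice this. All initial weights are `1`. -/
def AiniStmt : Prop :=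
  ∀ (N m : ℕ) (φ : X → ℝ), 2000 ≤ m → N ≤ m → N % 2 = 0 → (∀ x, |φ x| ≤ 1) →
    |Av (N * (5 * m)) (fun u => φ (iniL N m u)) -
      ∑ x ∈ Om N, (WL N m [] x : ℝ) / (∑ y ∈ Om N, (WL N m [] y : ℝ)) * φ x| ≤ (2 : ℝ)⁻¹ ^ (4 * m)

/-- **AI0** (uses CNT, DIC). All weights are `1`; `log (N^N) ≤ m²`. -/
def Ai0Stmt : Prop :=
  ∀ (N m : ℕ) (G : SimpleGraph (Fin N)), 2000 ≤ m → N ≤ m → N % 2 = 0 →
    IA G m 0 [] ∧ (z0L N : ℝ) = ∑ x ∈ Om N, (WL N m [] x : ℝ)

/-- **AFIN** (uses LOW, NPM, DIC). `N` is even (CNT or `Function.Involutive.card_fixedPoints`);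
at `s = rL` the flag is set (`m² - m³ < 0`, LOW). A perfect matching either uses only pairs with
`G.Adj ∧ k = 0` (weight `1`) or is counted in some `ZE u v ≤ 3 Z/m⁴`. -/
def AfinStmt : Prop :=
  ∀ (N m : ℕ) (G : SimpleGraph (Fin N)) [DecidableRel G.Adj], 2000 ≤ m → N ≤ m →
    (Crest.Matchings.numPerfectMatchings G = 0 → ∀ p x, finL N m (adjBits G) p x = 0) ∧
    (Crest.Matchings.numPerfectMatchings G ≠ 0 → N % 2 = 0 ∧ (Om N).Nonempty ∧
      ∀ p, IA G m (rL m) p →
        (∀ x ∈ Om N, 0 ≤ finL N m (adjBits G) p x ∧ finL N m (adjBits G) p x ≤ 1) ∧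
        ∑ x ∈ Om N, (WL N m p x : ℝ) * finL N m (adjBits G) p x =
          Crest.Matchings.numPerfectMatchings G ∧
        ∑ x ∈ Om N, (WL N m p x : ℝ) ≤ 2 * Crest.Matchings.numPerfectMatchings G)

/-- **APT1**. Weights (`pt_qzpow`, `ZT`; see `R309/PT0`, `R302/PT0` for `zcl`), update, final test. -/
def Apt1Stmt : Prop :=
  PT (fun q : In64 × List ℤ × X => (mdl q.1).W q.2.1 q.2.2) ∧
  PT (fun q : In64 × List ℤ × List X => (mdl q.1).upd q.2.1 q.2.2) ∧
  PT (fun q : In64 × List ℤ × X => (mdl q.1).fin q.2.1 q.2.2)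

/-- **APT2**. Moves (`PT.iter` for the closure), initial sampler, parameters, sizes. -/
def Apt2Stmt : Prop :=
  PT (fun q : In64 × ℕ × ℕ × X × X => (mdl q.1).mv q.2.1 q.2.2.1 q.2.2.2) ∧
  PT (fun q : In64 × Bin => (mdl q.1).ini q.2.val) ∧
  PT (fun q => (mdl q).m) ∧ PT (fun q => (mdl q).nm) ∧ PT (fun q => (mdl q).bI) ∧
  PT (fun q => (mdl q).z0) ∧
  ∃ B : In64 → ℕ, PB B ∧ (∀ q p y, (mdl q).W p y ≠ 0 → sz y ≤ B q) ∧
    (∀ q p l, sz ((mdl q).upd p l) ≤ B q) ∧ ∀ q u, sz ((mdl q).ini u) ≤ B q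

theorem anchorA : True := by
  have := @gx.eq_1; have := @toX.eq_1; have := @Om.eq_1; have := @val.eq_1; have := @H0.eq_1
  have := @kk.eq_1; have := @kF.eq_1; have := @aF.eq_1; have := @WL.eq_1; have := @swN.eq_1
  have := @dig.eq_1; have := @idx.eq_1; have := @pmL.eq_1; have := @cmpL.eq_1; have := @clo.eq_1
  have := @clsL.eq_1; have := @mixL.eq_1; have := @swL.eq_1; have := @mvL.eq_1; have := @ad.eq_1
  have := @cntB.eq_1; have := @hiP.eq_1; have := @fz.eq_1; have := @stp.eq_1; have := @dl.eq_1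
  have := @updL.eq_1; have := @finL.eq_1; have := @rkL.eq_1; have := @xr.eq_1; have := @iniL.eq_1
  have := @z0L.eq_1; have := @mOf.eq_1; have := @mdl.eq_1
  trivial

end Crest.Agent.R304
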