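import Crest.Agent.R309.DefsA

/-!
Row 304 (S0464), part P: populations of `K` replicas with pair moves. Only a linearised Poincaré
inequality is available; the marginals on all but a few replicas converge from a warm start.
-/

set_option autoImplicit false

namespace Crest.Agent.R304

open Finset

section P

variable {α : Type} [Fintype α] [DecidableEq α] {K : ℕ}

/-- product weight -/
def pm (μ : α → ℝ) (x : Fin K → α) : ℝ := ∏ i, μ (x i)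

/-- replace two replicas -/
def up2 (x : Fin K → α) (a b : Fin K) (z : α × α) : Fin K → α :=
  Function.update (Function.update x a z.1) b z.2

/-- the pair kernel acting on the replicas `a, b` -/
def Pab (P : α × α → α × α → ℝ) (a b : Fin K) (F : (Fin K → α) → ℝ) (x : Fin K → α) : ℝ :=
  ∑ z, P (x a, x b) z * F (up2 x a b z)

/-- the population kernel: each ordered pair is chosen with probability `p` -/
def PK (P : α × α → α × α → ℝ) (p : ℝ) (F : (Fin K → α) → ℝ) (x : Fin K → α) : ℝ :=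
  F x + p * ∑ a, ∑ b, if a = b then 0 else (Pab P a b F x - F x)

/-- conditional expectation given the replicas in `A` -/
def EA (μ : α → ℝ) (A : Finset (Fin K)) (F : (Fin K → α) → ℝ) (x : Fin K → α) : ℝ :=
  ∑ y, pm μ y * F (fun i => if i ∈ A then x i else y i)

/-- squared norm -/
def nr (μ : α → ℝ) (F : (Fin K → α) → ℝ) : ℝ := ∑ x, pm μ x * F x ^ 2

/-- Dirichlet form of one pair (twice the energy) -/
def Dab (μ : α → ℝ) (P : α × α → α × α → ℝ) (a b : Fin K) (F : (Fin K → α) → ℝ) : ℝ :=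
  ∑ x, pm μ x * ∑ z, P (x a, x b) z * (F x - F (up2 x a b z)) ^ 2

/-- squared norm of the marginal on the first `k` replicas -/
def vk (μ : α → ℝ) (F : (Fin K → α) → ℝ) (k : ℕ) : ℝ :=
  nr μ (EA μ (univ.filter (fun i : Fin K => i.val < k)) F)

/-- exchangeable functions -/
def Sym (F : (Fin K → α) → ℝ) : Prop := ∀ (π : Equiv.Perm (Fin K)) (x : Fin K → α), F (x ∘ π) = F x

/-- a positive probability vector -/
def Prob (μ : α → ℝ) : Prop := (∀ x, 0 < μ x) ∧ ∑ x, μ x = 1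

/-- a lazy reversible pair kernel with the linearised inequality -/
structure Ker (μ : α → ℝ) (P : α × α → α × α → ℝ) (Γ : ℝ) : Prop where
  prob : Prob μ
  nn : ∀ z z', 0 ≤ P z z'
  row : ∀ z, ∑ z', P z z' = 1
  lazy : ∀ z, 1 / 2 ≤ P z z
  rev : ∀ z z', μ z.1 * μ z.2 * P z z' = μ z'.1 * μ z'.2 * P z' z
  li : ∀ g : α → ℝ, ∑ x, μ x * g x ^ 2 - (∑ x, μ x * g x) ^ 2 ≤
    Γ * ∑ z : α × α, ∑ z' : α × α, μ z.1 * μ z.2 * P z z' * (g z.1 + g z.2 - g z'.1 - g z'.2) ^ 2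

end P

/-- **PEA**. Calculus of conditional expectations (the map `(x, y) ↦ (A.piecewise x y,
A.piecewise y x)` is an involution preserving `pm x * pm y`). -/
def PeaStmt : Prop :=
  ∀ (α : Type) [Fintype α] [DecidableEq α] (K : ℕ) (μ : α → ℝ), Prob μ →
    (∑ x : Fin K → α, pm μ x = 1 ∧ ∀ x : Fin K → α, 0 < pm μ x) ∧
    (∀ (A B : Finset (Fin K)) (F : (Fin K → α) → ℝ), EA μ A (EA μ B F) = EA μ (A ∩ B) F) ∧
    (∀ (A : Finset (Fin K)) (F G : (Fin K → α) → ℝ),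
      ∑ x, pm μ x * (EA μ A F x * G x) = ∑ x, pm μ x * (F x * EA μ A G x)) ∧
    (∀ (A B : Finset (Fin K)) (F : (Fin K → α) → ℝ), Sym F → A.card = B.card →
      nr μ (EA μ A F) = nr μ (EA μ B F)) ∧
    (∀ F : (Fin K → α) → ℝ, EA μ univ F = F ∧ ∀ x, EA μ ∅ F x = ∑ y, pm μ y * F y) ∧
    (∀ (A : Finset (Fin K)) (F : (Fin K → α) → ℝ),
      (∀ x y, (∀ i ∈ A, x i = y i) → EA μ A F x = EA μ A F y) ∧
      ((∀ x y, (∀ i ∈ A, x i = y i) → F x = F y) → EA μ A F = F)) ∧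
    (∀ (A B : Finset (Fin K)) (F : (Fin K → α) → ℝ), A ⊆ B → nr μ (EA μ A F) ≤ nr μ (EA μ B F) ∧
      nr μ (fun x => EA μ B F x - EA μ A F x) = nr μ (EA μ B F) - nr μ (EA μ A F)) ∧
    (∀ (A : Finset (Fin K)) (F : (Fin K → α) → ℝ) (a b : Fin K),
      nr μ (fun x => EA μ A F x - EA μ (A.erase a) F x - EA μ (A.erase b) F x +
          EA μ ((A.erase a).erase b) F x) =
        nr μ (EA μ A F) - nr μ (EA μ (A.erase a) F) - nr μ (EA μ (A.erase b) F) +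
          nr μ (EA μ ((A.erase a).erase b) F)) ∧
    ∀ (a b : Fin K) (Φ : (Fin K → α) → ℝ), a ≠ b →
      ∑ x, pm μ x * Φ x = ∑ x, pm μ x * ∑ z : α × α, μ z.1 * μ z.2 * Φ (up2 x a b z)

/-- **PAB** (uses PEA). One pair operator: self-adjoint, contracting (laziness:
`(∑ P f)² ≤ ∑ P f² - ½ ∑ P (f x - f y)²`, see `R309/MIX.local_var`), compatible with `EA`. -/
def PabStmt : Prop :=
  ∀ (α : Type) [Fintype α] [DecidableEq α] (K : ℕ) (μ : α → ℝ) (P : α × α → α × α → ℝ) (Γ : ℝ),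
    Ker μ P Γ → ∀ (a b : Fin K), a ≠ b →
    (∀ F G : (Fin K → α) → ℝ, ∑ x, pm μ x * (Pab P a b F x * G x) = ∑ x, pm μ x * (F x * Pab P a b G x)) ∧
    (∀ G : (Fin K → α) → ℝ, nr μ (Pab P a b G) ≤ nr μ G - Dab μ P a b G / 2 ∧
      0 ≤ Dab μ P a b G ∧ Dab μ P a b G ≤ 2 * nr μ G) ∧
    (∀ (A : Finset (Fin K)) (F : (Fin K → α) → ℝ), a ∈ A → b ∈ A →
      EA μ A (Pab P a b F) = Pab P a b (EA μ A F)) ∧
    ∀ (A : Finset (Fin K)) (F : (Fin K → α) → ℝ), a ∉ A → b ∉ A → EA μ A (Pab P a b F) = EA μ A F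

/-- **PEN** (uses PEA, PAB). `G = EA A F`, `h = G - E_{A-a} - E_{A-b} + E_{A-a-b}`. For fixed `x`,
`g t = EA (A.erase b) F (update x a t)`; by symmetry `EA (A.erase a) F (up2 x a b z) = g z.2`, so
`(G - h)(up2 x a b z) = g z.1 + g z.2 - const`. Apply `li` to `g`, average over `x`;
`Dab (G - h) ≤ 2 Dab G + 2 Dab h`. -/
def PenStmt : Prop :=
  ∀ (α : Type) [Fintype α] [DecidableEq α] (K : ℕ) (μ : α → ℝ) (P : α × α → α × α → ℝ) (Γ : ℝ),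
    Ker μ P Γ → 0 ≤ Γ → ∀ (A : Finset (Fin K)) (F : (Fin K → α) → ℝ) (a b : Fin K), Sym F → a ≠ b →
    a ∈ A → b ∈ A →
    nr μ (EA μ (A.erase b) F) - nr μ (EA μ ((A.erase a).erase b) F) ≤
      2 * Γ * Dab μ P a b (EA μ A F) +
        4 * Γ * (nr μ (EA μ A F) - nr μ (EA μ (A.erase a) F) - nr μ (EA μ (A.erase b) F) +
          nr μ (EA μ ((A.erase a).erase b) F))

/-- the one step inequality for the sequences `v` (before) and `v'` (after) -/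
def Rec (K : ℕ) (p Γ : ℝ) (v v' : ℕ → ℝ) : Prop :=
  ∀ j : ℕ, j + 3 ≤ K → v' (j + 2) ≤ v (j + 2) -
    p * ((j + 2) * (j + 1)) * ((1 + 1 / (4 * Γ)) * (v (j + 1) - v j) - (v (j + 2) - v (j + 1))) +
      2 * p * (j + 2) * (K - (j + 2)) * (v (j + 3) - v (j + 2))

/-- **PST** (uses PEA, PAB, PEN). `PK` is a convex combination of the identity and of the `Pab`;
`nr` is convex. For `A` = the first `k` replicas: both in `A`: PAB, PEN; one in `A`: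
`EA A (Pab F) = EA A (Pab (EA (A ∪ {a,b}) F))`, norm `≤ v (k+1)`; none: unchanged. -/
def PstStmt : Prop :=
  ∀ (α : Type) [Fintype α] [DecidableEq α] (K : ℕ) (μ : α → ℝ) (P : α × α → α × α → ℝ) (Γ p : ℝ),
    Ker μ P Γ → 1 ≤ Γ → 0 ≤ p → p * (K : ℝ) ^ 2 ≤ 1 →
    (∀ F G : (Fin K → α) → ℝ, ∑ x, pm μ x * (PK P p F x * G x) = ∑ x, pm μ x * (F x * PK P p G x)) ∧
    ∀ F : (Fin K → α) → ℝ, Sym F → Sym (PK P p F) ∧
      ∑ x, pm μ x * PK P p F x = ∑ x, pm μ x * F x ∧ nr μ (PK P p F) ≤ nr μ F ∧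
      vk μ F 0 = (∑ x, pm μ x * F x) ^ 2 ∧ vk μ F K = nr μ F ∧
      (∀ j, vk μ F j ≤ vk μ F (j + 1)) ∧
      (∀ j, j + 2 ≤ K → vk μ F (j + 1) - vk μ F j ≤ vk μ F (j + 2) - vk μ F (j + 1)) ∧
      Rec K p Γ (vk μ F) (vk μ (PK P p F))

/-- **PNUM**. `α = 1/(4Γ)`, `q = 1 + α/4`, `c k = q^(-(k-k₀))` on `[k₀, k₀+d]`, `Δ j = v (j+1) - v j`,
`U = ∑ c k (v k - 1)/(k(k-1))`, `S = ∑ c k Δ (k-2)`, `c = q^(-d) ≤ exp(-αd/8)`.
`∑ c k Δ(k-1) ≤ q S + c V`, `∑ c k Δ k ≤ q² S + (q+1) c V`, `2(K-k)/(k-1) ≤ α/8`, so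
`U' ≤ U - p ((α/2) S - 2 c V)`; by convexity `k₀ U ≤ 3 S + c V`; hence
`U' ≤ (1 - pαk₀/6) U + 3 p c V`, `U₀ ≤ V`, `v k₀ - 1 ≤ K² U`. -/
def PnumStmt : Prop :=
  ∀ (v : ℕ → ℕ → ℝ) (K k₀ d T : ℕ) (p Γ V : ℝ), 1 ≤ Γ → 0 < p → p * (K : ℝ) ^ 2 ≤ 1 → 2 ≤ k₀ →
    k₀ + d + 1 ≤ K → 64 * Γ * (K - k₀) ≤ k₀ - 1 → (∀ t, v t 0 = 1 ∧ v t K ≤ V) →
    (∀ t j, v t j ≤ v t (j + 1)) →
    (∀ t j, j + 2 ≤ K → v t (j + 1) - v t j ≤ v t (j + 2) - v t (j + 1)) →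
    (∀ t, Rec K p Γ (v t) (v (t + 1))) →
    v T k₀ - 1 ≤ (K : ℝ) ^ 2 * V *
      (Real.exp (-(p * k₀ * T / (24 * Γ))) + 72 * Γ * Real.exp (-(d / (32 * Γ))))

/-- **POP** (uses PEA, PST, PNUM). `F₀ x = ∏ ν (x i)/μ (x i)`, `nr F₀ ≤ (1+χ)^K ≤ 3`,
`∑ pm ν · PK^T φ = ⟨PK^T F₀, φ⟩ = ⟨EA A (PK^T F₀), φ⟩`, Cauchy–Schwarz. -/
def PopStmt : Prop :=
  ∀ (α : Type) [Fintype α] [DecidableEq α] (K k₀ d T : ℕ) (μ ν : α → ℝ) (P : α × α → α × α → ℝ)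
    (Γ p χ : ℝ), Ker μ P Γ → 1 ≤ Γ → 0 < p → p * (K : ℝ) ^ 2 ≤ 1 → 2 ≤ k₀ → k₀ + d + 1 ≤ K →
    64 * Γ * (K - k₀) ≤ k₀ - 1 → ∑ x, ν x = 1 → ∑ x, ν x ^ 2 / μ x ≤ 1 + χ → 0 ≤ χ → χ * K ≤ 1 →
    ∀ φ : (Fin K → α) → ℝ, (∀ x, |φ x| ≤ 1) → (∀ x y, (∀ i : Fin K, i.val < k₀ → x i = y i) → φ x = φ y) →
      (∑ x, pm ν x * (PK P p)^[T] φ x - ∑ x, pm μ x * φ x) ^ 2 ≤ 3 * (K : ℝ) ^ 2 *
        (Real.exp (-(p * k₀ * T / (24 * Γ))) + 72 * Γ * Real.exp (-(d / (32 * Γ))))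

/-- expectation over `k` independent samples with weights `μ` on `Ω` -/
def EP {X : Type} (Ω : Finset X) (μ : X → ℝ) : ℕ → (List X → ℝ) → ℝ
  | 0, φ => φ []
  | k + 1, φ => ∑ x ∈ Ω, μ x * EP Ω μ k (fun l => φ (x :: l))

/-- **EPL**. Calculus of `EP`: (1) product form, (2) splitting, (3) monotonicity and linearity,
(4) Hoeffding (`E e^{t(f-m)} ≤ 1 + t² ≤ e^{t²}` for `|t| ≤ 1/2`, `t = ± ξ/2`; see `R309/HOE`). -/
def EplStmt : Prop :=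
  ∀ (X : Type) [DecidableEq X] (Ω : Finset X) (μ : X → ℝ), (∀ x ∈ Ω, 0 ≤ μ x) → ∑ x ∈ Ω, μ x = 1 →
    (∀ k φ, EP Ω μ k φ = ∑ x : Fin k → {x // x ∈ Ω},
      pm (fun y : {x // x ∈ Ω} => μ y.1) x * φ (List.ofFn (fun i => (x i).1))) ∧
    (∀ k l φ, EP Ω μ (k + l) φ = EP Ω μ k (fun B => EP Ω μ l (fun R => φ (B ++ R)))) ∧
    (∀ k φ ψ, (∀ l : List X, l.length = k → (∀ x ∈ l, x ∈ Ω) → φ l ≤ ψ l) → EP Ω μ k φ ≤ EP Ω μ k ψ) ∧
    (∀ k φ ψ (c : ℝ), EP Ω μ k (fun l => φ l + ψ l) = EP Ω μ k φ + EP Ω μ k ψ ∧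
      EP Ω μ k (fun l => c * φ l) = c * EP Ω μ k φ ∧ EP Ω μ k (fun _ => c) = c) ∧
    ∀ (k : ℕ) (f : X → ℝ) (d : X) (ξ : ℝ), (∀ x ∈ Ω, |f x| ≤ 1) → 0 < ξ → ξ ≤ 1 →
      EP Ω μ k (fun l => if k * ξ < |∑ j ∈ range k, f (l.getD j d) - k * ∑ x ∈ Ω, μ x * f x|
        then 1 else 0) ≤ 2 * Real.exp (-(k * ξ ^ 2 / 4))

theorem anchorP : True := by
  have := @pm.eq_1; have := @up2.eq_1; have := @Pab.eq_1; have := @PK.eq_1; have := @EA.eq_1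
  have := @nr.eq_1; have := @Dab.eq_1; have := @vk.eq_1; have := @Sym.eq_1; have := @Prob.eq_1
  have := @Rec.eq_1; have := @EP.eq_1; have := @EP.eq_2; have := @EP.eq_def
  trivial

end Crest.Agent.R304
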