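import Crest.Agent.R309.DefsC
import Crest.Agent.R304.DefsP

/-!
Row 304 (S0464), part E: population annealing. At every stage two batches of replicas are used to
update the parameters and to estimate the ratio of the partition functions, the others run the pair
dynamics for the new parameters, and a few more are discarded.
-/

set_option autoImplicit false

namespace Crest.Agent.R304

open Finset Crest.Agent.PT Crest.Agent.QC Crest.Agent.R317 Crest.Agent.R300U Crest.Agent.R309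

/-! ### Parameters (powers of the size parameter `m ≥ 2000`; `m^150 ≤ 2^m`: `R302.BAS.pow_le_two_pow`) -/

/-- inverse step size -/
def rH (m : ℕ) : ℕ := m ^ 105
/-- number of stages -/
def rL (m : ℕ) : ℕ := m ^ 115
/-- initial population -/
def rK (m : ℕ) : ℕ := 4 * m ^ 209
/-- batch size -/
def rB (m : ℕ) : ℕ := m ^ 25
/-- discarded replicas -/
def rD (m : ℕ) : ℕ := m ^ 94
/-- replicas consumed per stage -/
def rR (m : ℕ) : ℕ := 2 * rB m + rD m + 1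
/-- steps per stage -/
def rT (m : ℕ) : ℕ := m ^ 304
/-- height of the weights -/
def rh (m : ℕ) : ℕ := m ^ 118

/-- states -/
abbrev X : Type := List ℕ

/-- A model: weights `W p x` (zero outside the state space), pair moves `mv i σ` (`i < nm`), an update
of the parameters from a batch, a final test function, an initial sampler from `bI` bits, the
initial partition function. -/
structure Mdl where
  W : List ℤ → X → ℚ
  mv : ℕ → ℕ → X × X → X × X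
  upd : List ℤ → List X → List ℤ
  fin : List ℤ → X → ℚ
  ini : ℕ → X
  z0 : ℚ
  m : ℕ
  nm : ℕ
  bI : ℕ

/-- `k` consecutive entries -/
def sub (l : List X) (s k : ℕ) : List X := mkL k (fun j => l.getD (s + j) [])

/-- rounded average over a batch -/
def avg (m : ℕ) (f : X → ℚ) (B : List X) : ℚ :=
  ((∑ j ∈ range (rB m), min (2 * 2 ^ m) ⌊2 ^ m * f (B.getD j [])⌋₊ : ℕ) : ℚ) / (rB m * 2 ^ m)

/-- parameters, estimate, population -/
abbrev St : Type := List ℤ × ℚ × List X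

namespace Mdl

variable (M : Mdl)

def aK : ℕ := (rK M.m).size
def aB : ℕ := M.nm.size
def b0 : ℕ := 2 * M.aK + M.aB + 2
def b1 : ℕ := M.b0 + 4 * rh M.m
/-- bits of one stage -/
def bS : ℕ := rT M.m * M.b1
/-- all the bits -/
def bT : ℕ := rK M.m * M.bI + rL M.m * M.bS

/-- Metropolis step for the replicas `a, b`, move `i`, direction `σ`, coin `c` -/
def pstep (p : List ℤ) (l : List X) (a b i σ c : ℕ) : List X :=
  if c < accN (4 * rh M.m) (M.W p (l.getD a []) * M.W p (l.getD b []))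
      (M.W p (M.mv i σ (l.getD a [], l.getD b [])).1 * M.W p (M.mv i σ (l.getD a [], l.getD b [])).2) then
    mkL l.length (fun j => if j = a then (M.mv i σ (l.getD a [], l.getD b [])).1
      else if j = b then (M.mv i σ (l.getD a [], l.getD b [])).2 else l.getD j [])
  else l

/-- one step of the population chain, from `b1` random bits -/
def cstep (p : List ℤ) (l : List X) (u : ℕ) : List X :=
  if fld u 0 M.aK < l.length ∧ fld u M.aK M.aK < l.length ∧ fld u 0 M.aK ≠ fld u M.aK M.aK ∧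
      fld u (2 * M.aK) M.aB < M.nm ∧ fld u (2 * M.aK + M.aB) 1 = 1 then
    M.pstep p l (un l.length (fld u 0 M.aK)) (un l.length (fld u M.aK M.aK))
      (un M.nm (fld u (2 * M.aK) M.aB)) (un 1 (fld u (2 * M.aK + M.aB + 1) 1))
      (fld u M.b0 (4 * rh M.m))
  else l

/-- run the chain and discard -/
def run (p : List ℤ) (l : List X) (u : ℕ) : List X :=
  sub (iterN M.b1 (M.cstep p) l u (rT M.m)) 0 (l.length - (rD M.m + 1))

/-- one stage -/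
def stage (s : St) (u : ℕ) : St :=
  (M.upd s.1 (sub s.2.2 0 (rB M.m)),
    s.2.1 * avg M.m (fun x => M.W (M.upd s.1 (sub s.2.2 0 (rB M.m))) x / M.W s.1 x)
      (sub s.2.2 (rB M.m) (rB M.m)),
    M.run (M.upd s.1 (sub s.2.2 0 (rB M.m))) (sub s.2.2 (2 * rB M.m) (s.2.2.length - 2 * rB M.m)) u)

/-- the initial state -/
def start (u : ℕ) : St := ([], M.z0, mkL (rK M.m) (fun j => M.ini (fld u (j * M.bI) M.bI)))

/-- the final state -/
def last (u : ℕ) : St :=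
  iterN M.bS M.stage (M.start (fld u 0 (rK M.m * M.bI))) (fld u (rK M.m * M.bI) (rL M.m * M.bS))
    (rL M.m)

/-- the output -/
def out (u : ℕ) : ℚ := (M.last u).2.1 * avg M.m (M.fin (M.last u).1) (sub (M.last u).2.2 0 (rB M.m))

/-- partition function -/
def Z (Ω : Finset X) (p : List ℤ) : ℝ := ∑ x ∈ Ω, (M.W p x : ℝ)

/-- the probability vector -/
noncomputable def μ (Ω : Finset X) (p : List ℤ) (x : X) : ℝ := (M.W p x : ℝ) / M.Z Ω p

/-- What the engine needs: `Ω` is the state space, `I s p` the invariant at stage `s`, `A` the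
number to be estimated. -/
structure Good (Ω : Finset X) (I : ℕ → List ℤ → Prop) (A : ℝ) : Prop where
  big : 2000 ≤ M.m
  nm : M.nm ≤ M.m ^ 25
  ne : Ω.Nonempty
  zero : ∀ p x, x ∉ Ω → M.W p x = 0
  ht : ∀ p, ∀ x ∈ Ω, 0 < M.W p x ∧ (M.W p x).num.toNat < 2 ^ rh M.m ∧ (M.W p x).den < 2 ^ rh M.m
  inv : ∀ i < M.nm, ∀ σ < 2, ∀ x ∈ Ω, ∀ y ∈ Ω, M.mv i (1 - σ) (M.mv i σ (x, y)) = (x, y)
  li : ∀ s p, I s p → ∀ g : X → ℝ, Var Ω (fun x => (M.W p x : ℝ)) g * M.Z Ω p ≤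
    (M.m : ℝ) ^ 65 * ∑ i ∈ range M.nm, ∑ x ∈ Ω, ∑ y ∈ Ω,
      min ((M.W p x : ℝ) * M.W p y) ((M.W p (M.mv i 1 (x, y)).1 : ℝ) * M.W p (M.mv i 1 (x, y)).2) *
        (g x + g y - g (M.mv i 1 (x, y)).1 - g (M.mv i 1 (x, y)).2) ^ 2
  rat : ∀ s < rL M.m, ∀ p, I s p → ∀ B, ∀ x ∈ Ω,
    |(M.W (M.upd p B) x : ℝ) - M.W p x| ≤ M.W p x / rH M.m
  step : ∀ s < rL M.m, ∀ p, I s p → EP Ω (M.μ Ω p) (rB M.m)
    (fun B => @ite _ (I (s + 1) (M.upd p B)) (Classical.dec _) 0 1) ≤ (2 : ℝ)⁻¹ ^ (2 * M.m)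
  i0 : I 0 [] ∧ (M.z0 : ℝ) = M.Z Ω []
  ini : ∀ φ : X → ℝ, (∀ x, |φ x| ≤ 1) →
    |Av M.bI (fun u => φ (M.ini u)) - ∑ x ∈ Ω, M.μ Ω [] x * φ x| ≤ (2 : ℝ)⁻¹ ^ (4 * M.m)
  fin : ∀ p, I (rL M.m) p → (∀ x ∈ Ω, 0 ≤ M.fin p x ∧ M.fin p x ≤ 1) ∧
    ∑ x ∈ Ω, (M.W p x : ℝ) * M.fin p x = A ∧ M.Z Ω p ≤ 2 * A

/-- the invariant of the engine -/
def Inv (Ω : Finset X) (I : ℕ → List ℤ → Prop) (s : ℕ) (p : List ℤ) (z : ℚ) : Prop :=
  I s p ∧ |(z : ℝ) - M.Z Ω p| ≤ ((1 + 1 / (4 * (M.m : ℝ) ^ 116)) ^ s - 1) * M.Z Ω p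

end Mdl

/-- **EKR** (as `R302/ESAMP`; `KT.acq_facts`, `KT.Av_accept`, AV). On `α = ↥Ω`:
`P z z' = ∑_{i<nm} ∑_{σ<2} [mv i σ z = z'] acq (W z) (W z') / (4 · 2^aB)` for `z' ≠ z` (a proposal of
weight `0` is rejected: `accN = 0`); reversible by `inv`; `2^aB ≤ 2 nm + 1`, `min ≤ 2 w acq`, so
`Γ = m^65 · 8 · (2 nm + 1) ≤ m^91`. -/
def EkrStmt : Prop :=
  ∀ (M : Mdl) (Ω : Finset X) (I : ℕ → List ℤ → Prop) (A : ℝ), M.Good Ω I A → ∀ s p, I s p →
    ∃ P : {x // x ∈ Ω} × {x // x ∈ Ω} → {x // x ∈ Ω} × {x // x ∈ Ω} → ℝ,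
      Ker (fun x : {x // x ∈ Ω} => M.μ Ω p x.1) P ((M.m : ℝ) ^ 91) ∧
      ∀ K ≤ rK M.m, ∀ (φ : List X → ℝ) (x : Fin K → {x // x ∈ Ω}),
        Kt M.b1 (M.cstep p) φ (List.ofFn (fun i => (x i).1)) =
          PK P (1 / 4 ^ M.aK) (fun y : Fin K → {x // x ∈ Ω} => φ (List.ofFn (fun i => (y i).1))) x

/-- **ECH** (uses EKR, POP, EPL, ITR). `k₀ = K - (rD+1)`, `d = rD`, `χ = 9/rH²`
(`|ν/μ - 1| ≤ 3/rH`), `2^aK ≤ 2 rK + 1 ≤ 3 rK`, `K < 2^aK`; exponents `≥ m⁴/1728` and `m³/32`. -/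
def EchStmt : Prop :=
  ∀ (M : Mdl) (Ω : Finset X) (I : ℕ → List ℤ → Prop) (A : ℝ), M.Good Ω I A → ∀ s p p', I s p' →
    (∀ x ∈ Ω, |(M.W p' x : ℝ) - M.W p x| ≤ M.W p x / rH M.m) → ∀ K, K ≤ rK M.m →
    2 * M.m ^ 209 ≤ K - (rD M.m + 1) → ∀ ψ : List X → ℝ, (∀ l, |ψ l| ≤ 1) →
      |EP Ω (M.μ Ω p) K (fun l => Av M.bS (fun u => ψ (M.run p' l u))) -
        EP Ω (M.μ Ω p') (K - (rD M.m + 1)) ψ| ≤ (2 : ℝ)⁻¹ ^ (2 * M.m)

/-- **EAV** (uses EPL). Hoeffding for `(f - c)/η` with `ξ = 1/(32 m^11)`; rounding costs `2^(-m)`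
and the clip is inactive. -/
def EavStmt : Prop :=
  ∀ (m : ℕ) (Ω : Finset X) (μ : X → ℝ) (f : X → ℚ) (c η : ℝ), 2000 ≤ m → (∀ x ∈ Ω, 0 ≤ μ x) →
    ∑ x ∈ Ω, μ x = 1 → 0 < η → (∀ x ∈ Ω, 0 ≤ f x ∧ f x ≤ 2 ∧ |(f x : ℝ) - c| ≤ η) →
    EP Ω μ (rB m) (fun B => if η / (32 * (m : ℝ) ^ 11) + (2 : ℝ)⁻¹ ^ m <
      |(avg m f B : ℝ) - ∑ x ∈ Ω, μ x * f x| then 1 else 0) ≤ (2 : ℝ)⁻¹ ^ (2 * m)

/-- **ESG** (uses ECH, EAV, EPL). Split the population into two batches and the rest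
(`K = rB + (rB + K')`). Outside two events of probability `2^(-2m)` the new pair satisfies
`Inv (s+1)` (`c = 1`, `η = 1/rH`, `Z'/Z ≥ 1/2`); then ECH. -/
def EsgStmt : Prop :=
  ∀ (M : Mdl) (Ω : Finset X) (I : ℕ → List ℤ → Prop) (A : ℝ), M.Good Ω I A → ∀ s < rL M.m,
    ∀ (ψ : St → ℝ) (γ : ℝ), (∀ t, 0 ≤ ψ t ∧ ψ t ≤ 1) →
    (∀ p z, M.Inv Ω I (s + 1) p z →
      EP Ω (M.μ Ω p) (rK M.m - (s + 1) * rR M.m) (fun l => ψ (p, z, l)) ≤ γ) →
    ∀ p z, M.Inv Ω I s p z →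
      EP Ω (M.μ Ω p) (rK M.m - s * rR M.m) (fun l => Kt M.bS M.stage ψ (p, z, l)) ≤
        γ + 3 * (2 : ℝ)⁻¹ ^ (2 * M.m)

/-- **EOUT** (uses ESG, EAV, EPL, ITR, AV). `ψ₀ t` = indicator that the output computed from `t` is
bad; `ψ_j = (Kt bS stage)^[j] ψ₀`; backward induction with ESG; the initial population is within
`rK · 2^(-4m)` of the product law (hybrid argument, induction on the length);
`(1 + 1/(4 m^116))^rL ≤ 1 + 1/(2m)`. -/
def EoutStmt : Prop :=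
  ∀ (M : Mdl) (Ω : Finset X) (I : ℕ → List ℤ → Prop) (A : ℝ), M.Good Ω I A →
    1 - (2 : ℝ)⁻¹ ^ M.m ≤ Pb M.bT (fun u => |(M.out u : ℝ) - A| ≤ A / M.m)

/-- **EPT** (as `R302/EOPT`, with `PT`). A replica is only replaced by a state of nonzero weight, so
its size stays bounded; populations do not grow; the estimate is multiplied by a rational with
numerator `≤ 2 · rB · 2^m` and denominator `≤ rB · 2^m`. Also: the output is nonnegative, and zero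
if `fin` vanishes. -/
def EptStmt : Prop :=
  (∀ (α : Type) [Enc α] (M : α → Mdl) (B : α → ℕ), PB B → PT (fun x => (M x).m) →
    PT (fun x => (M x).nm) → PT (fun x => (M x).bI) → PT (fun x => (M x).z0) →
    PT (fun q : α × List ℤ × X => (M q.1).W q.2.1 q.2.2) →
    PT (fun q : α × ℕ × ℕ × X × X => (M q.1).mv q.2.1 q.2.2.1 q.2.2.2) →
    PT (fun q : α × List ℤ × List X => (M q.1).upd q.2.1 q.2.2) →
    PT (fun q : α × List ℤ × X => (M q.1).fin q.2.1 q.2.2) →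
    PT (fun q : α × Bin => (M q.1).ini q.2.val) →
    (∀ x p y, (M x).W p y ≠ 0 → sz y ≤ B x) → (∀ x p l, sz ((M x).upd p l) ≤ B x) →
    (∀ x u, sz ((M x).ini u) ≤ B x) →
    PT (fun q : α × Bin => (M q.1).out q.2.val) ∧ PT (fun x => (M x).bT)) ∧
  ∀ M : Mdl, (0 ≤ M.z0 → ∀ u, 0 ≤ M.out u) ∧ ((∀ p x, M.fin p x = 0) → ∀ u, M.out u = 0)

theorem anchorE : True := by
  have := @rH.eq_1; have := @rL.eq_1; have := @rK.eq_1; have := @rB.eq_1; have := @rD.eq_1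
  have := @rR.eq_1; have := @rT.eq_1; have := @rh.eq_1; have := @sub.eq_1; have := @avg.eq_1
  have := @Mdl.aK.eq_1; have := @Mdl.aB.eq_1; have := @Mdl.b0.eq_1; have := @Mdl.b1.eq_1
  have := @Mdl.bS.eq_1; have := @Mdl.bT.eq_1; have := @Mdl.pstep.eq_1; have := @Mdl.cstep.eq_1
  have := @Mdl.run.eq_1; have := @Mdl.stage.eq_1; have := @Mdl.start.eq_1; have := @Mdl.last.eq_1
  have := @Mdl.out.eq_1; have := @Mdl.Z.eq_1; have := @Mdl.μ.eq_1; have := @Mdl.Inv.eq_1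
  trivial

end Crest.Agent.R304
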