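import Crest.Agent.R304.DefsP

/-! Row 304, task PAB: one pair operator. -/

set_option autoImplicit false

namespace Crest.Agent.R304

open Finset

namespace PAB

variable {α : Type} {K : ℕ}

lemma up2_a (x : Fin K → α) {a b : Fin K} (hab : a ≠ b) (z : α × α) : up2 x a b z a = z.1 := by
  simp [up2, Function.update_of_ne hab]

lemma up2_b (x : Fin K → α) (a b : Fin K) (z : α × α) : up2 x a b z b = z.2 := by
  simp [up2]

lemma up2_up2 (x : Fin K → α) (a b : Fin K) (z z' : α × α) :
    up2 (up2 x a b z) a b z' = up2 x a b z' := by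
  funext i
  unfold up2
  by_cases hb : i = b
  · subst hb; simp
  · by_cases ha : i = a
    · subst ha; simp [Function.update_of_ne hb]
    · simp [Function.update_of_ne hb, Function.update_of_ne ha]

lemma up2_self (x : Fin K → α) (a b : Fin K) : up2 x a b (x a, x b) = x := by
  funext i
  unfold up2
  by_cases hb : i = b
  · subst hb; simp
  · by_cases ha : i = a
    · subst ha; simp [Function.update_of_ne hb]
    · simp [Function.update_of_ne hb, Function.update_of_ne ha]

lemma up2_piece_in (A : Finset (Fin K)) (x y : Fin K → α) {a b : Fin K} (ha : a ∈ A) (hb : b ∈ A)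
    (z : α × α) :
    up2 (fun i => if i ∈ A then x i else y i) a b z =
      fun i => if i ∈ A then up2 x a b z i else y i := by
  funext i
  unfold up2
  by_cases hib : i = b
  · subst hib; simp [hb]
  · by_cases hia : i = a
    · subst hia; simp [Function.update_of_ne hib, ha]
    · simp [Function.update_of_ne hib, Function.update_of_ne hia]

lemma up2_piece_out (A : Finset (Fin K)) (x y : Fin K → α) {a b : Fin K} (ha : a ∉ A) (hb : b ∉ A)
    (z : α × α) :
    up2 (fun i => if i ∈ A then x i else y i) a b z =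
      fun i => if i ∈ A then x i else up2 y a b z i := by
  funext i
  unfold up2
  by_cases hib : i = b
  · subst hib; simp [hb]
  · by_cases hia : i = a
    · subst hia; simp [Function.update_of_ne hib, ha]
    · simp [Function.update_of_ne hib, Function.update_of_ne hia]

lemma local_var {Y : Type} [Fintype Y] (p : Y → ℝ) (x : Y) (hp : ∀ y, 0 ≤ p y)
    (h1 : ∑ y, p y = 1) (h2 : 1 / 2 ≤ p x) (f : Y → ℝ) :
    (∑ y, p y * f y) ^ 2 ≤ ∑ y, p y * f y ^ 2 - (∑ y, p y * (f x - f y) ^ 2) / 2 := by
  classical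
  set D := ∑ y, p y * (f x - f y) ^ 2 with hD
  set m := ∑ y, p y * f y with hm
  have hD0 : 0 ≤ D := sum_nonneg fun y _ => mul_nonneg (hp y) (sq_nonneg _)
  have hexp : D = f x ^ 2 - 2 * f x * m + ∑ y, p y * f y ^ 2 := by
    have : ∀ y ∈ (univ : Finset Y), p y * (f x - f y) ^ 2 =
        f x ^ 2 * p y - 2 * f x * (p y * f y) + p y * f y ^ 2 := fun y _ => by ring
    rw [hD, sum_congr rfl this, sum_add_distrib, sum_sub_distrib, ← mul_sum, ← mul_sum, h1]
    ring
  have hlin : f x - m = ∑ y ∈ univ.erase x, p y * (f x - f y) := by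
    rw [sum_erase _ (by simp)]
    have : ∀ y ∈ (univ : Finset Y), p y * (f x - f y) = f x * p y - p y * f y :=
      fun y _ => by ring
    rw [sum_congr rfl this, sum_sub_distrib, ← mul_sum, h1]
    ring
  have hcs : (∑ y ∈ univ.erase x, p y * (f x - f y)) ^ 2 ≤
      (∑ y ∈ univ.erase x, p y) * ∑ y ∈ univ.erase x, p y * (f x - f y) ^ 2 := by
    refine sum_sq_le_sum_mul_sum_of_sq_eq_mul _ (fun y _ => hp y)
      (fun y _ => mul_nonneg (hp y) (sq_nonneg _)) (fun y _ => by ring)
  have h3 : ∑ y ∈ univ.erase x, p y = 1 - p x := by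
    rw [← h1, ← add_sum_erase univ _ (mem_univ x)]; ring
  have h4 : ∑ y ∈ univ.erase x, p y * (f x - f y) ^ 2 = D := by
    rw [hD, sum_erase _ (by simp)]
  rw [← hlin, h3, h4] at hcs
  have h5 : (1 - p x) * D ≤ (1 / 2) * D := mul_le_mul_of_nonneg_right (by linarith) hD0
  nlinarith

variable [Fintype α] [DecidableEq α]

lemma sa (hPea : PeaStmt) {μ : α → ℝ} {P : α × α → α × α → ℝ} {Γ : ℝ} (hK : Ker μ P Γ)
    {a b : Fin K} (hab : a ≠ b) (F G : (Fin K → α) → ℝ) :
    ∑ x, pm μ x * (Pab P a b F x * G x) = ∑ x, pm μ x * (F x * Pab P a b G x) := by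
  have h := (hPea α K μ hK.prob).2.2.2.2.2.2.2.2 a b
  rw [h _ hab, h (fun x => F x * Pab P a b G x) hab]
  refine sum_congr rfl fun x _ => ?_
  congr 1
  unfold Pab
  simp only [up2_a _ hab, up2_b, up2_up2]
  calc ∑ z : α × α, μ z.1 * μ z.2 * ((∑ z', P (z.1, z.2) z' * F (up2 x a b z')) * G (up2 x a b z))
      = ∑ z : α × α, ∑ z' : α × α,
          μ z'.1 * μ z'.2 * P z' z * (F (up2 x a b z') * G (up2 x a b z)) := by
        refine sum_congr rfl fun z _ => ?_
        rw [sum_mul, mul_sum]
        refine sum_congr rfl fun z' _ => ?_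
        rw [← hK.rev z z']
        ring
    _ = ∑ z' : α × α, ∑ z : α × α,
          μ z'.1 * μ z'.2 * P z' z * (F (up2 x a b z') * G (up2 x a b z)) := sum_comm
    _ = _ := by
        refine sum_congr rfl fun z _ => ?_
        rw [mul_sum, mul_sum]
        refine sum_congr rfl fun z' _ => ?_
        ring

lemma stat (hPea : PeaStmt) {μ : α → ℝ} {P : α × α → α × α → ℝ} {Γ : ℝ} (hK : Ker μ P Γ)
    {a b : Fin K} (hab : a ≠ b) (F : (Fin K → α) → ℝ) :
    ∑ x, pm μ x * Pab P a b F x = ∑ x, pm μ x * F x := by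
  have h := sa hPea hK hab F (fun _ => 1)
  have h1 : ∀ x : Fin K → α, Pab P a b (fun _ => (1 : ℝ)) x = 1 := by
    intro x
    unfold Pab
    simp [hK.row]
  simpa [h1] using h

end PAB

open PAB in
theorem PAB_proof (hPea : PeaStmt) : PabStmt := by
  intro α _ _ K μ P Γ hK a b hab
  have hpm := (hPea α K μ hK.prob).1.2
  refine ⟨sa hPea hK hab, fun G => ?_, fun A F ha hb => ?_, fun A F ha hb => ?_⟩
  · have h1 : nr μ (Pab P a b G) ≤ nr μ G - Dab μ P a b G / 2 := by
      have hs := stat hPea hK hab (fun x => G x ^ 2)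
      have : nr μ G - Dab μ P a b G / 2 = ∑ x, pm μ x *
          (Pab P a b (fun x => G x ^ 2) x -
            (∑ z, P (x a, x b) z * (G x - G (up2 x a b z)) ^ 2) / 2) := by
        unfold nr Dab
        rw [← hs, sum_div, ← sum_sub_distrib]
        exact sum_congr rfl fun x _ => by ring
      rw [this]
      unfold nr
      refine sum_le_sum fun x _ => mul_le_mul_of_nonneg_left ?_ (hpm x).le
      have := local_var (P (x a, x b)) (x a, x b) (hK.nn _) (hK.row _) (hK.lazy _)
        (fun z => G (up2 x a b z))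
      simp only [up2_self] at this
      exact this
    have h2 : 0 ≤ nr μ (Pab P a b G) :=
      sum_nonneg fun x _ => mul_nonneg (hpm x).le (sq_nonneg _)
    refine ⟨h1, ?_, by linarith⟩
    exact sum_nonneg fun x _ => mul_nonneg (hpm x).le
      (sum_nonneg fun z _ => mul_nonneg (hK.nn _ _) (sq_nonneg _))
  · funext x
    unfold EA Pab
    simp only [ha, hb, if_true, up2_piece_in A x _ ha hb]
    simp only [mul_sum]
    rw [sum_comm]
    exact sum_congr rfl fun z _ => sum_congr rfl fun y _ => by ring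
  · funext x
    have := stat hPea hK hab (fun y => F (fun i => if i ∈ A then x i else y i))
    unfold EA
    rw [← this]
    refine sum_congr rfl fun y _ => ?_
    congr 1
    unfold Pab
    simp only [ha, hb, if_false, up2_piece_out A x _ ha hb]

end Crest.Agent.R304
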